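import Vale.Agent.P004T.St

/-!
# P004, the spine: two more forms of the converse theorem
-/

set_option linter.all false

noncomputable section

namespace Vale.Agent.P004T

open NumberField UpperHalfPlane
open scoped NumberTheorySymbols
open Vale.Agent.P022 (Qb GQ)
open Vale.Agent.P022D.W (dec)
open Vale.Agent.P022E.GW (Ov)
open Vale.Agent.P004S (V Rp nu Z1 B1 Loc Two Rep)
open Vale.Agent.P004Z (Ok)
open P004N (RN Lat)

/-- **the converse theorem from the relaxed Selmer spaces** -/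
def CONVR (C : (ℕ → ℤ) → Prop) : Prop :=
  ∀ (N : ℕ) (G : ℍ → ℂ) (a : ℕ → ℤ) (L : PeriodPair), RN N G a → Lat N a L → C a →
    ∃ (r : Rp) (S : Finset ℕ) (P : Ideal (𝓞 Qb)), Rep r S ∧ Ov 2 P ∧ NoI r ∧
      ∀ δ : ℕ, Ok N δ → ¬ TwoR r (ds δ) →
        ∃ E : Set ℕ, PosD E ∧ ∀ δ' ∈ E, ¬ TwoR r (ds δ * -δ') → NT N δ δ' a L

/-- `ℚ(√e)` is imaginary, `2` and the primes of `S` and `d` split -/
structure Sp (S : Finset ℕ) (P : Ideal (𝓞 Qb)) (d e : ℤ) : Prop where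
  neg : e < -4
  sq : Squarefree e
  m8 : e % 8 = 1
  two : ∀ g ∈ dec P, nu e g = 0
  spl : ∀ l : ℕ, l.Prime → l ≠ 2 → l ∈ S ∨ (l : ℤ) ∣ d → J(e | l) = 1

/-- the form of `GWK` over `K` -/
def GWK2 : Prop := ∀ (r : Rp) (S : Finset ℕ) (P : Ideal (𝓞 Qb)) (d e : ℤ), Rep r S → Ov 2 P →
  NoI r → d ≠ 0 → Sp S P d e → ¬ TwoR r d → ¬ TwoR r (d * e) → ¬ TwoK r P d e

/-- **the converse theorem over `K`, short form** -/
def CONVK2 (C : (ℕ → ℤ) → Prop) : Prop :=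
  ∀ (N : ℕ) (G : ℍ → ℂ) (a : ℕ → ℤ) (L : PeriodPair), RN N G a → Lat N a L → C a →
    ∃ (r : Rp) (S : Finset ℕ) (P : Ideal (𝓞 Qb)), Rep r S ∧ Ov 2 P ∧ NoI r ∧
      ∀ δ : ℕ, Ok N δ → ∃ E : Set ℕ, PosD E ∧ ∀ δ' ∈ E, Sp S P (ds δ) (-δ') ∧
        (¬ TwoK r P (ds δ) (-δ') → NT N δ δ' a L)

theorem convr {C : (ℕ → ℤ) → Prop} (hI : ISO) (hL : LOC2) (hK : CONVR C) : CONV C := by
  intro N G a L hG hLa ha
  obtain ⟨r, S, P, hr, hP, hn, h⟩ := hK N G a L hG hLa ha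
  obtain ⟨n, Λ, hΛ, hc⟩ := hL r S P hr hP hn
  have h1 : ∀ d, (∀ i, ¬ Two r (Λ i) d) → ¬ TwoR r d := by
    rintro d hd ⟨c, c', k, k', hi⟩
    have z : ∀ {b}, Rel r d b → Z1 r d (dec P) b := fun hb =>
      ⟨hb.1.1.mono (Set.subset_univ _), fun g _ h _ => hb.1.2 g trivial h trivial⟩
    obtain ⟨i, h2, h3⟩ := hc d c c' (z k) (z k') (hI r S P d _ _ hr hP k k)
      (hI r S P d _ _ hr hP k k') (hI r S P d _ _ hr hP k' k) (hI r S P d _ _ hr hP k' k')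
    exact hd i ⟨c, c', ⟨k.1, by rw [hΛ]; exact h2, k.2⟩, ⟨k'.1, by rw [hΛ]; exact h3, k'.2⟩, hi⟩
  refine ⟨n, fun _ => r, fun _ => S, Λ, fun _ => hr, fun δ hδ hd => ?_⟩
  obtain ⟨E, hE, h3⟩ := h δ hδ (h1 _ hd)
  exact ⟨E, hE, fun δ' h4 h5 => h3 δ' h4 (h1 _ h5)⟩

theorem convr2 {C : (ℕ → ℤ) → Prop} (hW : GWK2) (hK : CONVK2 C) : CONVR C := by
  intro N G a L hG hLa ha
  obtain ⟨r, S, P, hr, hP, hn, h⟩ := hK N G a L hG hLa ha
  refine ⟨r, S, P, hr, hP, hn, fun δ hδ hd => ?_⟩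
  obtain ⟨E, hE, h3⟩ := h δ hδ
  exact ⟨E, hE, fun δ' h4 h5 =>
    (h3 δ' h4).2 (hW r S P _ _ hr hP hn (ds_ne hδ) (h3 δ' h4).1 hd h5)⟩

theorem gwk2 (hW : GWK) : GWK2 := by
  rintro r S P d e hr hP hn hd hs h1 h6 ⟨c, c', b, b', k, k', hi⟩
  refine h6 ⟨c', b', k.2.1, k'.2.1, fun x y hb => hi x y ?_ hb⟩
  refine by_contra fun k3 => h1 (hW r S P d _ hr hP hn hd (rel_comb k.1 k'.1 x y) ?_ k3)
  have h10 : B1 r d (dec P) (x • c' + y • b') := by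
    obtain ⟨m, hm⟩ := hb
    refine ⟨m, fun g hg => ?_⟩
    rw [hm g trivial, P004S.ac_congr r (e := d)]
    rw [P004S.nu_mul_left hd hs.sq.ne_zero, hs.two g hg, add_zero]
  convert b1_comb (b1_comb k.2.2 k'.2.2 x y) h10 1 1 using 1
  simp only [one_smul, smul_sub]
  abel

/-- stages are glued by cases -/
theorem CONVK2.or {C C' : (ℕ → ℤ) → Prop} (h : CONVK2 C) (h' : CONVK2 C') :
    CONVK2 fun a => C a ∨ C' a := fun N G a L h1 h2 k => k.elim (h N G a L h1 h2) (h' N G a L h1 h2)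

theorem CONV.or {C C' : (ℕ → ℤ) → Prop} (h : CONV C) (h' : CONV C') :
    CONV fun a => C a ∨ C' a := fun N G a L h1 h2 k => k.elim (h N G a L h1 h2) (h' N G a L h1 h2)

end Vale.Agent.P004T
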