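import Vale.Agent.P004S.Bas
import Vale.Agent.P004Z.St

/-!
# P004, the spine: from the blocks SMITH, GZ and the converse theorem to the density statement
-/

set_option linter.all false

noncomputable section

namespace Vale.Agent.P004T

open NumberField Filter Topology UpperHalfPlane
open Vale.Agent.P022 (Qb GQ)
open Vale.Agent.P022D.W (dec)
open Vale.Agent.P022E.GW (Ov)
open Vale.Agent.P004S (V Rp nu ac cp Z1 B1 B2 Loc Sel Two Rep Null SMITH)
open Vale.Agent.P004Z (Ok Dat Tors eps)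
open P004N (RN Lat)

/-! ### the converse theorem -/

/-- the discriminant `± δ ≡ 1` modulo `4` -/
def ds (δ : ℕ) : ℤ := eps δ * δ

/-- the Heegner point of the twist by `ds δ` for the field `ℚ(√-δ')` is not torsion -/
def NT (N δ δ' : ℕ) (a : ℕ → ℤ) (L : PeriodPair) : Prop :=
  ∃ β : ℤ, Dat N δ δ' β ∧ ¬ Tors N δ δ' β a L

open Classical in
/-- positive upper density -/
def PosD (E : Set ℕ) : Prop := ∃ c : ℝ, 0 < c ∧
  ∃ᶠ X : ℕ in atTop, c * X ≤ (((Finset.range X).filter (· ∈ E)).card : ℝ)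

/-- **almost all twists have a Heegner point of infinite order** (`C` = the stage) -/
def HNZ (C : (ℕ → ℤ) → Prop) : Prop :=
  ∀ (N : ℕ) (G : ℍ → ℂ) (a : ℕ → ℤ) (L : PeriodPair), RN N G a → Lat N a L → C a →
    Null fun d => ∃ δ : ℕ, Ok N δ ∧ d = ds δ ∧ ∀ δ', ¬ NT N δ δ' a L

/-- **the converse theorem, general form**: finitely many Selmer structures of your choice, fields
`ℚ(√-δ')` of your choice in a set of positive density which may depend on `δ` -/
def CONV (C : (ℕ → ℤ) → Prop) : Prop :=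
  ∀ (N : ℕ) (G : ℍ → ℂ) (a : ℕ → ℤ) (L : PeriodPair), RN N G a → Lat N a L → C a →
    ∃ (n : ℕ) (r : Fin n → Rp) (S : Fin n → Finset ℕ) (Λ : ∀ i, Loc (r i)),
      (∀ i, Rep (r i) (S i)) ∧ ∀ δ : ℕ, Ok N δ → (∀ i, ¬ Two (r i) (Λ i) (ds δ)) →
        ∃ E : Set ℕ, PosD E ∧ ∀ δ' ∈ E, (∀ i, ¬ Two (r i) (Λ i) (ds δ * -δ')) → NT N δ δ' a L

/-! ### the structure relaxed at `v`, strict at `v'` -/

/-- relaxed at `2`, trivial at the other primes -/
def Rel (r : Rp) (d : ℤ) (c : GQ → V) : Prop :=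
  Z1 r d Set.univ c ∧ ∀ (l : ℕ) (P : Ideal (𝓞 Qb)), Ov l P → l ≠ 2 → B1 r d (dec P) c

/-- the class `c + c'` over `K = ℚ(√e)` (`2` split) is relaxed at one prime above `2`, strict at the
other one (`c - c'` is its conjugate), trivial elsewhere -/
def KSel (r : Rp) (P : Ideal (𝓞 Qb)) (d e : ℤ) (c c' : GQ → V) : Prop :=
  Rel r d c ∧ Rel r (d * e) c' ∧ B1 r d (dec P) (c - c')

/-- this Selmer space has dimension at least two -/
def TwoK (r : Rp) (P : Ideal (𝓞 Qb)) (d e : ℤ) : Prop :=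
  ∃ c c' b b' : GQ → V, KSel r P d e c c' ∧ KSel r P d e b b' ∧ ∀ x y : ℚ_[2],
    B1 r d Set.univ (x • c + y • b) → B1 r (d * e) Set.univ (x • c' + y • b') → x = 0 ∧ y = 0

/-- the relaxed Selmer space has dimension at least two -/
def TwoR (r : Rp) (d : ℤ) : Prop :=
  ∃ c c' : GQ → V, Rel r d c ∧ Rel r d c' ∧
    ∀ x y : ℚ_[2], B1 r d Set.univ (x • c + y • c') → x = 0 ∧ y = 0

/-- no local invariants in any twist -/
def NoI (r : Rp) : Prop := ∀ (l : ℕ) (P : Ideal (𝓞 Qb)) (d : ℤ) (v : V), Ov l P →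
  (∀ g ∈ dec P, ac r d g v = v) → v = 0

/-- **the converse theorem over `K`** -/
def CONVK (C : (ℕ → ℤ) → Prop) : Prop :=
  ∀ (N : ℕ) (G : ℍ → ℂ) (a : ℕ → ℤ) (L : PeriodPair), RN N G a → Lat N a L → C a →
    ∃ (r : Rp) (S : Finset ℕ) (P : Ideal (𝓞 Qb)), Rep r S ∧ Ov 2 P ∧ NoI r ∧
      ∀ δ : ℕ, Ok N δ → ¬ TwoR r (ds δ) →
        (∀ c, Rel r (ds δ) c → B1 r (ds δ) (dec P) c → B1 r (ds δ) Set.univ c) →
        ∃ E : Set ℕ, PosD E ∧ ∀ δ' ∈ E, δ' ≠ 0 ∧ (∀ g ∈ dec P, nu (-δ') g = 0) ∧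
          (¬ TwoR r (ds δ * -δ') → (∀ c, Rel r (ds δ * -δ') c → B1 r (ds δ * -δ') (dec P) c →
            B1 r (ds δ * -δ') Set.univ c) → ¬ TwoK r P (ds δ) (-δ') → NT N δ δ' a L)

/-- reciprocity: the relaxed Selmer space is isotropic at `2` -/
def ISO : Prop := ∀ (r : Rp) (S : Finset ℕ) (P : Ideal (𝓞 Qb)) (d : ℤ) (c c' : GQ → V),
  Rep r S → Ov 2 P → Rel r d c → Rel r d c' → B2 r (dec P) (cp r d c c')

/-- finitely many local conditions cover all isotropic pairs -/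
def LOC2 : Prop := ∀ (r : Rp) (S : Finset ℕ) (P : Ideal (𝓞 Qb)), Rep r S → Ov 2 P → NoI r →
  ∃ (n : ℕ) (Λ : Fin n → Loc r), (∀ i, (Λ i).P = P) ∧ ∀ (d : ℤ) (c c' : GQ → V),
    Z1 r d (dec P) c → Z1 r d (dec P) c' → B2 r (dec P) (cp r d c c) →
    B2 r (dec P) (cp r d c c') → B2 r (dec P) (cp r d c' c) → B2 r (dec P) (cp r d c' c') →
    ∃ i, (∃ z ∈ (Λ i).L d, ∀ g ∈ dec P, c g = z g) ∧ ∃ z ∈ (Λ i).L d, ∀ g ∈ dec P, c' g = z g

/-- a strict class forces a second relaxed class -/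
def GWK : Prop := ∀ (r : Rp) (S : Finset ℕ) (P : Ideal (𝓞 Qb)) (d : ℤ) (c : GQ → V),
  Rep r S → Ov 2 P → NoI r → d ≠ 0 → Rel r d c → B1 r d (dec P) c → ¬ B1 r d Set.univ c →
  TwoR r d

/-! ### stages -/

/-- the stage holds for all sequences congruent to `a` modulo `2` at almost all primes -/
def Cg (C : (ℕ → ℤ) → Prop) (a : ℕ → ℤ) : Prop :=
  ∀ b : ℕ → ℤ, {p : ℕ | p.Prime ∧ ¬ (2 : ℤ) ∣ b p - a p}.Finite → C b

/-- residually irreducible -/
def Irr (a : ℕ → ℤ) : Prop := {p : ℕ | p.Prime ∧ Odd (a p)}.Infinite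

/-! ### glue -/

section null
variable {B B' : ℤ → Prop}

theorem null_mono (h : Null B) (hB : ∀ d, d ≠ 0 → B' d → B d) : Null B' := by
  classical
  refine squeeze_zero (fun X => by positivity) (fun X => ?_) h
  refine div_le_div_of_nonneg_right ?_ (Nat.cast_nonneg _)
  refine Nat.cast_le.2 (Finset.card_le_card fun d hd => ?_)
  simp only [Finset.mem_filter] at hd ⊢
  exact ⟨hd.1, hd.2.1, hB d hd.2.1 hd.2.2⟩

theorem null_or (h : Null B) (h' : Null B') : Null fun d => B d ∨ B' d := by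
  classical
  have h2 := h.add h'
  rw [add_zero] at h2
  refine squeeze_zero (fun X => by positivity) (fun X => ?_) h2
  rw [← add_div]
  refine div_le_div_of_nonneg_right ?_ (Nat.cast_nonneg _)
  rw [← Nat.cast_add]
  refine Nat.cast_le.2 (le_trans (Finset.card_le_card fun d hd => ?_) (Finset.card_union_le _ _))
  simp only [Finset.mem_filter, Finset.mem_union] at hd ⊢
  rcases hd.2.2 with k | k
  · exact Or.inl ⟨hd.1, hd.2.1, k⟩
  · exact Or.inr ⟨hd.1, hd.2.1, k⟩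

theorem null_false : Null fun _ => False := by
  simp only [Null, and_false, Finset.filter_false, Finset.card_empty, Nat.cast_zero, zero_div]
  exact tendsto_const_nhds

theorem null_ex {ι : Type} (T : Finset ι) {Q : ι → ℤ → Prop} (h : ∀ i ∈ T, Null (Q i)) :
    Null fun d => ∃ i ∈ T, Q i d := by
  classical
  induction T using Finset.induction_on with
  | empty => exact null_mono null_false fun d _ k => by simp at k
  | insert j T _ ih =>
    refine null_mono (null_or (h j (Finset.mem_insert_self _ _))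
      (ih fun i hi => h i (Finset.mem_insert_of_mem hi))) ?_
    rintro d _ ⟨i, hi, k⟩
    rcases Finset.mem_insert.1 hi with rfl | hi
    · exact Or.inl k
    · exact Or.inr ⟨i, hi, k⟩

/-- multiples of `m` -/
theorem null_comp (h : Null B) {m : ℤ} (hm : m ≠ 0) : Null fun d => B (m * d) := by
  classical
  have hk : 0 < m.natAbs := Int.natAbs_pos.2 hm
  have h1 := (h.comp (tendsto_id.const_mul_atTop' hk : Tendsto (fun X : ℕ => m.natAbs * X) _ _)
    ).const_mul (m.natAbs : ℝ)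
  rw [mul_zero] at h1
  refine squeeze_zero' (Eventually.of_forall fun X => by positivity) ?_ h1
  filter_upwards [eventually_gt_atTop 0] with X hX
  have hX' : (0 : ℝ) < X := by exact_mod_cast hX
  have hk' : (0 : ℝ) < m.natAbs := by exact_mod_cast hk
  simp only [Function.comp, id]
  rw [← mul_div_assoc, Nat.cast_mul (α := ℝ), mul_div_mul_left _ _ hk'.ne']
  refine div_le_div_of_nonneg_right (Nat.cast_le.2 ?_) hX'.le
  refine Finset.card_le_card_of_injOn (fun d => m * d) (fun d hd => ?_)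
    fun x _ y _ k => mul_left_cancel₀ hm k
  simp only [Finset.coe_filter, Finset.mem_Icc, Set.mem_setOf_eq] at hd ⊢
  have h3 : |d| ≤ X := abs_le.2 hd.1
  have h4 : |m * d| ≤ ((m.natAbs * X : ℕ) : ℤ) := by
    rw [abs_mul, Nat.cast_mul, Int.natCast_natAbs]
    exact mul_le_mul_of_nonneg_left h3 (abs_nonneg _)
  exact ⟨abs_le.1 h4, mul_ne_zero hm hd.2.1, hd.2.2⟩

/-- division by `m` -/
theorem null_mul (h : Null B) (m : ℤ) : Null fun D => ∃ d, D = m * d ∧ B d := by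
  classical
  refine squeeze_zero (fun X => by positivity) (fun X => ?_) h
  refine div_le_div_of_nonneg_right (Nat.cast_le.2 ?_) (Nat.cast_nonneg _)
  refine le_trans (Finset.card_le_card fun D hD => ?_) (Finset.card_image_le (f := fun d => m * d))
  simp only [Finset.mem_filter, Finset.mem_Icc, Finset.mem_image] at hD ⊢
  obtain ⟨h1, h2, d, rfl, h3⟩ := hD
  have hm : m ≠ 0 := left_ne_zero_of_mul h2
  have h4 : |d| ≤ |m * d| := by
    rw [abs_mul]
    exact le_mul_of_one_le_left (abs_nonneg _) (Int.one_le_abs hm)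
  exact ⟨d, ⟨abs_le.1 (h4.trans (abs_le.2 h1)), right_ne_zero_of_mul h2, h3⟩, rfl⟩

theorem ex_of_null (h : Null B) {E : Set ℕ} (hE : PosD E) : ∃ n ∈ E, ¬ B n := by
  classical
  by_contra hc
  push Not at hc
  obtain ⟨c, hc0, hf⟩ := hE
  have h1 := h.add (tendsto_one_div_atTop_nhds_zero_nat (𝕜 := ℝ))
  rw [add_zero] at h1
  obtain ⟨X, hX, h2, h3⟩ := (hf.and_eventually ((h1.eventually_lt_const hc0).and
    (eventually_gt_atTop 0))).exists
  have hX' : (0 : ℝ) < X := by exact_mod_cast h3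
  rw [← add_div, div_lt_iff₀ hX'] at h2
  have h4 : ((Finset.range X).filter (· ∈ E)).card ≤
      ((Finset.Icc (-(X : ℤ)) X).filter fun d => d ≠ 0 ∧ B d).card + 1 := by
    refine le_trans ?_ (Finset.card_insert_le 0 _)
    refine Finset.card_le_card_of_injOn (fun n => (n : ℤ)) (fun n hn => ?_)
      fun x _ y _ k => Int.natCast_inj.1 k
    simp only [Finset.coe_filter, Finset.mem_range, Set.mem_setOf_eq, Finset.coe_insert,
      Set.mem_insert_iff, Finset.mem_Icc] at hn ⊢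
    by_cases h0 : (n : ℤ) = 0
    · exact Or.inl h0
    · exact Or.inr ⟨⟨by omega, by omega⟩, h0, hc n hn.2⟩
  have h5 : (((Finset.range X).filter (· ∈ E)).card : ℝ) ≤
      (((Finset.Icc (-(X : ℤ)) X).filter fun d => d ≠ 0 ∧ B d).card : ℝ) + 1 := by
    exact_mod_cast h4
  exact absurd (hX.trans h5) (not_le.2 (by convert h2))

end null

theorem eps_or {N δ : ℕ} (h : Ok N δ) : eps δ = 1 ∨ eps δ = -1 :=
  jacobiSym.eq_one_or_neg_one (by simp)

theorem ds_ne {N δ : ℕ} (h : Ok N δ) : ds δ ≠ 0 := by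
  have h1 := h.one
  unfold ds
  rcases eps_or h with k | k <;> rw [k] <;> omega

/-- **the partner is free** -/
theorem hnz {C : (ℕ → ℤ) → Prop} (hS : SMITH) (hC : CONV C) : HNZ C := by
  intro N G a L hG hL ha
  obtain ⟨n, r, S, Λ, hr, h⟩ := hC N G a L hG hL ha
  have hB : Null fun d => ∃ i ∈ (Finset.univ : Finset (Fin n)), Two (r i) (Λ i) d :=
    null_ex _ fun i _ => hS _ _ _ (hr i)
  refine null_mono hB ?_
  rintro d _ ⟨δ, hδ, rfl, hn⟩
  by_contra hc
  obtain ⟨E, hE, h1⟩ := h δ hδ fun i k => hc ⟨i, Finset.mem_univ _, k⟩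
  obtain ⟨δ', h2, h3⟩ := ex_of_null (null_comp hB (neg_ne_zero.2 (ds_ne hδ))) hE
  refine hn δ' (h1 δ' h2 fun i k => h3 ⟨i, Finset.mem_univ _, ?_⟩)
  rwa [neg_mul_comm]

theorem b1_comb {r : Rp} {d : ℤ} {D : Set GQ} {c b : GQ → V} (hc : B1 r d D c) (hb : B1 r d D b)
    (x y : ℚ_[2]) : B1 r d D (x • c + y • b) := by
  obtain ⟨n, hn⟩ := hc
  obtain ⟨m, hm⟩ := hb
  refine ⟨x • n + y • m, fun g hg => ?_⟩
  rw [Pi.add_apply, Pi.smul_apply, Pi.smul_apply, hn g hg, hm g hg, P004S.ac_add, P004S.ac_smul,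
    P004S.ac_smul, smul_sub, smul_sub]
  abel

theorem rel_comb {r : Rp} {d : ℤ} {c b : GQ → V} (hc : Rel r d c) (hb : Rel r d b) (x y : ℚ_[2]) :
    Rel r d (x • c + y • b) := by
  refine ⟨⟨(hc.1.1.const_smul x).add (hb.1.1.const_smul y), fun g hg h hh => ?_⟩,
    fun l P ho hl => b1_comb (hc.2 l P ho hl) (hb.2 l P ho hl) x y⟩
  simp only [Pi.add_apply, Pi.smul_apply]
  rw [hc.1.2 g hg h hh, hb.1.2 g hg h hh, P004S.ac_add, P004S.ac_smul, P004S.ac_smul, smul_add,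
    smul_add]
  abel

theorem convk {C : (ℕ → ℤ) → Prop} (hI : ISO) (hL : LOC2) (hW : GWK) (hK : CONVK C) : CONV C := by
  intro N G a L hG hLa ha
  obtain ⟨r, S, P, hr, hP, hn, h⟩ := hK N G a L hG hLa ha
  obtain ⟨n, Λ, hΛ, hc⟩ := hL r S P hr hP hn
  have h1 : ∀ d, (∀ i, ¬ Two r (Λ i) d) → ¬ TwoR r d := by
    rintro d hd ⟨c, c', k, k', hi⟩
    have z : ∀ {b}, Rel r d b → Z1 r d (dec P) b := fun hb =>
      ⟨hb.1.1.mono (Set.subset_univ _), fun g _ h _ => hb.1.2 g trivial h trivial⟩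
    obtain ⟨i, h2, h3⟩ := hc d c c' (z k) (z k') (hI r S P d _ _ hr hP k k)
      (hI r S P d _ _ hr hP k k') (hI r S P d _ _ hr hP k' k) (hI r S P d _ _ hr hP k' k')
    exact hd i ⟨c, c', ⟨k.1, by rw [hΛ]; exact h2, k.2⟩, ⟨k'.1, by rw [hΛ]; exact h3, k'.2⟩, hi⟩
  have h2 : ∀ d, d ≠ 0 → ¬ TwoR r d → ∀ c, Rel r d c → B1 r d (dec P) c → B1 r d Set.univ c :=
    fun d hd k c k1 k2 => by_contra fun k3 => k (hW r S P d c hr hP hn hd k1 k2 k3)
  refine ⟨n, fun _ => r, fun _ => S, Λ, fun _ => hr, fun δ hδ hd => ?_⟩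
  obtain ⟨E, hE, h3⟩ := h δ hδ (h1 _ hd) (h2 _ (ds_ne hδ) (h1 _ hd))
  refine ⟨E, hE, fun δ' h4 h5 => ?_⟩
  have h6 := h1 _ h5
  obtain ⟨h7, h8, h9⟩ := h3 δ' h4
  have h0 : -(δ' : ℤ) ≠ 0 := by omega
  refine h9 h6 (h2 _ (mul_ne_zero (ds_ne hδ) h0) h6) ?_
  rintro ⟨c, c', b, b', k, k', hi⟩
  refine h6 ⟨c', b', k.2.1, k'.2.1, fun x y hb => hi x y ?_ hb⟩
  refine h2 _ (ds_ne hδ) (h1 _ hd) _ (rel_comb k.1 k'.1 x y) ?_
  have h10 : B1 r (ds δ) (dec P) (x • c' + y • b') := by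
    obtain ⟨m, hm⟩ := hb
    refine ⟨m, fun g hg => ?_⟩
    rw [hm g trivial, P004S.ac_congr r (e := ds δ)]
    rw [P004S.nu_mul_left (ds_ne hδ) h0, h8 g hg, add_zero]
  have h11 := b1_comb (b1_comb k.2.2 k'.2.2 x y) h10 1 1
  convert h11 using 1
  simp only [one_smul, smul_sub]
  abel

end Vale.Agent.P004T
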