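import Mathlib

/-!
# P004, row GWK2: algebraic lemmas
-/

set_option linter.all false

noncomputable section

namespace Vale.Agent.P004T.Gw

open Filter Topology

section ml
variable {A : Type} [AddCommGroup A]

/-- the elements killed by `2 ^ k` -/
def tk (A : Type) [AddCommGroup A] (k : ℕ) : AddSubgroup A := (nsmulAddMonoidHom (2 ^ k)).ker

theorem mem_tk {k : ℕ} {x : A} : x ∈ tk A k ↔ 2 ^ k • x = 0 := Iff.rfl

/-- the elements of order two which are divisible by `2 ^ j` -/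
def dk (A : Type) [AddCommGroup A] (j : ℕ) : AddSubgroup A :=
  (tk A (j + 1)).map (nsmulAddMonoidHom (2 ^ j))

theorem mem_dk {j : ℕ} {x : A} : x ∈ dk A j ↔ 2 • x = 0 ∧ ∃ y, 2 ^ j • y = x := by
  constructor
  · rintro ⟨y, h, rfl⟩
    exact ⟨by rw [← mem_tk.1 h, pow_succ', mul_nsmul']; rfl, y, rfl⟩
  · rintro ⟨h, y, rfl⟩
    exact ⟨y, mem_tk.2 (by rw [← h, pow_succ', mul_nsmul']), rfl⟩

theorem dk_anti : Antitone (dk A) := antitone_nat_of_succ_le fun j x hx => by
  obtain ⟨h, y, rfl⟩ := mem_dk.1 hx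
  exact mem_dk.2 ⟨h, 2 • y, by rw [pow_succ, mul_nsmul']⟩

theorem card_tk (j : ℕ) : Nat.card (tk A (j + 1)) = Nat.card (tk A j) * Nat.card (dk A j) := by
  let f : tk A (j + 1) →+ A := (nsmulAddMonoidHom (2 ^ j)).comp (tk A (j + 1)).subtype
  have h1 : f.range = dk A j := by
    simp only [f, dk, AddMonoidHom.range_comp, AddSubgroup.range_subtype]
  have h2 : f.ker = (tk A j).addSubgroupOf (tk A (j + 1)) := by ext x; rfl
  have h3 : tk A j ≤ tk A (j + 1) := fun x hx => mem_tk.2 (by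
    rw [pow_succ', mul_nsmul', mem_tk.1 hx, nsmul_zero])
  rw [← h1, ← Nat.card_congr (AddSubgroup.addSubgroupOfEquivOfLe h3).toEquiv, ← h2,
    ← f.ker.card_mul_index, AddSubgroup.index_ker]

theorem ex_ind {D : Type} [AddCommGroup D] [Finite D] (h2 : ∀ x : D, 2 • x = 0)
    (hc : 32 ≤ Nat.card D) : ∃ v : Fin 5 → D, ∀ c : Fin 5 → ℕ, ∑ i, c i • v i = 0 →
      ∀ i, 2 ∣ c i := by
  letI := AddCommGroup.zmodModule h2
  have : Module.Finite (ZMod 2) D := Module.Finite.of_finite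
  rw [Module.natCard_eq_pow_finrank (K := ZMod 2), Nat.card_zmod] at hc
  have h5 : 5 ≤ Module.finrank (ZMod 2) D := (Nat.pow_le_pow_iff_right one_lt_two).1 hc
  obtain ⟨v, hv⟩ := exists_linearIndependent_of_le_finrank h5
  refine ⟨v, fun c h i => (ZMod.natCast_eq_zero_iff _ _).1 ?_⟩
  refine Fintype.linearIndependent_iff.1 hv (fun i => (c i : ZMod 2)) ?_ i
  simpa only [Nat.cast_smul_eq_nsmul] using h

theorem ex_half (hf : Finite (dk A 0)) {y : A} (h : ∀ j, ∃ x, 2 ^ j • x = y) :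
    ∃ y', 2 • y' = y ∧ ∀ j, ∃ x, 2 ^ j • x = y' := by
  by_contra! k
  obtain ⟨y₀, h0⟩ := h 1
  rw [pow_one] at h0
  have : ∀ t : dk A 0, ∃ j, ∀ x, 2 ^ j • x ≠ y₀ + t := fun t =>
    k _ (by rw [nsmul_add, h0, (mem_dk.1 t.2).1, add_zero])
  choose J hJ using this
  obtain ⟨m, hm⟩ := (Set.finite_range J).bddAbove
  obtain ⟨x, hx⟩ := h (m + 1)
  let t : dk A 0 := ⟨2 ^ m • x - y₀, mem_dk.2 ⟨by
    rw [nsmul_sub, h0, ← mul_nsmul', ← pow_succ', hx, sub_self], _, by rw [pow_zero, one_nsmul]⟩⟩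
  refine hJ t (2 ^ (m - J t) • x) ?_
  rw [← mul_nsmul', ← pow_add, Nat.add_sub_cancel' (hm ⟨t, rfl⟩)]
  simp [t]

/-- **five independent divisible elements** -/
theorem ml (hf : Finite (dk A 0)) (C : ℕ) (hb : ∀ k, 1 ≤ k → 32 ^ k ≤ C * Nat.card (tk A k)) :
    ∃ x : Fin 5 → ℕ → A, (∀ i j, 2 • x i (j + 1) = x i j) ∧ (∀ i, 2 • x i 0 = 0) ∧
      ∀ c : Fin 5 → ℕ, ∑ i, c i • x i 0 = 0 → ∀ i, 2 ∣ c i := by
  have fin : ∀ j, Finite (dk A j) := fun j =>
    Finite.of_injective _ (AddSubgroup.inclusion_injective (dk_anti (Nat.zero_le j)))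
  have le : ∀ {i j}, i ≤ j → Nat.card (dk A j) ≤ Nat.card (dk A i) := fun {i j} h =>
    AddSubgroup.card_le_of_le (dk_anti h)
  have big : ∀ j, 32 ≤ Nat.card (dk A j) := fun j => by
    by_contra! hj
    have h1 : ∀ m, Nat.card (tk A (j + m)) ≤ Nat.card (tk A j) * 31 ^ m := fun m => by
      induction m with
      | zero => simp
      | succ m ih =>
        rw [← add_assoc, card_tk, pow_succ, ← mul_assoc]
        exact Nat.mul_le_mul ih (by have := le (Nat.le_add_right j m); omega)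
    obtain ⟨m, hm⟩ := (((tendsto_pow_atTop_atTop_of_one_lt (show (1 : ℝ) < 32 / 31 by norm_num)
      ).eventually_gt_atTop (C * Nat.card (tk A j))).and (eventually_ge_atTop 1)).exists
    have h2 := (hb (j + m) (by omega)).trans (Nat.mul_le_mul_left C (h1 m))
    have h3 : (32 : ℝ) ^ m ≤ C * (Nat.card (tk A j) * 31 ^ m) := by
      exact_mod_cast (Nat.pow_le_pow_right (by norm_num) (Nat.le_add_left m j)).trans h2
    have h4 := hm.1
    rw [div_pow, lt_div_iff₀ (by positivity)] at h4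
    linarith
  obtain ⟨j, hj⟩ : ∃ j, ∀ i, Nat.card (dk A j) ≤ Nat.card (dk A i) :=
    ⟨Function.argmin fun j => Nat.card (dk A j), fun i => Function.argmin_le (fun j => Nat.card (dk A j)) i⟩
  have all : ∀ i, dk A j ≤ dk A i := fun i => (le_total i j).elim (fun h => dk_anti h) fun h =>
    (AddSubgroup.eq_of_le_of_card_ge (dk_anti h) (hj i)).ge
  obtain ⟨v, hv⟩ := ex_ind (D := dk A j) (fun x => Subtype.ext (mem_dk.1 x.2).1) (big j)
  let Dv := {y : A // ∀ j, ∃ x, 2 ^ j • x = y}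
  choose f h1 h2 using fun y : Dv => ex_half hf y.2
  let F : Dv → Dv := fun y => ⟨f y, h2 y⟩
  refine ⟨fun i m => (F^[m] ⟨v i, fun m => (mem_dk.1 (all m (v i).2)).2⟩).1, fun i m => ?_,
    fun i => (mem_dk.1 (v i).2).1, fun c h => hv c (Subtype.ext (by simpa using h))⟩
  simp only [Function.iterate_succ_apply']
  exact h1 _

end ml

theorem card_le {G H : Type} [AddCommGroup G] [AddCommGroup H] [Finite G] (f : G →+ H)
    {s : Set H} (hs : s.Finite) (h : ∀ x, f x ∈ s) : Nat.card G ≤ Nat.card f.ker * s.ncard := by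
  rw [← f.ker.card_mul_index, AddSubgroup.index_ker]
  exact Nat.mul_le_mul_left _ (Set.ncard_le_ncard (s := (f.range : Set H))
    (by rintro _ ⟨x, rfl⟩; exact h x) hs)

section la
variable {K E : Type} [Field K] [AddCommGroup E] [Module K E]

theorem fin_le {W : Type} [AddCommGroup W] [Module K W] [Module.Finite K W] (U : Submodule K W)
    (h : ∀ a b : W, ∃ x y : K, x • a + y • b ∈ U ∧ ¬ (x = 0 ∧ y = 0)) :
    Module.finrank K W ≤ Module.finrank K U + 1 := by
  rw [← U.finrank_quotient_add_finrank, add_comm, Nat.add_le_add_iff_left]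
  by_contra! k
  obtain ⟨v, hv⟩ := exists_linearIndependent_of_le_finrank (show 2 ≤ _ from k)
  obtain ⟨a, ha⟩ := U.mkQ_surjective (v 0)
  obtain ⟨b, hb⟩ := U.mkQ_surjective (v 1)
  obtain ⟨x, y, h1, h2⟩ := h a b
  have := Fintype.linearIndependent_iff.1 hv ![x, y] (by
    rw [Fin.sum_univ_two, ← ha, ← hb]
    simpa using (Submodule.Quotient.mk_eq_zero U).2 h1)
  exact h2 ⟨this 0, this 1⟩

/-- two conditions of codimension at most one on `K ^ 5` -/
theorem five (U U' : Submodule K (Fin 5 → K)) (f : (Fin 2 → K) →ₗ[K] E) (g : (Fin 5 → K) →ₗ[K] E)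
    (hg : Function.Injective g)
    (h : ∀ a b, ∃ x y : K, x • a + y • b ∈ U ∧ ¬ (x = 0 ∧ y = 0))
    (h' : ∀ a b, ∃ x y : K, x • a + y • b ∈ U' ∧ ¬ (x = 0 ∧ y = 0))
    (hf : ∀ a ∈ U, a ∈ U' → g a ∈ f.range) : False := by
  have h1 := fin_le U h
  have h2 := fin_le (U'.comap U.subtype) fun a b => h' a b
  have h3 : Module.finrank K (U'.comap U.subtype) ≤ Module.finrank K f.range :=
    LinearMap.finrank_le_finrank_of_injective (f := LinearMap.codRestrict _
      (g ∘ₗ U.subtype ∘ₗ Submodule.subtype _) fun a => hf _ a.1.2 a.2) fun a b k =>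
      Subtype.ext (Subtype.ext (hg (congrArg Subtype.val k)))
  have h4 := f.finrank_range_le
  simp only [Module.finrank_fin_fun] at h1 h4
  omega

end la

end Vale.Agent.P004T.Gw
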