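import Vale.Agent.P004T.St2

/-!
# P004, the spine: row ADM, admissible fields have positive density
-/

set_option linter.all false

noncomputable section

namespace Vale.Agent.P004T

open NumberField Filter
open scoped NumberTheorySymbols
open Vale.Agent.P022 (Qb GQ)
open Vale.Agent.P022D.W (dec)
open Vale.Agent.P022E.GW (Ov)
open Vale.Agent.P004S (nu)
open Vale.Agent.P004Z (Ok Dat)

theorem PosD.mono {E E' : Set ℕ} (h : PosD E) (k : E ⊆ E') : PosD E' := by
  classical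
  obtain ⟨c, c0, h⟩ := h
  exact ⟨c, c0, h.mono fun X a => a.trans (Nat.cast_le.2 (Finset.card_le_card
    (Finset.monotone_filter_right _ fun _ _ b => k b)))⟩

theorem cnt_dvd {M a m : ℕ} (T : ℕ) (h : m.Coprime M) :
    ((Finset.range T).filter fun t => m ∣ a + M * t).card ≤ T / m + 1 := by
  rw [← Finset.card_range (T / m + 1)]
  refine Finset.card_le_card_of_injOn (· / m) (fun t ht => Finset.mem_coe.2 (Finset.mem_range.2
    (Nat.lt_succ_of_le (Nat.div_le_div_right (Finset.mem_range.1 (Finset.mem_filter.1 ht).1).le))))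
    fun t ht s hs (e : t / m = s / m) => ?_
  have : t % m = s % m := Nat.ModEq.cancel_left_of_coprime (c := M) h
    (Nat.ModEq.add_left_cancel' a (((Nat.modEq_zero_iff_dvd.2 (Finset.mem_filter.1 ht).2)).trans
      (Nat.modEq_zero_iff_dvd.2 (Finset.mem_filter.1 hs).2).symm))
  rw [← Nat.div_add_mod t m, ← Nat.div_add_mod s m, e, this]

/-- **squarefree numbers in a progression** -/
theorem posd_sqf {M a : ℕ} (hM : 0 < M) (ha : a.Coprime M) (B : ℕ) :
    PosD {n | Squarefree n ∧ n ≡ a [MOD M] ∧ B < n} := by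
  classical
  obtain ⟨b, hb, hB⟩ : ∃ b, b ≡ a [MOD M] ∧ B < b :=
    ⟨a + M * (B + 1), by simp [Nat.ModEq], by nlinarith⟩
  have cb : b.Coprime M := by rwa [Nat.Coprime, hb.gcd_eq]
  have M0 : (0 : ℝ) < M := Nat.cast_pos.2 hM
  refine ⟨1 / (16 * M), by positivity, frequently_atTop.2 fun n => ?_⟩
  obtain ⟨T, h1, h2, h3⟩ : ∃ T, n ≤ T ∧ b ≤ T ∧ 128 * M ≤ T := ⟨n + b + 128 * M, by omega⟩
  have h4 : T ≤ M * T := Nat.le_mul_of_pos_left _ hM
  refine ⟨b + M * T, by omega, ?_⟩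
  obtain ⟨K, hK⟩ : ∃ K, K = (b + M * T).sqrt := ⟨_, rfl⟩
  have k1 : 8 * K ≤ T := by
    have := hK ▸ Nat.sqrt_le (b + M * T)
    nlinarith
  have k2 : (Finset.range T).filter (fun t => ¬ Squarefree (b + M * t)) ⊆
      ((Finset.Icc 2 K).filter (·.Coprime M)).biUnion fun m =>
        (Finset.range T).filter fun t => m * m ∣ b + M * t := fun t ht => by
    obtain ⟨t1, t2⟩ := Finset.mem_filter.1 ht
    rw [Nat.squarefree_iff_prime_squarefree] at t2
    push Not at t2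
    obtain ⟨p, hp, d⟩ := t2
    refine Finset.mem_biUnion.2 ⟨p, Finset.mem_filter.2 ⟨Finset.mem_Icc.2 ⟨hp.two_le, hK ▸
      Nat.le_sqrt.2 ((Nat.le_of_dvd (by omega) d).trans ?_)⟩, hp.coprime_iff_not_dvd.2 fun e => ?_⟩,
      Finset.mem_filter.2 ⟨t1, d⟩⟩
    · exact Nat.add_le_add_left (Nat.mul_le_mul_left _ (Finset.mem_range.1 t1).le) _
    · exact hp.one_lt.ne' (Nat.eq_one_of_dvd_coprimes cb ((Nat.dvd_add_left (e.mul_right t)).1
        ((dvd_mul_right p p).trans d)) e)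
  have k3 : (((Finset.range T).filter fun t => ¬ Squarefree (b + M * t)).card : ℝ) ≤
      ∑ m ∈ Finset.Icc 2 K, (T * ((m : ℝ) ^ 2)⁻¹ + 1) := by
    refine (Nat.cast_le.2 ((Finset.card_le_card k2).trans Finset.card_biUnion_le)).trans ?_
    rw [Nat.cast_sum]
    refine (Finset.sum_le_sum fun m hm => ?_).trans (Finset.sum_le_sum_of_subset_of_nonneg
      (Finset.filter_subset _ _) fun _ _ _ => by positivity)
    have c := (Finset.mem_filter.1 hm).2
    refine (Nat.cast_le.2 (cnt_dvd T (c.mul_left c))).trans ?_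
    rw [Nat.cast_add_one, ← div_eq_mul_inv, sq, ← Nat.cast_mul]
    exact add_le_add Nat.cast_div_le le_rfl
  have k4 : ∑ m ∈ Finset.Icc 2 K, ((m : ℝ) ^ 2)⁻¹ ≤ 3 / 4 := by
    refine (Finset.sum_le_sum_of_subset_of_nonneg (t := insert 2 (Finset.Ioc 2 (K + 2)))
      (fun m => by simp only [Finset.mem_insert, Finset.mem_Icc, Finset.mem_Ioc]; omega)
      fun _ _ _ => by positivity).trans ?_
    have := sum_Ioc_inv_sq_le_sub (α := ℝ) (k := 2) (n := K + 2) two_ne_zero (by omega)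
    have : (0 : ℝ) ≤ ((K + 2 : ℕ) : ℝ)⁻¹ := by positivity
    rw [Finset.sum_insert (by simp)]
    push_cast at *
    linarith
  rw [Finset.sum_add_distrib, ← Finset.mul_sum, Finset.sum_const, Nat.card_Icc, nsmul_one] at k3
  have k5 := congrArg (Nat.cast (R := ℝ)) (Finset.card_filter_add_card_filter_not
    (s := Finset.range T) fun t => Squarefree (b + M * t))
  have k6 : ((K + 1 - 2 : ℕ) : ℝ) * 8 ≤ T := by exact_mod_cast (by omega : (K + 1 - 2) * 8 ≤ T)
  have k7 : ((b + M * T : ℕ) : ℝ) ≤ 2 * M * T := by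
    exact_mod_cast (by nlinarith : b + M * T ≤ 2 * M * T)
  rw [Nat.cast_add, Finset.card_range] at k5
  refine le_trans ?_ (Nat.cast_le.2 (Finset.card_le_card_of_injOn (s := (Finset.range T).filter
    fun t => Squarefree (b + M * t)) (b + M * ·) (fun t ht => ?_) fun t _ s _ e =>
      Nat.eq_of_mul_eq_mul_left hM (Nat.add_left_cancel e)))
  · rw [one_div, inv_mul_le_iff₀ (by positivity)]
    nlinarith [mul_le_mul_of_nonneg_left k4 (Nat.cast_nonneg T)]
  · obtain ⟨t1, t2⟩ := Finset.mem_filter.1 ht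
    simp only [Finset.coe_filter, Finset.mem_range, Set.mem_setOf_eq] at t1 ⊢
    exact ⟨Nat.add_lt_add_left ((Nat.mul_lt_mul_left hM).2 t1) _, t2,
      (show b + M * t ≡ b [MOD M] by simp [Nat.ModEq]).trans hb, hB.trans_le (Nat.le_add_right _ _)⟩

/-- `2` splits -/
theorem nu_two {P : Ideal (𝓞 Qb)} (o : Ov 2 P) {e : ℤ} (he : e % 8 = 1) {g : GQ}
    (hg : g ∈ dec P) : nu e g = 0 := by
  obtain ⟨β, hβ⟩ := P004S.ex_sqrt e
  refine (P004S.nu_eq_zero hβ).2 ((P004S.sqrt_or hβ (P004S.gal_sq hβ g)).resolve_right fun c => ?_)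
  have hm : (e : Qb) = 8 * (e / 8 : ℤ) + 1 := by
    exact_mod_cast congrArg (Int.cast : ℤ → Qb) (show e = 8 * (e / 8) + 1 by omega)
  have e1 : (β - 1) / 2 * ((β - 1) / 2 + 1) = (2 * (e / 8) : ℤ) := by
    push_cast
    linear_combination (hβ + hm) / 4
  let y : 𝓞 Qb := ⟨(β - 1) / 2, Polynomial.X ^ 2 + (Polynomial.X - Polynomial.C (2 * (e / 8))),
    Polynomial.monic_X_pow_add (by
      rw [Polynomial.degree_X_sub_C]; exact_mod_cast one_lt_two), by
      rw [Polynomial.eval₂_add, Polynomial.eval₂_sub, Polynomial.eval₂_X_pow, Polynomial.eval₂_X,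
        Polynomial.eval₂_C, eq_intCast, ← e1]
      ring⟩
  have h1 : y * (y + 1) ∈ P := by
    convert P.mul_mem_right ((e / 8 : ℤ) : 𝓞 Qb) o.2.2 using 1
    exact RingOfIntegers.ext (e1.trans (by simp [map_ofNat]))
  have h2 : y ∈ P ↔ y + 1 ∈ P := by
    rw [← hg, show g • y = -(y + 1) from RingOfIntegers.ext (by
      show g ((β - 1) / 2) = -((β - 1) / 2 + 1)
      rw [map_div₀, map_sub, c, map_one, map_ofNat]; ring), P.neg_mem_iff]
  have h3 := (o.2.1.mem_or_mem h1).elim id h2.2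
  exact o.2.1.ne_top ((Ideal.eq_top_iff_one _).2 (by simpa using P.sub_mem (h2.1 h3) h3))

/-- the congruence `-δ' ≡ 1` gives all side conditions -/
theorem sp_dat {S : Finset ℕ} {P : Ideal (𝓞 Qb)} {N δ δ' : ℕ} (o : Ov 2 P) (h : Ok N δ)
    (sq : Squarefree δ') (big : 64 * N ^ 4 + 4 < δ')
    (c : 16 * N * δ * ∏ l ∈ S.filter Nat.Prime, l ∣ δ' + 1) : Sp S P (ds δ) (-δ') ∧ Dat N δ δ' 1 := by
  have k : ∀ p : ℕ, p ∣ δ' + 1 → J(-(δ' : ℤ) | p) = 1 := fun p d => by
    rw [jacobiSym.mod_left' (a₂ := 1) (Int.modEq_iff_dvd.2 (by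
      rw [sub_neg_eq_add, add_comm]; exact_mod_cast d)), jacobiSym.one_left]
  have c1 := (dvd_mul_right _ _).trans c
  have c2 := (dvd_mul_right _ _).trans c1
  have c3 := (dvd_mul_right _ _).trans c2
  refine ⟨⟨by omega, Int.squarefree_natAbs.1 (by simpa using sq), by omega,
    fun g => nu_two o (by omega), fun l hl _ e => k l (e.elim
      (fun a => ((Finset.dvd_prod_of_mem _ (Finset.mem_filter.2 ⟨a, hl⟩)).mul_left _).trans c) fun a => ?_)⟩,
    h, sq, by omega, fun p _ _ d => k p ((mul_assoc 16 N δ ▸ d.mul_left 16).trans c1), by omega,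
    by rw [one_pow, add_comm]; exact_mod_cast c2⟩
  refine (Dvd.dvd.mul_left (Int.natCast_dvd_natCast.1 ?_) _).trans c1
  rcases eps_or h with e | e <;> simpa [ds, e] using a

/-- **ADM**: the primes of `M` split, any invertible class `a` modulo `m` -/
theorem adm {S : Finset ℕ} {P : Ideal (𝓞 Qb)} {N δ M m a : ℕ} (o : Ov 2 P) (h : Ok N δ) (hM : 0 < M)
    (h0 : 0 < m) (hm : m.Coprime (2 * N * δ * M)) (hS : ∀ l ∈ S, l.Prime → ¬ l ∣ m)
    (ha : a.Coprime m) (B : ℕ) : PosD {δ' | Sp S P (ds δ) (-δ') ∧ Dat N δ δ' 1 ∧ M ∣ δ' + 1 ∧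
      δ' ≡ a [MOD m] ∧ B < δ'} := by
  obtain ⟨R, hR⟩ : ∃ R, R = (16 * N * δ * ∏ l ∈ S.filter Nat.Prime, l) * M := ⟨_, rfl⟩
  have R0 : 0 < R := hR ▸ mul_pos (mul_pos (mul_pos (mul_pos (by simp) (Nat.pos_of_ne_zero fun e =>
    h.one.ne' (by simpa [e] using h.cop))) (by linarith [h.one])) (Finset.prod_pos fun l hl =>
      (Finset.mem_filter.1 hl).2.pos)) hM
  have c : m.Coprime R := by
    simp only [hR, Nat.coprime_mul_iff_right] at hm ⊢
    exact ⟨⟨⟨⟨hm.1.1.1.pow_right 4, hm.1.1.2⟩, hm.1.2⟩, Nat.Coprime.prod_right fun l hl =>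
      ((Finset.mem_filter.1 hl).2.coprime_iff_not_dvd.2 (hS l (Finset.mem_filter.1 hl).1
        (Finset.mem_filter.1 hl).2)).symm⟩, hm.2⟩
  obtain ⟨b, b1, b2⟩ := Nat.chineseRemainder c a (R - 1)
  refine (posd_sqf (a := b) (mul_pos h0 R0) (Nat.Coprime.mul_right ?_ ?_)
    (B + (64 * N ^ 4 + 4))).mono fun n ⟨n1, n2, n3⟩ => ?_
  · rwa [Nat.Coprime, b1.gcd_eq]
  · rw [Nat.Coprime, b2.gcd_eq]
    exact (Nat.coprime_self_sub_left R0).2 (Nat.coprime_one_left R)
  · have d : R ∣ n + 1 := (Nat.modEq_zero_iff_dvd.1 ((((n2.of_mul_left m).trans b2).add_right 1).trans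
      (by rw [Nat.sub_add_cancel R0]; exact Nat.modEq_zero_iff_dvd.2 dvd_rfl)))
    have := sp_dat o h n1 (by omega) ((hR ▸ dvd_mul_right _ M).trans d)
    exact ⟨this.1, this.2, (hR ▸ dvd_mul_left M _).trans d, (n2.of_mul_right R).trans b1, by omega⟩

/-- the short form -/
theorem adm1 (S : Finset ℕ) {P : Ideal (𝓞 Qb)} {N δ M : ℕ} (o : Ov 2 P) (h : Ok N δ) (hM : 0 < M) :
    PosD {δ' | Sp S P (ds δ) (-δ') ∧ Dat N δ δ' 1 ∧ M ∣ δ' + 1} :=
  (adm (a := 0) o h hM one_pos (by simp) (fun l _ hl => hl.not_dvd_one) (by simp) 0).mono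
    fun _ k => ⟨k.1, k.2.1, k.2.2.1⟩

end Vale.Agent.P004T
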