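import Vale.Agent.P004T.St2
import Vale.Agent.P004S.Cnz
import Vale.Agent.P004S.Lt
import Vale.Agent.P004S.Rec
import Vale.Agent.P004S.Gal2

/-!
# P004, row GWK2: corestriction, the tame character, reciprocity with one auxiliary prime
-/

set_option linter.all false

noncomputable section

namespace Vale.Agent.P004T.Gw

open NumberField Matrix Filter Topology
open Vale.Agent.P022 (Qb GQ IsConj IsFrob)
open Vale.Agent.P027M.S (Inert)
open Vale.Agent.P022D.W (dec phi_mem)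
open Vale.Agent.P022E.GW (Ov Fb Gn Ch)
open Vale.Agent.P004S

variable {r : Rp} {S : Finset ℕ} {d e n : ℤ} {l q k : ℕ} {P : Ideal (𝓞 Qb)} {c z X : GQ → V}
  {s φ τ : GQ}

/-- induction on the decomposition group -/
theorem dec_ind (h : Ov l P) (hφ : Fb l P φ) {Q : Set GQ} (h1 : Q ∈ 𝓝 (1 : GQ))
    (hm : ∀ g ∈ dec P, ∀ j ∈ dec P, g ∈ Q → j ∈ Q → g * j ∈ Q) (h2 : φ ∈ Q)
    (h3 : ∀ i, Inert P i → i ∈ Q) : ∀ g ∈ dec P, g ∈ Q := fun g hg => by
  obtain ⟨U, hU, hs⟩ := ex_open h1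
  obtain ⟨j, i, hi, m⟩ := (lt l P h).2 φ g hφ hg U hU
  have p := phi_mem h.1 h.2.1 hφ
  have h4 : ∀ j : ℕ, φ ^ j ∈ Q := fun j => by
    induction j with
    | zero => exact pow_zero φ ▸ mem_of_mem_nhds h1
    | succ j ih => exact pow_succ φ j ▸ hm _ (pow_mem p j) _ p ih h2
  have h5 := mul_mem (pow_mem p j) (inert_dec hi)
  have := hm _ h5 _ (mul_mem (inv_mem h5) hg) (hm _ (pow_mem p j) _ (inert_dec hi) (h4 j) (h3 i hi))
    (hs m)
  rwa [mul_inv_cancel_left] at this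

/-- the Kummer character of `q` modulo `2 ^ (k + 1)` -/
theorem kum (k : ℕ) (hq : q ≠ 0) : ∃ χ : GQ → ZMod (2 ^ (k + 1)),
    (∀ g h, (∀ y : Qb, y ^ 2 ^ (k + 1) = 1 → g y = y) → χ (g * h) = χ g + χ h) ∧
    (∃ W : Subgroup GQ, IsOpen (W : Set GQ) ∧ ∀ g, ∀ w ∈ W, χ (g * w) = χ g) ∧
    ∀ g, ((χ g).val : ZMod 2) = nu q g := by
  obtain ⟨ζ, hζ⟩ := HasEnoughRootsOfUnity.exists_primitiveRoot Qb (2 ^ (k + 1))
  obtain ⟨w, hw⟩ := IsAlgClosed.exists_pow_nat_eq (q : Qb) (n := 2 ^ (k + 1)) (by positivity)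
  have w0 : w ≠ 0 := fun h => by
    rw [h, zero_pow (by positivity)] at hw
    exact hq (by exact_mod_cast hw.symm)
  have ex : ∀ g : GQ, ∃ j : ℕ, g w = ζ ^ j * w := fun g => by
    obtain ⟨j, -, hj⟩ := hζ.eq_pow_of_pow_eq_one (ξ := g w / w) (by
      rw [div_pow, ← map_pow, hw, map_natCast, div_self (by exact_mod_cast hq)])
    exact ⟨j, by rw [hj, div_mul_cancel₀ _ w0]⟩
  choose j hj using ex
  have uq : ∀ a b : ℕ, ζ ^ a * w = ζ ^ b * w → (a : ZMod (2 ^ (k + 1))) = b := fun a b h =>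
    (ZMod.natCast_eq_natCast_iff _ _ _).2 (by
      rw [hζ.eq_orderOf]
      exact (isOfFinOrder_iff_pow_eq_one.2 ⟨_, by positivity, hζ.pow_eq_one⟩
        ).pow_eq_pow_iff_modEq.1 (mul_right_cancel₀ w0 h))
  refine ⟨fun g => j g, fun g h hg => ?_, ⟨MulAction.stabilizer GQ w,
    stabilizer_isOpen_of_isIntegral w, fun g u hu => uq _ _ ?_⟩, fun g => ?_⟩
  · rw [← Nat.cast_add]
    refine uq _ _ ?_
    rw [← hj, AlgEquiv.mul_apply, hj h, map_mul, map_pow, hg ζ hζ.pow_eq_one, hj g]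
    ring
  · rw [← hj, ← hj, AlgEquiv.mul_apply, show u w = w from hu]
  have h1 : (w ^ 2 ^ k) ^ 2 = ((q : ℤ) : Qb) := by rw [← pow_mul, ← pow_succ, hw, Int.cast_natCast]
  have h2 : ζ ^ 2 ^ k = -1 :=
    (hζ.pow (by positivity) (pow_succ 2 k)).eq_neg_one_of_two_right
  have h3 : g (w ^ 2 ^ k) = (-1) ^ j g * w ^ 2 ^ k := by
    rw [map_pow, hj, mul_pow, ← pow_mul, mul_comm (j g), pow_mul, h2]
  rw [ZMod.val_natCast, (ZMod.natCast_eq_natCast_iff _ _ _).2
    ((Nat.mod_modEq _ _).of_dvd (dvd_pow_self 2 k.succ_ne_zero))]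
  rcases (j g).even_or_odd with h | h
  · rw [h.natCast_zmod_two, (nu_eq_zero h1).2 (by rw [h3, h.neg_one_pow, one_mul])]
  · rw [h.natCast_zmod_two, (nu_eq_one (by exact_mod_cast hq) h1).2 (by
      rw [h3, h.neg_one_pow, neg_one_mul])]

/-- an element which acts as `-1` gives an element which acts trivially and is seen by `c` -/
theorem sah (hc : Z1 r n Set.univ c) (h0 : ¬ B1 r n Set.univ c) (h1 : mt r τ = 1)
    (h2 : nu n τ = 1) : ∃ h, mt r h = 1 ∧ (∀ m, nu m h = 0) ∧ c h ≠ 0 := by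
  by_contra! hh
  refine h0 ⟨(-1 / 2 : ℚ_[2]) • c τ, fun g _ => ?_⟩
  have a1 : mt r (τ * g * τ⁻¹ * g⁻¹) = 1 := by
    have : mt r τ⁻¹ = 1 := by rw [← mt_one r, ← mul_inv_cancel τ, mt_mul, h1, one_mul]
    rw [mt_mul, mt_mul, mt_mul, h1, this, one_mul, mul_one, ← mt_mul, mul_inv_cancel, mt_one]
  have a2 : ∀ m, nu m (τ * g * τ⁻¹ * g⁻¹) = 0 := fun m => by
    rw [nu_mul, nu_conj, nu_inv, CharTwo.add_self_eq_zero]
  have a3 := hc.2 (τ * g * τ⁻¹ * g⁻¹) trivial (g * τ) trivial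
  rw [hh _ a1 a2, show τ * g * τ⁻¹ * g⁻¹ * (g * τ) = τ * g by group, hc.2 τ trivial g trivial,
    hc.2 g trivial τ trivial, ac, ac, h1, a1, sg_of_one h2, sg_of_zero (a2 n), one_mulVec,
    one_mulVec] at a3
  rw [ac_smul]
  linear_combination (norm := module) (-1 / 2 : ℚ_[2]) • a3

/-! ### corestriction -/

/-- the defect of the cocycle identity -/
def df (r : Rp) (d : ℤ) (z : GQ → V) (g h : GQ) : V := z (g * h) - z g - ac r d g (z h)

/-- corestriction from the group of `ℚ(√e)` -/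
def cor (r : Rp) (d e : ℤ) (s : GQ) (z : GQ → V) (g : GQ) : V :=
  if nu e g = 0 then z g + ac r d s (z (s⁻¹ * g * s)) else z (g * s) + ac r d s (z (s⁻¹ * g))

theorem cor_cont (hr : Rep r S) (hz : Continuous z) : Continuous (cor r d e s z) := by
  have a : ∀ {f : GQ → GQ}, Continuous f → Continuous fun g => ac r d s (z (f g)) := fun h =>
    hr.ac_cont d continuous_const (hz.comp h)
  refine Continuous.if (fun g hg => ?_) (hz.add (a (by fun_prop)))
    ((hz.comp (by fun_prop)).add (a (by fun_prop)))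
  rw [((nu_lc e).isClopen_fiber 0).frontier_eq] at hg
  exact hg.elim

theorem cor_int (hr : Rep r S) (hz : ∀ g, ‖z g‖ ≤ 1) (g : GQ) : ‖cor r d e s z g‖ ≤ 1 := by
  unfold cor
  split_ifs <;> exact norm_add_le' (hz _) ((hr.norm_ac _ _ _).trans (hz _))

theorem cor_coc (hr : Rep r S) (hs : nu e s = 1) {ε : ℝ}
    (hz : ∀ g h, nu e g = 0 → nu e h = 0 → ‖df r d z g h‖ ≤ ε) (g h : GQ) :
    ‖df r d (cor r d e s z) g h‖ ≤ ε := by
  have key : ∀ a b a' b', nu e a = 0 → nu e b = 0 → nu e a' = 0 → nu e b' = 0 →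
      df r d (cor r d e s z) g h = df r d z a b + ac r d s (df r d z a' b') →
      ‖df r d (cor r d e s z) g h‖ ≤ ε := fun a b a' b' h1 h2 h3 h4 k =>
    k ▸ norm_add_le' (hz a b h1 h2) ((hr.norm_ac _ _ _).trans (hz a' b' h3 h4))
  have t : (1 + 1 : ZMod 2) = 0 := by decide
  rcases z2 (nu e g) with a | a <;> rcases z2 (nu e h) with b | b
  on_goal 1 => refine key g h (s⁻¹ * g * s) (s⁻¹ * h * s) ?_ ?_ ?_ ?_ ?_
  on_goal 6 => refine key g (h * s) (s⁻¹ * g * s) (s⁻¹ * h) ?_ ?_ ?_ ?_ ?_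
  on_goal 11 => refine key (g * s) (s⁻¹ * h * s) (s⁻¹ * g) h ?_ ?_ ?_ ?_ ?_
  on_goal 16 => refine key (g * s) (s⁻¹ * h) (s⁻¹ * g) (h * s) ?_ ?_ ?_ ?_ ?_
  all_goals
    simp only [df, cor, nu_mul, nu_inv, a, b, hs, t, add_zero, zero_add, if_true, one_ne_zero,
      if_false, ac_add, ac_sub, ← ac_mul, mul_assoc, mul_inv_cancel_left]
  all_goals abel

theorem cor_sum (hd : d ≠ 0) (he : e ≠ 0) (hs : nu e s = 1) {g : GQ} (hg : nu e g = 0) :
    cor r (d * e) e s z g + cor r d e s z g = (2 : ℚ_[2]) • z g := by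
  have : sg (d * e) s = -sg d s := by
    rw [sg_add (nu_mul_left hd he s), sg_of_one hs, mul_neg_one]
  simp only [cor, hg, if_true, ac, this]
  module

/-! ### reciprocity -/

theorem b2k_cob (hr : Rep r S) {D : Set GQ} {m : V} (hm : ‖m‖ ≤ 1)
    (hc : ∀ g ∈ D, c g = ac r n g m - m) (cX : Continuous X)
    (hX : ∀ g h, ‖df r n X g h‖ ≤ (1 / 2) ^ k) : B2k r k D (cp r n c X) := by
  refine ⟨fun g => wp m (X g), (wp_cont continuous_const cX).continuousOn, fun g hg h _ => ?_⟩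
  have : cp r n c X g h - (wp m (X g) + ep r g * wp m (X h) - wp m (X (g * h))) =
      wp m (df r n X g h) := by
    simp only [cp, hc g hg, df, wp_sub_left, wp_sub_right, wp_ac]
    ring
  rw [this]
  exact (norm_wp_le _ _).trans ((mul_le_of_le_one_left (norm_nonneg _) hm).trans (hX g h))

/-- the unramified character at a deep prime -/
def xu (r : Rp) (q : ℕ) (g : GQ) : ℚ_[2] := (ep r g - 1) / (q - 1)

theorem xu_mul (r : Rp) (q : ℕ) (g h : GQ) : xu r q (g * h) = xu r q g + ep r g * xu r q h := by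
  simp only [xu, ep_mul]; ring

theorem xu_of (h : mt r s = 1) : xu r q s = 0 := by rw [xu, ep, h, det_one, sub_self, zero_div]

theorem xu_cont (hr : Rep r S) : Continuous (xu r q) :=
  (hr.ep_cont.sub continuous_const).div_const _

theorem xu_conj (r : Rp) (q : ℕ) (g s : GQ) : xu r q (s⁻¹ * g * s) = xu r q g := by
  rw [xu, xu, ep_mul, ep_mul, mul_right_comm, ← ep_mul, inv_mul_cancel, ep_one, one_mul]

theorem xu_frob (hr : Rep r S) (ho : Ov q P) (hq : q ∉ S) (hφ : Fb q P φ) : xu r q φ = 1 := by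
  rw [xu, (hr.frob q ho.1 hq φ ⟨P, ho.2.1, ho.2.2, hφ⟩).1, div_self]
  exact sub_ne_zero.2 (by exact_mod_cast ho.1.ne_one)

theorem xu_int (hr : Rep r S) (ho : Ov q P) (hq : q ∉ S) (hφ : Fb q P φ) :
    ∀ g ∈ dec P, ‖xu r q g‖ ≤ 1 :=
  dec_ind ho hφ (Q := xu r q ⁻¹' Metric.closedBall 0 1)
    (((IsUltrametricDist.isOpen_closedBall _ one_ne_zero).preimage (xu_cont hr)).mem_nhds
      (by simp [xu_of (mt_one r)]))
    (fun g _ j _ a b => by
      simp only [Set.mem_preimage, mem_closedBall_zero_iff, xu_mul] at a b ⊢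
      exact norm_add_le' a (by rwa [norm_mul, hr.norm_ep, one_mul]))
    (by simp [xu_frob hr ho hq hφ]) (fun i hi => by simp [xu_of (hr.mt_inert ho hq hi)])
    |> fun h g hg => mem_closedBall_zero_iff.1 (h g hg)

theorem tr_ep {g : GQ} (hr : Rep r S) (h : Tr r k g) : ‖ep r g - 1‖ ≤ (1 / 2) ^ k := by
  have a : ∀ i j, ‖mt r g i j - (1 : Matrix (Fin 2) (Fin 2) ℚ_[2]) i j‖ ≤ (1 / 2) ^ k := h
  have a0 := a 0 0
  have a1 := a 1 1
  have a2 := a 0 1
  simp only [one_apply_eq, ne_eq, zero_ne_one, not_false_eq_true, one_apply_ne, sub_zero]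
    at a0 a1 a2
  rw [ep, det_fin_two, show mt r g 0 0 * mt r g 1 1 - mt r g 0 1 * mt r g 1 0 - 1 =
    (mt r g 0 0 - 1) * mt r g 1 1 + (mt r g 1 1 - 1) - mt r g 0 1 * mt r g 1 0 by ring]
  refine norm_sub_le' (norm_add_le' ?_ a1) ?_ <;> rw [norm_mul]
  · exact (mul_le_of_le_one_right (norm_nonneg _) (hr.int _ _ _)).trans a0
  · exact (mul_le_of_le_one_right (norm_nonneg _) (hr.int _ _ _)).trans a2

theorem tr_ac {g : GQ} (h : Tr r k g) (hn : nu n g = 0) {v : V} (hv : ‖v‖ ≤ 1) :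
    ‖ac r n g v - v‖ ≤ (1 / 2) ^ k := by
  rw [ac, sg_of_zero hn, one_smul]
  exact (h.norm v).trans (mul_le_of_le_one_right (by positivity) hv)

theorem nm {x y : ℚ_[2]} {a : ℝ} (hx : ‖x‖ ≤ 1) (hy : ‖y‖ ≤ a) : ‖x * y‖ ≤ a := by
  rw [norm_mul]; exact (mul_le_of_le_one_left (norm_nonneg _) hx).trans hy

theorem nw {x y : V} {a : ℝ} (hx : ‖x‖ ≤ 1) (hy : ‖y‖ ≤ a) : ‖wp x y‖ ≤ a :=
  (norm_wp_le _ _).trans ((mul_le_of_le_one_left (norm_nonneg _) hx).trans hy)

theorem nw' {x y : V} {a : ℝ} (hx : ‖x‖ ≤ a) (hy : ‖y‖ ≤ 1) : ‖wp x y‖ ≤ a :=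
  (norm_wp_le _ _).trans ((mul_le_of_le_one_right (norm_nonneg _) hy).trans hx)

/-- **reciprocity**: the ramification of `X` at the auxiliary prime is orthogonal to `c φ` -/
theorem reci (hr : Rep r S) (hn : n ≠ 0) {T : Finset ℕ} (hS : S ⊆ T)
    (hT : ∀ l : ℕ, l.Prime → (l : ℤ) ∣ n → l ∈ T) (hc : Rel r n c) (ci : ∀ g, ‖c g‖ ≤ 1 / 2)
    (cT : ∀ l ∈ T, l.Prime → ∃ P, Ov l P ∧ ∃ m, ‖m‖ ≤ 1 ∧ ∀ g ∈ dec P, c g = ac r n g m - m)
    (cX : Continuous X) (iX : ∀ g, ‖X g‖ ≤ 1) (hX : ∀ g h, ‖df r n X g h‖ ≤ (1 / 2) ^ k)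
    (uX : ∀ l P, Ov l P → l ∉ T → l ≠ q → ∀ g, Inert P g → ‖X g‖ ≤ (1 / 2) ^ k)
    (ho : Ov q P) (hq : q ∉ T) (hφ : Fb q P φ)
    (dp : ∀ g ∈ dec P, Tr r (k + 1) g ∧ nu n g = 0) {t : GQ → ℚ_[2]} {a w : V}
    (ti : ∀ g, ‖t g‖ ≤ 1) (tn : ∀ g, rd (t g) = nu q g) (ha : ‖a‖ ≤ 1) (hw : ‖w‖ ≤ 1)
    (lX : ∀ g ∈ dec P, ‖X g - (xu r q g • a + t g • w)‖ ≤ (1 / 2) ^ k) :
    ‖wp (c φ) w‖ ≤ (1 / 2) ^ k := by
  have qS : q ∉ S := fun h => hq (hS h)
  have q2 := hr.ne_two qS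
  have cc := continuousOn_univ.1 hc.1.1
  have c1 : ∀ g, ‖c g‖ ≤ 1 := fun g => (ci g).trans (by norm_num)
  have xi := xu_int hr ho qS hφ
  have p : ∀ j, (0 : ℝ) < (1 / 2) ^ j := fun j => by positivity
  have e1 : ∀ g ∈ dec P, ‖ep r g - 1‖ ≤ (1 / 2) ^ (k + 1) := fun g hg => tr_ep hr (dp g hg).1
  have e2 : ∀ g ∈ dec P, ∀ v : V, ‖v‖ ≤ 1 → ‖ac r n g v - v‖ ≤ (1 / 2) ^ k := fun g hg v hv =>
    tr_ac ((dp g hg).1.mono k.le_succ) (dp g hg).2 hv
  have lc : ∀ g ∈ dec P, ‖c g - xu r q g • c φ‖ ≤ (1 / 2) ^ k := fun g hg =>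
    mem_closedBall_zero_iff.1 (dec_ind ho hφ
      (Q := (fun g => c g - xu r q g • c φ) ⁻¹' Metric.closedBall 0 ((1 / 2) ^ k))
      (((IsUltrametricDist.isOpen_closedBall _ (p k).ne').preimage
        (cc.sub ((xu_cont hr).smul continuous_const))).mem_nhds
          (by simpa [xu_of (mt_one r), hc.1.one] using (p k).le))
      (fun g hg j hj a b => by
        simp only [Set.mem_preimage, mem_closedBall_zero_iff] at a b ⊢
        rw [hc.1.2 g trivial j trivial, xu_mul, show c g + ac r n g (c j) -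
          (xu r q g + ep r g * xu r q j) • c φ = c g - xu r q g • c φ + (c j - xu r q j • c φ) +
            (ac r n g (c j) - c j) - (xu r q j * (ep r g - 1)) • c φ by module]
        refine norm_sub_le' (norm_add_le' (norm_add_le' a b) (e2 g hg _ (c1 j))) ?_
        rw [norm_smul]
        exact (mul_le_of_le_one_right (norm_nonneg _) (c1 φ)).trans
          (nm (xi j hj) ((e1 g hg).trans (half_anti k.le_succ))))
      (by simpa [xu_frob hr ho qS hφ] using (p k).le) (fun i hi => by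
        obtain ⟨m, hm⟩ := hc.2 q P ho q2
        have := hm i (inert_dec hi)
        rw [ac, hr.mt_inert ho qS hi, sg_of_zero (dp i (inert_dec hi)).2, one_smul, one_mulVec,
          sub_self] at this
        simpa [xu_of (hr.mt_inert ho qS hi), this] using (p k).le) g hg)
  obtain ⟨τ, hτ⟩ := P022E.GW.Tg.ex_gn' ho
  have hB : ∀ m, m ≤ k → ‖wp (c φ) w‖ ≤ (1 / 2) ^ m := fun m => by
    induction m with
    | zero => exact fun _ => by simpa using nw (c1 φ) hw
    | succ m ih =>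
    intro hm
    obtain ⟨B, hB⟩ : ∃ B, wp (c φ) w = 2 ^ m * B := ⟨_, (mul_div_cancel₀ _ (pow_ne_zero _ two_ne_zero)).symm⟩
    have b1 : ‖B‖ ≤ 1 := by
      have := ih (by omega)
      rw [hB, norm_mul, norm_two_pow] at this
      exact le_of_mul_le_mul_left (by rwa [mul_one]) (p m)
    rcases z2 (rd B) with b | b
    · rw [hB, norm_mul, norm_two_pow, pow_succ]
      exact mul_le_mul_of_nonneg_left (rd_eq_zero.1 b) (p m).le
    have hX' : ∀ g h, ‖df r n X g h‖ ≤ (1 / 2) ^ (m + 1) := fun g h => (hX g h).trans (half_anti hm)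
    have := onek r S hr (cyc_ep r S hr) m q (cp r n c X) P τ φ (fun g => rd (xu r q g)) (nu q)
      (z2k_cp hr cc cX c1 iX (fun g h => by simpa [hc.1.2 g trivial h trivial] using (p _).le) hX')
      ho q2 hτ hφ ⟨(rd_lc.comp_continuous (xu_cont hr)).comp_continuous continuous_subtype_val,
        fun g h => ?_⟩ (nu_ch _ _) (fun g hg => by rw [xu_of (hr.mt_inert ho qS hg), rd_zero])
      ⟨fun g => -(wp (c φ) a / 2 * xu r q g ^ 2),
        (continuous_const.mul ((xu_cont hr).pow 2)).neg.continuousOn, fun g hg h hh => ?_⟩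
      (fun l hl lq => ?_) ?_
    · rw [xu_frob hr ho qS hφ, rd_one, nu_gn ho hτ] at this
      exact absurd this (by decide)
    · have := nm (hr.norm_ep g).le (xi h h.2)
      simp only [Subgroup.coe_mul, xu_mul]
      rw [rd_add (xi g g.2) this, rd_mul (hr.norm_ep g).le (xi h h.2),
        (rd_eq_iff (hr.norm_ep g).le norm_one.le).2 ((e1 g g.2).trans
          (by simpa using half_anti (Nat.le_add_left 1 k))), rd_one, one_mul]
    · have k1 : cp r n c X g h - 2 ^ m * ((rd (xu r q g) * nu q h).val : ℚ_[2]) -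
          (-(wp (c φ) a / 2 * xu r q g ^ 2) + ep r g * -(wp (c φ) a / 2 * xu r q h ^ 2) -
            -(wp (c φ) a / 2 * xu r q (g * h) ^ 2)) =
          wp (c g) (ac r n g (X h) - X h) + wp (c g - xu r q g • c φ) (X h) +
            xu r q g * wp (c φ) (X h - (xu r q h • a + t h • w)) +
            2 ^ m * (xu r q g * (t h * B) - ((rd (xu r q g) * nu q h).val : ℚ_[2])) -
            wp (c φ) a * (xu r q h * (xu r q g * (ep r g - 1) +
              ep r g * (xu r q h * (1 / 2 * (ep r g - 1))))) := by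
        simp only [cp, wp_sub_left, wp_sub_right, wp_add_right, wp_smul_left, wp_smul_right, hB,
          xu_mul]
        ring
      rw [k1]
      have k2 := half_anti hm
      refine norm_sub_le' (norm_add_le' (norm_add_le' (norm_add_le'
        (nw (c1 g) ((e2 g hg _ (iX h)).trans k2)) (nw' ((lc g hg).trans k2) (iX h)))
        (nm (xi g hg) (nw (c1 φ) ((lX h hh).trans k2)))) ?_) (nm (nw (c1 φ) ha) (nm (xi h hh)
          (norm_add_le' (nm (xi g hg) ((e1 g hg).trans (half_anti (by omega))))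
            (nm (hr.norm_ep g).le (nm (xi h hh) (le_trans ?_ k2))))))
      · rw [norm_mul, norm_two_pow, pow_succ]
        refine mul_le_mul_of_nonneg_left ((rd_eq_iff (nm (xi g hg) (nm (ti h) b1))
          (norm_val_le _)).1 ?_) (p m).le
        rw [rd_val, rd_mul (xi g hg) (nm (ti h) b1), rd_mul (ti h) b1, b, tn, mul_one]
      · have := e1 g hg
        rw [norm_mul, norm_half]
        rw [pow_succ] at this
        linarith
    · by_cases hl' : l ∈ T
      · obtain ⟨P', o, v, v1, v2⟩ := cT l hl' hl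
        exact ⟨P', o, b2k_cob hr v1 v2 cX hX'⟩
      obtain ⟨pl⟩ := pl_ex
      have o := pl.ov l hl
      have lS : l ∉ S := fun h => hl' (hS h)
      obtain ⟨v, hv⟩ := hc.2 l _ o (hr.ne_two lS)
      exact ⟨_, o, Tor.iso hr (j := m + 1) (c := 1) ⟨v, fun g hg => by simpa [hv g hg] using (p _).le⟩
        (ut r S hr (m + 1) l n _ X hn o lS (fun h => hl' (hT l hl h)) cX.continuousOn
          (fun g _ => iX g) (fun g _ h _ => hX' g h)
          fun g hg => (uX l _ o hl' lq g hg).trans (half_anti hm))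
        (fun g _ => c1 g) (fun g _ => iX g) (mul_one _).le⟩
    · obtain ⟨j, hj⟩ := P022K.G2.ex_conj (IsAlgClosed.lift (R := ℚ) (M := ℂ) (S := Qb)).toRingHom
      refine ⟨j, ⟨_, hj⟩, b2k_cob hr (m := (-1 / 2 : ℚ_[2]) • c j) ?_ ?_ cX hX'⟩
      · rw [norm_smul, neg_div, norm_neg, norm_half]
        linarith [ci j]
      · rintro g (rfl | rfl)
        · rw [hc.1.one, ac_one, sub_self]
        · have := hc.1.2 g trivial g trivial
          rw [conj_sq ⟨_, hj⟩, hc.1.one] at this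
          rw [ac_smul]
          linear_combination (norm := module) (-1 / 2 : ℚ_[2]) • this
  exact hB k le_rfl

end Vale.Agent.P004T.Gw
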