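import Vale.Agent.P004T.St
import Vale.Agent.P004N.H3.Fin
import Vale.Agent.P004N.H65.TwNF

/-!
# P004, the spine: from Heegner points to the analytic rank
-/

set_option linter.all false

noncomputable section

namespace Vale.Agent.P004T

open Filter Topology UpperHalfPlane
open scoped NumberTheorySymbols
open Vale.Agent.P004S (Null)
open Vale.Agent.P004Z (Ok eps LF GZ)
open P004N (RN Lat NF EF IsTw)
open P004N.T8 (Cont OddH Dens Pos)
open Vale.Agent.P004H.H871 (kr Fd kr_odd kr_one_mod kr_pm)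
open _root_.P004 (Fam IsFund)

/-- newforms with integer eigenvalues -/
def NRN : Prop := ∀ (M S : ℕ) (g : ℍ → ℂ) (b : ℕ → ℝ) (ε : ℝ), NF M g b ε → 0 < S →
  (∀ p : ℕ, p.Prime → ¬ p ∣ S → ∃ m : ℤ, b p = m) →
  ∃ (c : ℕ → ℤ) (L : PeriodPair), (b = fun n => (c n : ℝ)) ∧ RN M g c ∧ Lat M c L

theorem ds_spec {δ : ℕ} (h : Odd δ) : ds δ % 4 = 1 ∧ (ds δ).natAbs = δ := by
  unfold ds eps
  rw [jacobiSym.at_neg_one h]
  rcases Nat.odd_mod_four_iff.1 (Nat.odd_iff.1 h) with k | k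
  · rw [ZMod.χ₄_nat_one_mod_four k]; omega
  · rw [ZMod.χ₄_nat_three_mod_four k]; omega

theorem split_odd {N : ℕ} {m : ℤ} (ho : m % 2 = 1) (hs : Squarefree m) :
    ∃ (m₀ : ℤ) (δ : ℕ), m = m₀ * ds δ ∧ m₀ ∣ N ∧ m₀ % 4 = m % 4 ∧ Squarefree m₀ ∧ Odd δ ∧
      Squarefree δ ∧ N.Coprime δ := by
  obtain ⟨δ, hδ⟩ := Nat.gcd_dvd_left m.natAbs N
  have hs' : Squarefree (m.natAbs.gcd N * δ) := hδ ▸ Int.squarefree_natAbs.2 hs
  have h1 : Odd (m.natAbs.gcd N * δ) := hδ ▸ Int.natAbs_odd.2 (Int.odd_iff.2 ho)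
  have h2 : Odd δ := (Nat.odd_mul.1 h1).2
  obtain ⟨h3, h4⟩ := ds_spec h2
  obtain ⟨m₀, h5⟩ : ds δ ∣ m := by
    rw [← Int.natAbs_dvd_natAbs, h4]
    exact ⟨_, hδ.trans (mul_comm _ _)⟩
  have h6 : m₀.natAbs = m.natAbs.gcd N := by
    have := congrArg Int.natAbs h5
    rw [Int.natAbs_mul, h4, mul_comm] at this
    exact (mul_right_cancel₀ h2.pos.ne' (hδ.symm.trans this)).symm
  refine ⟨m₀, δ, h5.trans (mul_comm _ _), ?_, ?_, ?_, h2, hs'.of_mul_right, ?_⟩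
  · rw [← Int.natAbs_dvd_natAbs, h6]
    exact Nat.gcd_dvd_right _ _
  · rw [h5, Int.mul_emod, h3]; omega
  · exact (h5 ▸ hs).of_mul_right
  · refine Nat.coprime_of_dvd fun p hp k1 k2 => ?_
    have k3 : p ∣ m.natAbs.gcd N := Nat.dvd_gcd (hδ ▸ k2.mul_left _) k1
    exact hp.one_lt.ne' (Nat.isUnit_iff.1 (hs' p (mul_dvd_mul k3 k2)))

theorem split_fd (N : ℕ) {D : ℤ} (hD : Fd D) : ∃ (D₀ : ℤ) (δ : ℕ), D = D₀ * ds δ ∧ Fd D₀ ∧
    D₀ ∣ 8 * N ∧ Odd δ ∧ Squarefree δ ∧ N.Coprime δ := by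
  have two : ∀ {m : ℤ}, m % 2 = 1 → Squarefree m → Squarefree (2 * m) := fun h hs =>
    (squarefree_mul_iff.2 ⟨(Int.isCoprime_two_left.2 (Int.odd_iff.2 h)).isRelPrime,
      Int.prime_two.squarefree, hs⟩)
  rcases hD.cases with ⟨h, hs⟩ | ⟨m, rfl, h, hs⟩ | ⟨m, rfl, h, hs⟩ | ⟨m, rfl, h, hs⟩
  · obtain ⟨m₀, δ, h1, h2, h3, h4, h5⟩ := split_odd (N := N) (by omega) hs
    exact ⟨m₀, δ, h1, Or.inl ⟨by omega, h4⟩, h2.mul_left _, h5⟩
  · obtain ⟨m₀, δ, h1, h2, h3, h4, h5⟩ := split_odd (N := N) (by omega) hs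
    exact ⟨4 * m₀, δ, by rw [mul_assoc, ← h1], Or.inr ⟨m₀, rfl, by omega, h4⟩,
      mul_dvd_mul (by norm_num) h2, h5⟩
  all_goals
    obtain ⟨m₀, δ, h1, h2, h3, h4, h5⟩ := split_odd (N := N) (by omega) hs
    exact ⟨8 * m₀, δ, by rw [mul_assoc, ← h1],
      Or.inr ⟨2 * m₀, by ring, by omega, two (by omega) h4⟩, mul_dvd_mul dvd_rfl h2, h5⟩

theorem null_one : Null fun d => d = 1 := by
  classical
  refine squeeze_zero (fun X => by positivity) (fun X => ?_)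
    (tendsto_one_div_atTop_nhds_zero_nat (𝕜 := ℝ))
  refine div_le_div_of_nonneg_right ?_ (Nat.cast_nonneg _)
  refine Nat.cast_le_one.2 (Finset.card_le_one.2 fun x hx y hy => ?_)
  simp only [Finset.mem_filter] at hx hy
  rw [hx.2.2, hy.2.2]

variable {C : (ℕ → ℤ) → Prop} {N : ℕ} {f : ℍ → ℂ} {a : ℕ → ℤ} {r : ℤ → ℕ}

/-- one class of discriminants -/
theorem rare0 (hN : NRN) (hL : LF) (hG : GZ) (hH : HNZ C) (hf : EF N f a) (hr : Cont a r)
    (hC : Cg C a) {D₀ : ℤ} (h0 : Fd D₀) (hd : D₀ ∣ 8 * N) :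
    Null fun d => ∃ δ : ℕ, d = ds δ ∧ Odd δ ∧ Squarefree δ ∧ N.Coprime δ ∧ Fd (D₀ * d) ∧
      2 ≤ r (D₀ * d) := by
  obtain ⟨M, g, b, ε, h1, h2, h3, -⟩ := P004N.pfNewP N f a hf D₀ h0
  have hS : 0 < N * D₀.natAbs := Nat.mul_pos hf.pos (Int.natAbs_pos.2 h0.ne)
  have h4 : ∀ p : ℕ, p.Prime → ¬ p ∣ N * D₀.natAbs → b p = (a p * kr D₀ p : ℤ) := fun p hp k => by
    rw [h3 p (hp.coprime_iff_not_dvd.2 k)]; push_cast; rfl
  obtain ⟨c, L, rfl, h5, h6⟩ := hN M _ g b ε h1 hS fun p hp k => ⟨_, h4 p hp k⟩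
  have h7 : C c := hC c <| Set.Finite.subset (N * D₀.natAbs).primeFactors.finite_toSet <| by
    rintro p ⟨hp, k⟩
    refine Nat.mem_primeFactors.2 ⟨hp, by_contra fun k1 => k ?_, hS.ne'⟩
    have k2 : c p = a p * kr D₀ p := Int.cast_injective (α := ℝ) (h4 p hp k1)
    have k3 : IsCoprime D₀ (p : ℤ) := by
      rw [Int.isCoprime_iff_gcd_eq_one]
      exact (hp.coprime_iff_not_dvd.2 fun e => k1 (e.mul_left _)).symm
    rcases kr_pm h0 k3 with e | e <;> rw [k2, e] <;> omega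
  refine null_mono (null_or null_one (hH M g c L h5 h6 h7)) ?_
  rintro d - ⟨δ, rfl, ho, hs, hc, hD, hk⟩
  obtain ⟨e1, e2⟩ := ds_spec ho
  by_cases k1 : δ = 1
  · left
    omega
  have hM : M.Coprime δ := Nat.coprime_of_dvd fun p hp k2 k3 => by
    have k4 : ¬ p ∣ N := fun e => hp.one_lt.ne' (Nat.eq_one_of_dvd_coprimes hc e k3)
    have k5 : p ∣ D₀.natAbs := ((Nat.Prime.dvd_mul hp).1 (h2 p hp k2)).resolve_left k4
    have k6 : p ∣ 2 ^ 3 * N := k5.trans (Int.natCast_dvd_natCast.1 (Int.natAbs_dvd.2 hd))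
    have k7 := (Nat.prime_dvd_prime_iff_eq hp Nat.prime_two).1
      (hp.dvd_of_dvd_pow (((Nat.Prime.dvd_mul hp).1 k6).resolve_right k4))
    exact (Nat.not_even_iff_odd.2 ho) (even_iff_two_dvd.2 (k7 ▸ k3))
  have ok : Ok M δ := ⟨ho, hs, by have := ho.pos; omega, hM⟩
  have hd : Fd (ds δ) := Or.inl ⟨e1, Int.squarefree_natAbs.1 (e2.symm ▸ hs)⟩
  obtain ⟨G, hG'⟩ := P004N.H65.twNF h1 hd (by
    rw [Int.isCoprime_iff_gcd_eq_one]
    show Nat.gcd M (ds δ).natAbs = 1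
    rw [e2]; exact hM)
  have hT : IsTw a (D₀ * ds δ) _ G _ _ := ⟨hG', 2 * (N * D₀.natAbs), by omega, fun p hp k => by
    have k2 : Odd p := hp.odd_of_ne_two (by rintro rfl; exact k (dvd_mul_right _ _))
    have k3 : (c p : ℝ) = _ := h4 p hp fun e => k (e.mul_left _)
    show (c p : ℝ) * _ = _
    rw [k3, kr_odd hD k2, kr_odd hd k2, kr_odd h0 k2,
      jacobiSym.mul_left]
    push_cast; ring⟩
  obtain ⟨Λ, k2, -, k3, k4⟩ := hr _ hD _ _ _ _ hT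
  refine Or.inr ⟨δ, ok, rfl, ?_⟩
  rintro δ' ⟨β, k5, k6⟩
  refine k6 (hG M g c L δ δ' β h5 h6 k5 (hL M g c δ Λ ⟨h5.pos, h5.s2, h5.qe, h5.one, h5.te⟩ ok
    (fun z _ => k2.1.analyticAt z) (fun s hs => ?_) (by rw [k4]; exact_mod_cast hk)))
  convert k3 s hs using 2 with n
  rw [kr_one_mod e1, e2]
  push_cast; rfl

/-- **analytic rank at least two is rare** -/
theorem rare (hN : NRN) (hL : LF) (hG : GZ) (hH : HNZ C) (hf : EF N f a) (hr : Cont a r)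
    (hC : Cg C a) : Null fun D => Fd D ∧ 2 ≤ r D := by
  classical
  refine null_mono (null_ex ((Finset.Icc (-(8 * N : ℤ)) (8 * N)).filter fun D₀ =>
    Fd D₀ ∧ D₀ ∣ 8 * N) fun D₀ h => null_mul (rare0 hN hL hG hH hf hr hC
      (Finset.mem_filter.1 h).2.1 (Finset.mem_filter.1 h).2.2) D₀) ?_
  rintro D - ⟨hD, hk⟩
  obtain ⟨D₀, δ, rfl, h1, h2, h3⟩ := split_fd N hD
  have := hf.pos
  exact ⟨D₀, Finset.mem_filter.2 ⟨Finset.mem_Icc.2 (abs_le.1 (Int.le_of_dvd (by omega)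
    ((abs_dvd _ _).2 h2))), h1, h2⟩, _, rfl, δ, rfl, h3.1, h3.2.1, h3.2.2, hD, hk⟩

theorem cnt_add {s : Finset ℤ} {A B B' : ℤ → Prop} [DecidablePred A] {_ : DecidablePred B}
    {_ : DecidablePred B'} (h : ∀ x, A x ↔ B x ∨ B' x) (hd : ∀ x, B x → ¬ B' x) :
    ((s.filter A).card : ℝ) = (s.filter B).card + (s.filter B').card := by
  rw [← Nat.cast_add, ← Finset.card_union_of_disjoint (Finset.disjoint_filter.2 fun x _ => hd x),
    ← Finset.filter_or, Finset.filter_congr fun x _ => h x]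

/-- **the density statement** -/
theorem dens_of (ho : OddH r) {P : ℤ → Prop} (hp : Pos P) (h : Null fun D => Fd D ∧ 2 ≤ r D) :
    Dens r := by
  classical
  obtain ⟨c, hc, X₀, hX⟩ := hp
  have hF : ∀ᶠ X : ℕ in atTop, 0 < c * X ∧ c * X ≤ ((Fam X).card : ℝ) := by
    filter_upwards [eventually_ge_atTop X₀, eventually_gt_atTop 0] with X h1 h2
    exact ⟨by positivity, (hX X h1).trans (Nat.cast_le.2 (by convert Finset.card_filter_le _ _))⟩
  have hs : ∀ Q : ℤ → Prop, (∀ D, Q D → 2 ≤ r D) → Tendsto (fun X : ℕ =>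
      (((Fam X).filter Q).card : ℝ) / (Fam X).card) atTop (𝓝 0) := fun Q hQ => by
    have h1 := h.div_const c
    rw [zero_div] at h1
    refine squeeze_zero' (Eventually.of_forall fun X => by positivity) ?_ h1
    filter_upwards [hF] with X ⟨h2, h3⟩
    rw [div_div, mul_comm]
    refine div_le_div₀ (by positivity) (Nat.cast_le.2 (Finset.card_le_card fun D hD => ?_)) h2 h3
    simp only [Fam, Finset.mem_filter] at hD ⊢
    exact ⟨hD.1.1, Fd.ne hD.1.2.2, hD.1.2.2, hQ D hD.2⟩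
  intro j hj
  interval_cases j
  · have h1 := (ho.const_sub 1).sub (hs (fun D => ¬ Odd (r D) ∧ r D ≠ 0) fun D k => by
      have := Nat.odd_iff.not.1 k.1; omega)
    rw [show (1 : ℝ) - 1 / 2 - 0 = 1 / 2 by norm_num] at h1
    refine h1.congr' ?_
    filter_upwards [hF] with X ⟨h2, h3⟩
    have h4 : ((Fam X).card : ℝ) ≠ 0 := (h2.trans_le h3).ne'
    rw [eq_div_iff h4, sub_mul, sub_mul, div_mul_cancel₀ _ h4, div_mul_cancel₀ _ h4, one_mul,
      sub_sub, sub_eq_iff_eq_add', ← cnt_add (A := fun D => r D ≠ 0) (by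
        intro D; by_cases k : r D = 0 <;> simp [k, (Nat.even_or_odd _).symm]) (by tauto),
      ← cnt_add (A := fun _ => True) (by tauto) (by tauto), Finset.filter_true]
  · have h1 := ho.sub (hs (fun D => Odd (r D) ∧ r D ≠ 1) fun D k => by
      have := Nat.odd_iff.1 k.1; omega)
    rw [sub_zero] at h1
    refine h1.congr fun X => ?_
    rw [← sub_div]
    congr 1
    exact sub_eq_iff_eq_add'.2 (cnt_add (by
      intro D; by_cases k : r D = 1 <;> simp [k]) (by tauto))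

/-- **the spine** -/
theorem spine (hN : NRN) (hL : LF) (hG : GZ) (hS : P004S.SMITH) (hK : CONV C) (hf : EF N f a)
    (hr : Cont a r) (ho : OddH r) {P : ℤ → Prop} (hp : Pos P) (hC : Cg C a) : Dens r :=
  dens_of ho hp (rare hN hL hG (hnz hS hK) hf hr hC)

end Vale.Agent.P004T
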