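import Vale.Agent.P004T.Gw2

/-!
# P004, row GWK2: passage to the limit
-/

set_option autoImplicit false
set_option linter.all false

noncomputable section

namespace Vale.Agent.P004T.Gw

open NumberField Matrix Filter Topology
open Vale.Agent.P022 (Qb GQ)
open Vale.Agent.P022K.G2 (In)
open Vale.Agent.P004S
open Vale.Agent.P004F

namespace Li

variable {r : Rp} {S T : Finset ℕ} {n e : ℤ} {k : ℕ}

theorem rn_mul (k : ℕ) {x y : ℚ_[2]} (hx : ‖x‖ ≤ 1) (hy : ‖y‖ ≤ 1) :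
    rn k (x * y) = rn k x * rn k y := by
  obtain ⟨a, rfl⟩ : ∃ a : ℤ_[2], (a : ℚ_[2]) = x := ⟨⟨x, hx⟩, rfl⟩
  obtain ⟨b, rfl⟩ : ∃ a : ℤ_[2], (a : ℚ_[2]) = y := ⟨⟨y, hy⟩, rfl⟩
  rw [← PadicInt.coe_mul, rn_coe, rn_coe, rn_coe, map_mul]

theorem rn_val (k : ℕ) (a : ZMod (2 ^ k)) : rn k (a.val : ℚ_[2]) = a := by
  rw [← PadicInt.coe_natCast, rn_coe, map_natCast, ZMod.natCast_zmod_val]

theorem rw_ac (hr : Rep r S) (k : ℕ) (g : GQ) {v : V} (hv : ‖v‖ ≤ 1) :
    rw' k (ac r n g v) = Pr.ac (am r n k g) (rw' k v) := by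
  funext i
  have a : ∀ j, ‖sg n g * mt r g i j‖ ≤ 1 := fun j => by
    rw [norm_mul, norm_sg, one_mul]; exact hr.int _ _ _
  have b : ∀ j, ‖sg n g * mt r g i j * v j‖ ≤ 1 := fun j => by
    rw [norm_mul]; exact mul_le_one₀ (a j) (norm_nonneg _) (norm_co hv j)
  simp only [rw', ac, Pr.ac, am, Pi.smul_apply, mulVec, dotProduct, Fin.sum_univ_two, smul_eq_mul,
    mul_add, ← mul_assoc]
  rw [rn_add k (b 0) (b 1), rn_mul k (a 0) (norm_co hv 0), rn_mul k (a 1) (norm_co hv 1)]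

theorem norm_sc (k : ℕ) (v : V) : ‖2 ^ k • v‖ = (1 / 2) ^ k * ‖v‖ := by
  rw [← Nat.cast_smul_eq_nsmul ℚ_[2], norm_smul, Nat.cast_pow, Nat.cast_ofNat, norm_two_pow]

theorem sc_le {v : V} : ‖2 ^ k • v‖ ≤ (1 / 2) ^ k ↔ ‖v‖ ≤ 1 := by
  rw [norm_sc]; exact mul_le_iff_le_one_right (by positivity)

theorem df_sc (m : ℕ) (z : GQ → V) (g h : GQ) : df r n (m • z) g h = m • df r n z g h := by
  simp only [df, Pi.smul_apply, ← Nat.cast_smul_eq_nsmul ℚ_[2], ac_smul, smul_sub]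

/-- the integral functions -/
def I0 : AddSubgroup (GQ → V) where
  carrier := {z | ∀ g, ‖z g‖ ≤ 1}
  add_mem' a b g := norm_add_le' (a g) (b g)
  zero_mem' g := by simp
  neg_mem' a g := by simpa using a g

/-- cocycles modulo integral functions -/
def Ah (r : Rp) (n e : ℤ) (T : Finset ℕ) : AddSubgroup (GQ → V) where
  carrier := {z | (∀ g ∈ kn e, ∀ h ∈ kn e, ‖df r n z g h‖ ≤ 1) ∧ (∀ g ∉ kn e, ‖z g‖ ≤ 1) ∧
    (∃ W : Subgroup GQ, IsOpen (W : Set GQ) ∧ ∀ u ∈ W, ‖z u‖ ≤ 1) ∧ ∀ g ∈ In T, ‖z g‖ ≤ 1}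
  add_mem' {a b} := fun ⟨a1, a2, ⟨W, a3, a4⟩, a5⟩ ⟨b1, b2, ⟨W', b3, b4⟩, b5⟩ =>
    ⟨fun g hg h hh => by
      rw [show df r n (a + b) g h = df r n a g h + df r n b g h by
        simp only [df, Pi.add_apply, ac_add]; abel]
      exact norm_add_le' (a1 g hg h hh) (b1 g hg h hh), fun g hg => norm_add_le' (a2 g hg) (b2 g hg),
      ⟨W ⊓ W', a3.inter b3, fun u hu => norm_add_le' (a4 u hu.1) (b4 u hu.2)⟩,
      fun g hg => norm_add_le' (a5 g hg) (b5 g hg)⟩
  zero_mem' := ⟨fun g _ h _ => by simp [df, ac_zero], fun _ _ => by simp,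
    ⟨⊤, isOpen_univ, fun _ _ => by simp⟩, fun _ _ => by simp⟩
  neg_mem' {a} := fun ⟨a1, a2, ⟨W, a3, a4⟩, a5⟩ =>
    ⟨fun g hg h hh => by
      rw [show df r n (-a) g h = -df r n a g h by simp only [df, Pi.neg_apply, ac_neg]; abel,
        norm_neg]
      exact a1 g hg h hh, fun g hg => by simpa using a2 g hg,
      ⟨W, a3, fun u hu => by simpa using a4 u hu⟩, fun g hg => by simpa using a5 g hg⟩

theorem mem_iff (hr : Rep r S) {y : GQ → V} (hy : ∀ g, ‖2 ^ k • y g‖ ≤ 1) :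
    (fun g => rw' k (2 ^ k • y g)) ∈ Ap r n e T k ↔ y ∈ Ah r n e T := by
  have a : ∀ g, rw' k (2 ^ k • y g) = 0 ↔ ‖y g‖ ≤ 1 := fun g => (rw_eq_zero k (hy g)).trans sc_le
  have b : ∀ g h, rw' k (2 ^ k • y (g * h)) = rw' k (2 ^ k • y g) +
      Pr.ac (am r n k g) (rw' k (2 ^ k • y h)) ↔ ‖df r n y g h‖ ≤ 1 := fun g h => by
    have c := (hr.norm_ac n g _).trans (hy h)
    rw [← rw_ac hr k g (hy h), ← rw_add k (hy g) c, rw_eq_iff k (hy _) (norm_add_le' (hy g) c),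
      ← sc_le (k := k), ← df_sc, df, sub_sub]
    rfl
  simp only [Ap, Set.mem_setOf_eq, a, b]
  rfl

/-- the group of classes -/
abbrev Qu (r : Rp) (n e : ℤ) (T : Finset ℕ) : Type :=
  Ah r n e T ⧸ I0.addSubgroupOf (Ah r n e T)

theorem sm_zero (m : ℕ) (y : Ah r n e T) :
    m • (y : Qu r n e T) = 0 ↔ ∀ g, ‖m • y.1 g‖ ≤ 1 := by
  rw [← QuotientAddGroup.mk_nsmul, QuotientAddGroup.eq_zero_iff]; rfl

theorem card_eq (hr : Rep r S) (k : ℕ) :
    (Ap r n e T k).ncard = Nat.card (tk (Qu r n e T) k) := by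
  have a : ∀ x : tk (Qu r n e T) k, ∀ g, ‖2 ^ k • x.1.out.1 g‖ ≤ 1 := fun x =>
    (sm_zero _ _).1 (by rw [QuotientAddGroup.out_eq']; exact x.2)
  have b : ∀ {y y' : Ah r n e T}, (∀ g, ‖2 ^ k • y.1 g‖ ≤ 1) → (∀ g, ‖2 ^ k • y'.1 g‖ ≤ 1) →
      ((fun g => rw' k (2 ^ k • y.1 g)) = (fun g => rw' k (2 ^ k • y'.1 g)) ↔
        (y : Qu r n e T) = y') := fun h h' => by
    rw [funext_iff, QuotientAddGroup.eq_iff_sub_mem]
    exact forall_congr' fun g => by rw [rw_eq_iff k (h g) (h' g), ← smul_sub, sc_le]; rfl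
  rw [← Nat.card_range_of_injective (f := fun x : tk (Qu r n e T) k => fun g =>
    rw' k (2 ^ k • x.1.out.1 g)) fun x x' h => Subtype.ext (by
      simpa only [QuotientAddGroup.out_eq'] using (b (a x) (a x')).1 h), Nat.card_coe_set_eq]
  congr 1
  refine Set.Subset.antisymm (fun w hw => ?_) ?_
  · let y : GQ → V := fun g i => (w g i).val / 2 ^ k
    have c : ∀ g, 2 ^ k • y g = fun i => ((w g i).val : ℚ_[2]) := fun g => funext fun i => by
      simp only [y, Pi.smul_apply, nsmul_eq_mul, Nat.cast_pow, Nat.cast_ofNat]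
      exact mul_div_cancel₀ _ (pow_ne_zero _ two_ne_zero)
    have d : ∀ g, ‖2 ^ k • y g‖ ≤ 1 := fun g => by
      rw [c, pi_norm_le_iff_of_nonneg zero_le_one]
      exact fun i => IsUltrametricDist.norm_natCast_le_one _ _
    have f : (fun g => rw' k (2 ^ k • y g)) = w := funext fun g => funext fun i => by
      rw [c, rw', rn_val]
    let y' : Ah r n e T := ⟨y, (mem_iff hr d).1 (f ▸ hw)⟩
    let x : tk (Qu r n e T) k := ⟨y', (sm_zero _ y').2 d⟩
    exact ⟨x, ((b (a x) (y' := y') d).2 (QuotientAddGroup.out_eq' _)).trans f⟩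
  · rintro _ ⟨x, rfl⟩
    exact (mem_iff hr (a x)).2 x.1.out.2

/-- limits of geometric sequences -/
theorem ex_lim {u : ℕ → V} (h : ∀ j, ‖u (j + 1) - u j‖ ≤ (1 / 2) ^ (j + 1)) :
    ∃ z, ∀ j, ‖z - u j‖ ≤ (1 / 2) ^ (j + 1) := by
  obtain ⟨z, hz⟩ := cauchySeq_tendsto_of_complete (cauchySeq_of_le_geometric (1 / 2) 1
    (by norm_num) (f := u) fun j => by
      rw [dist_comm, dist_eq_norm, one_mul]; exact (h j).trans (half_anti j.le_succ))
  refine ⟨z, fun j => le_of_tendsto (hz.sub_const (u j)).norm (eventually_atTop.2 ⟨j, fun m hm => ?_⟩)⟩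
  induction m, hm using Nat.le_induction with
  | base => simp
  | succ m hm ih =>
    rw [← sub_add_sub_cancel _ (u m)]
    exact norm_add_le' ((h m).trans (half_anti (by omega))) ih

theorem zero_of {v : V} (h : ∀ j : ℕ, ‖v‖ ≤ (1 / 2) ^ (j + 1)) : v = 0 :=
  norm_le_zero_iff.1 (ge_of_tendsto' (tendsto_pow_atTop_nhds_zero_of_lt_one (r := (1 / 2 : ℝ))
    (by norm_num) (by norm_num)) fun j => (h j).trans (half_anti j.le_succ))

/-- a divisible class comes from a cocycle -/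
theorem ex_coc (hr : Rep r S) {y : ℕ → Ah r n e T}
    (h : ∀ j, 2 • (y (j + 1) : Qu r n e T) = y j) :
    ∃ z : GQ → V, Z1 r n (kn e) z ∧ (∀ g ∉ kn e, z g = 0) ∧ ∀ g, ‖z g - 2 • (y 0).1 g‖ ≤ 1 / 2 := by
  have a : ∀ g j, ‖2 ^ (j + 1 + 1) • (y (j + 1)).1 g - 2 ^ (j + 1) • (y j).1 g‖ ≤
      (1 / 2) ^ (j + 1) := fun g j => by
    have := h j
    rw [← QuotientAddGroup.mk_nsmul, QuotientAddGroup.eq_iff_sub_mem] at this
    rw [pow_succ 2 (j + 1), mul_nsmul', ← smul_sub, sc_le]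
    exact this g
  choose z hz using fun g => ex_lim (a g)
  have s : ∀ j g, ‖(y j).1 g‖ ≤ 1 → ‖z g‖ ≤ (1 / 2) ^ (j + 1) := fun j g b => by
    rw [← sub_add_cancel (z g) (2 ^ (j + 1) • (y j).1 g)]
    exact norm_add_le' (hz g j) (sc_le.2 b)
  have c : ∀ g ∈ kn e, ∀ h ∈ kn e, z (g * h) = z g + ac r n g (z h) := fun g hg h hh => by
    rw [← sub_eq_zero, ← sub_sub]
    refine zero_of fun j => ?_
    have b := (sc_le (k := j + 1)).2 ((y j).2.1 g hg h hh)
    rw [← df_sc] at b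
    rw [show z (g * h) - z g - ac r n g (z h) = df r n (2 ^ (j + 1) • (y j).1) g h +
      ((z (g * h) - 2 ^ (j + 1) • (y j).1 (g * h)) - (z g - 2 ^ (j + 1) • (y j).1 g) -
        ac r n g (z h - 2 ^ (j + 1) • (y j).1 h)) by simp only [df, ac_sub, Pi.smul_apply]; abel]
    exact norm_add_le' b (norm_sub_le' (norm_sub_le' (hz _ j) (hz _ j))
      ((hr.norm_ac _ _ _).trans (hz _ j)))
  refine ⟨z, ⟨fun g hg => Metric.tendsto_nhds.2 fun ε hε => ?_, c⟩,
    fun g hg => zero_of fun j => s j g ((y j).2.2.1 g hg), fun g => by simpa using hz g 0⟩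
  obtain ⟨j, hj⟩ := exists_pow_lt_of_lt_one hε (show (1 / 2 : ℝ) < 1 by norm_num)
  obtain ⟨W, w1, w2⟩ := (y j).2.2.2.1
  filter_upwards [self_mem_nhdsWithin, mem_nhdsWithin_of_mem_nhds
    ((w1.preimage (continuous_const_mul g⁻¹)).mem_nhds (by simpa using one_mem W))] with x hx m
  have := c g hg _ (mul_mem (inv_mem hg) hx)
  rw [mul_inv_cancel_left] at this
  rw [dist_eq_norm, this, add_sub_cancel_left]
  exact ((hr.norm_ac _ _ _).trans ((s j _ (w2 _ m)).trans (half_anti j.le_succ))).trans_lt hj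

end Li

open Li in
theorem lim : LIM := fun r S T n e C hr h => by
  simp only [card_eq hr] at h
  have f : Finite (tk (Qu r n e T) 1) := Nat.finite_of_card_ne_zero fun k => by
    have := h 1 le_rfl
    rw [k] at this
    omega
  obtain ⟨x, x1, x2, x3⟩ := ml (Finite.of_injective _ (AddSubgroup.inclusion_injective
    (show dk (Qu r n e T) 0 ≤ tk _ 1 from fun x hx => mem_tk.2 (by
      rw [pow_one]; exact (mem_dk.1 hx).1)))) C h
  choose y hy using fun i j => QuotientAddGroup.mk_surjective (x i j)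
  choose z z1 z2 z3 using fun i => ex_coc hr (y := y i) fun j => by rw [hy, hy, x1]
  refine ⟨z, fun i => ⟨z1 i, z2 i⟩, fun a ha => by_contra fun a0 => ?_⟩
  obtain ⟨m, -, hm⟩ := Finset.exists_max_image Finset.univ (fun i => ‖a i‖) Finset.univ_nonempty
  have am : a m ≠ 0 := fun k => a0 (funext fun i => norm_le_zero_iff.1 (by
    simpa [k] using hm i (Finset.mem_univ _)))
  have b : ∀ i, ‖a i / a m‖ ≤ 1 := fun i => by
    rw [norm_div]; exact div_le_one_of_le₀ (hm i (Finset.mem_univ _)) (norm_nonneg _)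
  have := x3 (fun i => (rd (a i / a m)).val) ?_ m
  · rw [div_self am, rd_one] at this
    exact absurd this (by decide)
  have y0 : ∀ i g, ‖2 • (y i 0).1 g‖ ≤ 1 := fun i => (sm_zero 2 _).1 (by rw [hy, x2])
  simp only [← hy, ← QuotientAddGroup.mk_nsmul, ← QuotientAddGroup.mk_sum]
  refine (QuotientAddGroup.eq_zero_iff _).2 fun g => (sc_le (k := 1)).1 ?_
  have e1 : ∑ i, (a i / a m) • z i g = 0 := by
    have := congrArg ((a m)⁻¹ • ·) (congrFun ha g)
    simpa only [Finset.sum_apply, Pi.smul_apply, Finset.smul_sum, smul_smul, Pi.zero_apply,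
      smul_zero, ← div_eq_inv_mul] using this
  rw [← sub_zero (2 ^ 1 • _), ← e1, pow_one, pow_one]
  simp only [AddSubgroup.coe_subtype, AddSubmonoidClass.coe_finsetSum, AddSubgroup.coe_nsmul,
    Finset.sum_apply, Pi.smul_apply, Finset.smul_sum, ← Finset.sum_sub_distrib]
  refine IsUltrametricDist.norm_sum_le_of_forall_le_of_nonneg (by norm_num) fun i _ => ?_
  rw [smul_comm, ← Nat.cast_smul_eq_nsmul ℚ_[2], show ((rd (a i / a m)).val : ℚ_[2]) •
    (2 • (y i 0).1 g) - (a i / a m) • z i g = (((rd (a i / a m)).val : ℚ_[2]) - a i / a m) •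
      (2 • (y i 0).1 g) - (a i / a m) • (z i g - 2 • (y i 0).1 g) by module]
  refine norm_sub_le' ?_ ?_ <;> rw [norm_smul]
  · exact (mul_le_of_le_one_right (norm_nonneg _) (y0 i g)).trans
      ((rd_eq_iff (norm_val_le _) (b i)).1 (rd_val _))
  · exact (mul_le_of_le_one_left (norm_nonneg _) (b i)).trans (z3 i g)

end Vale.Agent.P004T.Gw
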