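import Vale.Agent.P004T.Gw2

/-!
# P004, row GWK2: a strict class forces many cocycles modulo powers of two
-/

set_option linter.all false

noncomputable section

namespace Vale.Agent.P004T.Gw.Ck

open NumberField Matrix Filter Topology
open Vale.Agent.P022 (Qb GQ)
open Vale.Agent.P022K
open Vale.Agent.P022K.G2 (In St ip)
open Vale.Agent.P027M.S (Inert)
open Vale.Agent.P022D.W (dec phi_mem)
open Vale.Agent.P022E.GW (Ov Fb)
open Vale.Agent.P004S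
open Vale.Agent.P004F
open scoped Pointwise

variable {r : Rp} {T : Finset ℕ} {n e : ℤ} {k q : ℕ} {P : Ideal (𝓞 Qb)} {g h φ s : GQ}
  {c : GQ → V} {v w : V}

/-! ### residues -/

theorem rn_mul (k : ℕ) {x y : ℚ_[2]} (hx : ‖x‖ ≤ 1) (hy : ‖y‖ ≤ 1) :
    rn k (x * y) = rn k x * rn k y := by
  obtain ⟨a, rfl⟩ : ∃ a : ℤ_[2], (a : ℚ_[2]) = x := ⟨⟨x, hx⟩, rfl⟩
  obtain ⟨b, rfl⟩ : ∃ a : ℤ_[2], (a : ℚ_[2]) = y := ⟨⟨y, hy⟩, rfl⟩
  rw [← PadicInt.coe_mul, rn_coe, rn_coe, rn_coe, map_mul]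

theorem rn_nat (k m : ℕ) : rn k (m : ℚ_[2]) = m := by
  rw [← PadicInt.coe_natCast, rn_coe, map_natCast]

theorem rd_nat (m : ℕ) : rd (m : ℚ_[2]) = m := by
  rw [← PadicInt.coe_natCast, rd_coe, map_natCast]

theorem nn (m : ℕ) : ‖(m : ℚ_[2])‖ ≤ 1 := IsUltrametricDist.norm_natCast_le_one _ m

theorem rn_val (y : ZMod (2 ^ k)) : rn k (y.val : ℚ_[2]) = y :=
  (rn_nat _ _).trans (ZMod.natCast_zmod_val _)

/-- the lift of a vector -/
def lv (x : Fin 2 → ZMod (2 ^ k)) : V := fun i => ((x i).val : ℚ_[2])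

theorem lv_int (x : Fin 2 → ZMod (2 ^ k)) : ‖lv x‖ ≤ 1 :=
  (pi_norm_le_iff_of_nonneg zero_le_one).2 fun i => nn _

theorem rw_lv (x : Fin 2 → ZMod (2 ^ k)) : rw' k (lv x) = x := funext fun i => rn_val _

theorem ns {a : ℚ_[2]} (ha : ‖a‖ ≤ 1) (hv : ‖v‖ ≤ 1) : ‖a • v‖ ≤ 1 := by
  rw [norm_smul]; exact mul_le_one₀ ha (norm_nonneg _) hv

theorem rw_smul {a : ℚ_[2]} (ha : ‖a‖ ≤ 1) (hv : ‖v‖ ≤ 1) : rw' k (a • v) = rn k a • rw' k v :=
  funext fun i => rn_mul k ha (norm_co hv i)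

theorem rw_ac (hr : Rep r T) (g : GQ) (hv : ‖v‖ ≤ 1) :
    rw' k (ac r n g v) = Pr.ac (am r n k g) (rw' k v) := by
  funext i
  have a : ∀ j, ‖sg n g * mt r g i j‖ ≤ 1 := fun j => nm (norm_sg _ _).le (hr.int _ _ _)
  simp only [rw', Pr.ac, am, Fin.sum_univ_two, smul_eq_mul]
  rw [← rn_mul k (a 0) (norm_co hv 0), ← rn_mul k (a 1) (norm_co hv 1),
    ← rn_add k (nm (a 0) (norm_co hv 0)) (nm (a 1) (norm_co hv 1))]
  congr 1
  simp only [ac, Pi.smul_apply, mulVec, dotProduct, Fin.sum_univ_two, smul_eq_mul]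
  ring

theorem am_ext {A B : Matrix (Fin 2) (Fin 2) (ZMod (2 ^ k))}
    (h : ∀ v : V, ‖v‖ ≤ 1 → Pr.ac A (rw' k v) = Pr.ac B (rw' k v)) : A = B :=
  ext_of_mulVec_single fun i => by
    have := h _ (lv_int (k := k) (Pi.single i 1))
    rwa [rw_lv] at this

theorem am_mul (hr : Rep r T) (g h : GQ) : am r n k (g * h) = am r n k g * am r n k h :=
  am_ext fun v hv => by
    rw [← rw_ac hr _ hv, ac_mul, rw_ac hr _ ((hr.norm_ac _ _ _).trans hv), rw_ac hr _ hv, Pr.mul_ac]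

theorem am_one (hr : Rep r T) (h : Tr r k g) (hn : nu n g = 0) : am r n k g = 1 :=
  am_ext fun v hv => by
    rw [← rw_ac hr _ hv, Pr.one_ac, rw_eq_iff _ ((hr.norm_ac _ _ _).trans hv) hv]
    exact tr_ac h hn hv

/-- the residue map -/
def pr (k : ℕ) : ZMod (2 ^ (k + 1)) →+* ZMod 2 := ZMod.castHom (dvd_pow_self 2 k.succ_ne_zero) _

theorem pr_rn {x : ℚ_[2]} (hx : ‖x‖ ≤ 1) : pr k (rn (k + 1) x) = rd x := by
  have := (rn_eq_iff (k + 1) hx (nn _)).1 (rn_val _).symm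
  rw [(rd_eq_iff hx (nn _)).2 (this.trans (by simpa using half_anti (Nat.le_add_left 1 k))), rd_nat,
    ZMod.natCast_val, pr, ZMod.castHom_apply]

theorem am_res (hr : Rep r T) (h : Tr r 1 g) : (am r n (k + 1) g).map (pr k) = 1 := by
  rw [← hr.tr_one_iff.1 h]
  ext i j
  rw [map_apply, am, pr_rn (nm (norm_sg _ _).le (hr.int _ _ _)),
    rd_mul (norm_sg _ _).le (hr.int _ _ _), rd_sg, one_mul, rb, map_apply]

theorem loc (k : ℕ) : IsLocalRing (ZMod (2 ^ (k + 1))) :=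
  haveI : Fact (1 < 2 ^ (k + 1)) := ⟨Nat.one_lt_two_pow k.succ_ne_zero⟩
  IsLocalRing.of_surjective' (PadicInt.toZModPow (p := 2) (k + 1)) (ZMod.ringHom_surjective _)

/-! ### the global data -/

/-- `T` is a big set of primes -/
structure Bg (r : Rp) (T : Finset ℕ) (n e : ℤ) : Prop where
  hr : Rep r T
  pm : ∀ l ∈ T, l.Prime
  hn : n ≠ 0
  he : e < 0
  dv : ∀ l : ℕ, l.Prime → (l : ℤ) ∣ n * e → l ∈ T

theorem Bg.ins (B : Bg r T n e) (hq : q.Prime) : Bg r (insert q T) n e :=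
  ⟨B.hr.mono (T.subset_insert q), fun l m => (Finset.mem_insert.1 m).elim (fun a => a ▸ hq) (B.pm l),
    B.hn, B.he, fun l a b => Finset.mem_insert_of_mem (B.dv l a b)⟩

theorem Bg.un (B : Bg r T n e) (h : g ∈ In T) : mt r g = 1 ∧ nu n g = 0 ∧ nu e g = 0 := by
  obtain ⟨l, a, P, o, i⟩ := h
  exact ⟨B.hr.mt_inert o a i,
    nu_inert o (B.hr.ne_two a) (fun m => a (B.dv l o.1 (m.mul_right _))) i,
    nu_inert o (B.hr.ne_two a) (fun m => a (B.dv l o.1 (m.mul_left _))) i⟩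

theorem Bg.gd (B : Bg r T n e) (k : ℕ) : Pr.Gd (kn e) T (am r n k) where
  opn := kn_open e
  idx := by
    obtain ⟨s, hs⟩ := En.ex_out B.he
    refine Subgroup.index_eq_two_iff.2 ⟨s, fun b => ?_⟩
    simp only [mem_kn, nu_mul, hs]
    rcases z2 (nu e b) with a | a <;> rw [a] <;> decide
  cx w := by
    obtain ⟨j, hj⟩ := G2.ex_conj w.embedding
    refine (Subgroup.eq_bot_iff_forall _).2 fun g m => ?_
    have : g ∈ ({1, j} : Set GQ) := by
      rw [← G2.st_conj hj, InfinitePlace.mk_embedding]; exact m.2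
    rcases this with rfl | rfl
    exacts [rfl, absurd ((nu_neg_conj B.he ⟨_, hj⟩).symm.trans m.1) one_ne_zero]
  two := B.hr.two
  pr := B.pm
  one := am_one B.hr (tr_of_eq (mt_one r)) (nu_one n)
  mul g _ h _ := am_mul B.hr g h
  lc := ⟨B.hr.Kn k ⊓ kn n, (B.hr.Kn_open k).inter (kn_open n), fun w _ m => am_one B.hr m.1 m.2⟩
  unr g _ m := am_one B.hr (tr_of_eq (B.un m).1) (B.un m).2.1

theorem Bg.fin (B : Bg r T n e) (k : ℕ) : Finite (Ap r n e T (k + 1)) := by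
  have := loc k
  obtain ⟨g, j, Q, u, w, hp, -⟩ := Pr.ex_pres (π := pr k) (μ := Empty) (ν := Empty) (κ := Empty)
    (P := fun i => i.elim) (b := fun i => i.elim) (N := 0) (B.gd (k + 1)) (fun i => i.elim)
    (fun i => i.elim) (Subsingleton.elim _ _)
  have := (hp.card_le (ZMod (2 ^ (k + 1)))).1
  exact Finite.of_injective (β := Pr.Zn (ZMod (2 ^ (k + 1))) (kn e) T (am r n (k + 1))
    (fun i : Empty => i.elim) (fun i => i.elim) (0 : Matrix Empty Empty _))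
    (fun x => ⟨(x.1, 0), ⟨x.2.1, x.2.2.1, x.2.2.2.1, x.2.2.2.2, fun i => i.elim⟩,
      Subsingleton.elim _ _⟩) fun x y a => Subtype.ext (congrArg (·.1.1) a)

/-- a prime with a Frobenius element in a given open set -/
theorem Bg.frob (B : Bg r T n e) (k : ℕ) {O : Set GQ} (o : IsOpen O) (m : h ∈ O) (h1 : mt r h = 1)
    (h2 : nu n h = 0) (h3 : nu e h = 0) : ∃ q P φ, Ov q P ∧ q ∉ T ∧ Fb q P φ ∧ φ ∈ O ∧
      ∀ g ∈ dec P, Tr r k g ∧ nu n g = 0 ∧ nu e g = 0 := by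
  have oU : IsOpen (B.hr.Kn k ⊓ (kn n ⊓ kn e) : Subgroup GQ).carrier :=
    (B.hr.Kn_open k).inter ((kn_open n).inter (kn_open e))
  obtain ⟨q, φ, a, b, ⟨P, p1, p2, p3⟩, m1, m2⟩ :=
    Cheb.exists_fr (o.inter oU) ⟨m, tr_of_eq h1, h2, h3⟩ T
  exact ⟨q, P, φ, ⟨a, p1, p2⟩, b, p3, m1, lt.dec_le ⟨a, p1, p2⟩ p3 oU m2 fun i hi =>
    have := B.un ⟨q, b, P, ⟨a, p1, p2⟩, hi⟩
    ⟨tr_of_eq this.1, this.2⟩⟩

/-! ### the local conditions at the two places above the auxiliary prime -/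

/-- the parameters -/
abbrev Mu : Type := Option (Fin 2 × Fin 2)

section
variable {R : Type} [CommRing R]

/-- unramified part `u`, ramified part `x` in the direction `W` -/
def bm (u x : R) (i : Fin 2) (W : Fin 2 → R) : Matrix (Fin 2) Mu R :=
  fun j m => m.elim (x * W j) fun p => if p = (i, j) then u else 0

theorem bm_ac (u x : R) (i : Fin 2) (W : Fin 2 → R) (y : Mu → R) :
    Pr.ac (bm u x i W) y = u • (fun j => y (some (i, j))) + x • y none • W := by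
  funext j
  simp [Pr.ac, bm, Fintype.sum_option]
  ring

theorem bm_add (u x u' x' : R) (i : Fin 2) (W : Fin 2 → R) :
    bm (u + u') (x + x') i W = bm u x i W + bm u' x' i W := by
  ext j (_ | p) <;> simp only [bm, Matrix.add_apply, Option.elim]
  · ring
  · split_ifs <;> simp

end

/-- the two places -/
def pc (s : GQ) (P : Ideal (𝓞 Qb)) (i : Fin 2) : Ideal (𝓞 Qb) := (![1, s] i : GQ)⁻¹ • P

/-- the conditions -/
def bb (r : Rp) (k q : ℕ) (χ : GQ → ZMod (2 ^ k)) (w : V) (i : Fin 2) (g : GQ) :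
    Matrix (Fin 2) Mu (ZMod (2 ^ k)) := bm (rn k (xu r q g)) (χ g) i (rw' k (![w, 0] i))

theorem dec_sm (t : GQ) : g ∈ dec (t⁻¹ • P) ↔ t * g * t⁻¹ ∈ dec P := by
  rw [GW.Pl.dec_iff, GW.Pl.dec_iff, mul_smul, mul_smul, eq_inv_smul_iff]

/-- the data at the level `k` -/
structure Dp (r : Rp) (T : Finset ℕ) (n e : ℤ) (k q : ℕ) (P : Ideal (𝓞 Qb)) (φ s : GQ)
    (χ : GQ → ZMod (2 ^ k)) : Prop where
  bg : Bg r T n e
  ho : Ov q P
  hq : q ∉ T
  fb : Fb q P φ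
  le : ∀ g ∈ dec P, Tr r (k + 1) g ∧ nu n g = 0 ∧ nu e g = 0
  hs : nu e s = 1
  ad : ∀ g h, Tr r k g → χ (g * h) = χ g + χ h
  op : ∃ W : Subgroup GQ, IsOpen (W : Set GQ) ∧ ∀ g, ∀ w ∈ W, χ (g * w) = χ g
  re : ∀ g, ((χ g).val : ZMod 2) = nu q g

variable {χ : GQ → ZMod (2 ^ k)} (D : Dp r T n e k q P φ s χ) {i : Fin 2}
include D

theorem Dp.ov (i : Fin 2) : Ov q (pc s P i) := GW.ov_smul D.ho _

theorem Dp.lo (m : g ∈ dec (pc s P i)) :
    Tr r k g ∧ nu n g = 0 ∧ nu e g = 0 ∧ ‖xu r q g‖ ≤ 1 := by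
  have a := (dec_sm _).1 m
  obtain ⟨a1, a2, a3⟩ := D.le _ a
  have a4 := xu_int D.bg.hr D.ho D.hq D.fb _ a
  rw [nu_conj] at a2 a3
  rw [← xu_conj r q _ (![1, s] i)] at a4
  have := D.bg.hr.tr_conj (a1.mono k.le_succ) (![1, s] i)⁻¹
  simp only [mul_assoc, inv_inv, inv_mul_cancel_left, inv_mul_cancel, mul_one] at this a4
  exact ⟨this, a2, a3, a4⟩

theorem Dp.bb_mul (m : g ∈ dec (pc s P i)) (m' : h ∈ dec (pc s P i)) :
    bb r k q χ w i (g * h) = bb r k q χ w i g + bb r k q χ w i h := by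
  obtain ⟨a1, -, -, a2⟩ := D.lo m
  have a3 := (D.lo m').2.2.2
  have a4 := nm (D.bg.hr.norm_ep g).le a3
  rw [bb, bb, bb, ← bm_add, D.ad g h a1, xu_mul, rn_add _ a2 a4, (rn_eq_iff k a4 a3).2]
  rw [← sub_one_mul, mul_comm]
  exact nm a3 (tr_ep D.bg.hr a1)

section
variable {x : (GQ → Fin 2 → ZMod (2 ^ k)) × (Mu → ZMod (2 ^ k))}
  (hx : x ∈ Pr.Zs (ZMod (2 ^ k)) (kn e) (insert q T) (am r n k) (pc s P) (bb r k q χ w))
include hx

theorem Dp.val (m : g ∈ dec (pc s P i)) : x.1 g = rn k (xu r q g) • (fun j => x.2 (some (i, j))) +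
    χ g • x.2 none • rw' k (![w, 0] i) :=
  (hx.2.2.2.2 i g ⟨(D.lo m).2.2.1, m⟩).trans (bm_ac _ _ _ _ _)

theorem Dp.par (h0 : x.2 none = 0) (i j : Fin 2) :
    x.2 (some (i, j)) = x.1 ((![1, s] i)⁻¹ * φ * ![1, s] i) j := by
  rw [D.val hx (i := i) ((dec_sm _).2 (by
    simpa [mul_assoc] using phi_mem D.ho.1 D.ho.2.1 D.fb)), xu_conj,
    xu_frob D.bg.hr D.ho D.hq D.fb, h0, ← Nat.cast_one, rn_nat]
  simp

theorem Dp.ap (h0 : x.2 none = 0) : x.1 ∈ Ap r n e T k := by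
  refine ⟨hx.1, hx.2.1, hx.2.2.1, fun g m => ?_⟩
  obtain ⟨u1, u2, u3⟩ := D.bg.un m
  obtain ⟨l, a, P', o, ig⟩ := m
  by_cases lq : l = q
  swap
  · exact hx.2.2.2.1 g ⟨l, by simpa using ⟨lq, a⟩, P', o, ig⟩
  subst lq
  obtain ⟨i, t, ht, rfl⟩ : ∃ (i : Fin 2) (t : GQ), t ∈ kn e ∧ P' = t • pc s P i := by
    obtain ⟨t, rfl⟩ := P022E.GW.Tg.trans D.ho o
    rcases z2 (nu e t) with b | b
    · exact ⟨0, t, b, by simp [pc]⟩
    · exact ⟨1, t * s, by rw [mem_kn, nu_mul, b, D.hs]; decide, by simp [pc, mul_smul]⟩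
  have j := P022E.GW.Tg.inert_conj ig
  have b1 := hx.1 t ht _ (D.lo (inert_dec j)).2.2.1
  rw [D.val hx (inert_dec j), xu_of (D.bg.hr.mt_inert (D.ov i) D.hq j), rn_zero, h0, zero_smul,
    zero_smul, smul_zero, add_zero, Pr.ac_zero, add_zero, ← mul_assoc, mul_inv_cancel_left,
    hx.1 g u3 t ht, am_one D.bg.hr (tr_of_eq u1) u2, Pr.one_ac] at b1
  exact add_eq_right.1 b1

theorem Dp.ort (hc : Rel r n c) (ci : ∀ g, ‖c g‖ ≤ 1 / 2)
    (cT : ∀ l ∈ T, l.Prime → ∃ P, Ov l P ∧ ∃ m, ‖m‖ ≤ 1 ∧ ∀ g ∈ dec P, c g = ac r n g m - m)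
    (hw : ‖w‖ ≤ 1) : ‖wp (c φ) (((x.2 none).val : ℚ_[2]) • w)‖ ≤ (1 / 2) ^ k := by
  have hr := D.bg.hr
  obtain ⟨W, oW, hW⟩ := hx.2.2.1
  have lc : IsLocallyConstant x.1 := lc_of_open (oW.inter (kn_open e)) ⟨one_mem _, one_mem _⟩
    fun g u m => by
      by_cases a : g ∈ kn e
      · rw [hx.1 g a u m.2, hW u m.1, Pr.ac_zero, add_zero]
      · rw [hx.2.1 g a, hx.2.1 _ fun b => a ((mul_mem_cancel_right m.2).1 b)]
  let z : GQ → V := fun g => lv (x.1 g)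
  let y : Fin 2 → V := fun i => lv fun j => x.2 (some (i, j))
  have zi : ∀ g, ‖z g‖ ≤ 1 := fun g => lv_int _
  have z0 : ∀ g ∈ In (insert q T : Finset ℕ), ‖z g‖ ≤ (1 / 2) ^ k := fun g m =>
    (rw_eq_zero k (zi g)).1 ((rw_lv _).trans (hx.2.2.2.1 g m))
  have wi : ∀ i, ‖(![w, 0] i : V)‖ ≤ 1 := fun i => by fin_cases i <;> simp [hw]
  have zl : ∀ i, ∀ g ∈ dec (pc s P i), ‖z g - (xu r q g • y i + ((χ g).val : ℚ_[2]) •
      ((x.2 none).val : ℚ_[2]) • ![w, 0] i)‖ ≤ (1 / 2) ^ k := fun i g m => by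
    have a1 := (D.lo m).2.2.2
    have a2 := ns (nn (x.2 none).val) (wi i)
    have a3 := ns a1 (lv_int fun j => x.2 (some (i, j)))
    have a4 := ns (nn (χ g).val) a2
    rw [← rw_eq_iff k (zi g) (norm_add_le' a3 a4), rw_add k a3 a4, rw_smul a1 (lv_int _),
      rw_smul (nn _) a2, rw_smul (nn _) (wi i), rw_lv, rw_lv, rn_val, rn_val, D.val hx m]
  refine reci (X := cor r n e s z) (t := fun g => ((χ g).val : ℚ_[2]))
    (a := y 0 + ac r n s (y 1)) hr D.bg.hn (Finset.Subset.refl T)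
    (fun l a b => D.bg.dv l a (b.mul_right _)) hc ci cT (cor_cont hr (lc.comp lv).continuous)
    (cor_int hr zi) (cor_coc hr D.hs fun g h a b => ?_) (fun l P' o a b g m => ?_) D.ho D.hq D.fb
    (fun g m => ⟨(D.le g m).1, (D.le g m).2.1⟩) (fun g => nn _) (fun g => (rd_nat _).trans (D.re g))
    (norm_add_le' (lv_int _) ((hr.norm_ac _ _ _).trans (lv_int _))) (ns (nn _) hw) fun g m => ?_
  · have a1 := (hr.norm_ac n g _).trans (zi h)
    rw [df, sub_sub, ← rw_eq_iff k (zi _) (norm_add_le' (zi g) a1), rw_add k (zi g) a1,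
      rw_ac hr g (zi h), rw_lv, rw_lv, rw_lv, hx.1 g a h b]
  · have j : l ∉ ((insert q T : Finset ℕ) : Set ℕ) := by simpa using ⟨b, a⟩
    rw [cor, if_pos (D.bg.un ⟨l, a, P', o, m⟩).2.2]
    exact norm_add_le' (z0 g ⟨l, j, P', o, m⟩) ((hr.norm_ac _ _ _).trans (z0 _ ⟨l, j, s⁻¹ • P',
      GW.ov_smul o _, P022E.GW.Tg.inert_conj (by rwa [smul_inv_smul])⟩))
  · have a0 := zl 0 g (by simpa [pc] using m)
    have a1 := zl 1 (s⁻¹ * g * s) ((dec_sm _).2 (by simpa [mul_assoc] using m))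
    rw [xu_conj] at a1
    refine (congrArg _ ?_).trans_le (norm_add_le' a0 ((hr.norm_ac n s _).trans a1))
    simp only [cor, (D.le g m).2.2, if_true, ac_sub, ac_smul, cons_val_zero, cons_val_one,
      smul_zero, add_zero, smul_add]
    abel

end

omit D in
theorem Dp.lo' {χ : GQ → ZMod (2 ^ (k + 1))} (D : Dp r T n e (k + 1) q P φ s χ)
    (h0 : ∃ l ∈ T, l ≠ 2 ∧ ∃ Q, Ov l Q ∧ ∀ g ∈ dec Q, Tr r 1 g ∧ nu e g = 0) :
    Pr.Lo (pr k) (kn e) (insert q T) (am r n (k + 1)) (pc s P) (bb r (k + 1) q χ w)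
      (0 : Matrix Empty Mu _) where
  ov i := ⟨q, T.mem_insert_self q, D.ov i⟩
  un i j g m a := by
    rw [pc, pc, eq_comm, eq_inv_smul_iff, ← mul_smul, ← mul_smul, ← GW.Pl.dec_iff] at a
    have := (D.le _ a).2.2
    rw [nu_mul, nu_mul, nu_inv, mem_kn.1 m] at this
    fin_cases i <;> fin_cases j <;> simp [nu_one, D.hs] at this ⊢
  deg i o := absurd (GW.Pl.ov_uniq (D.ov i) o) (D.bg.hr.ne_two D.hq)
  uni i _ o := absurd (GW.Pl.ov_uniq (D.ov i) o) (D.bg.hr.ne_two D.hq)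
  coc i g m h m' := ⟨0, by
    rw [D.bb_mul m.2 m'.2, am_one D.bg.hr (D.lo m.2).1 (D.lo m.2).2.1, Matrix.one_mul,
      Matrix.mul_zero, add_zero]⟩
  lc i := by
    obtain ⟨W, oW, hW⟩ := D.op
    obtain ⟨U, oU, hU⟩ := ex_open (s := xu r q ⁻¹' Metric.closedBall 0 ((1 / 2) ^ (k + 1)))
      (((IsUltrametricDist.isOpen_closedBall _ (by positivity)).preimage (xu_cont D.bg.hr)).mem_nhds
        (by simp [xu_of (mt_one r)]))
    refine ⟨W ⊓ U, oW.inter oU, fun g m u m' a => ?_⟩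
    have a1 := (D.lo m.2).2.2.2
    have a2 : ‖ep r g * xu r q u‖ ≤ (1 / 2) ^ (k + 1) :=
      nm (D.bg.hr.norm_ep g).le (mem_closedBall_zero_iff.1 (hU a.2))
    rw [bb, bb, hW g u a.1, xu_mul, (rn_eq_iff _ (norm_add_le' a1 (a2.trans (half_pow_le _))) a1).2
      (by rwa [add_sub_cancel_left])]
  min := Subsingleton.elim _ _
  rel := by
    obtain ⟨l, a, b, Q, o, d⟩ := h0
    refine .inr ⟨l, Finset.mem_insert_of_mem a, b, Q, o, fun g m => (d g m).2,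
      fun g m => am_res D.bg.hr (d g m).1, fun i g _ j => D.hq ?_⟩
    rwa [← GW.Pl.ov_uniq o (l' := q) (j ▸ GW.ov_smul (D.ov i) g)]

omit D

/-- the count at one level -/
theorem core (B : Bg r T n e) (hc : Rel r n c) (ci : ∀ g, ‖c g‖ ≤ 1 / 2)
    (cT : ∀ l ∈ T, l.Prime → ∃ P, Ov l P ∧ ∃ m, ‖m‖ ≤ 1 ∧ ∀ g ∈ dec P, c g = ac r n g m - m)
    (h0 : ∃ l ∈ T, l ≠ 2 ∧ ∃ Q, Ov l Q ∧ ∀ g ∈ dec Q, Tr r 1 g ∧ nu e g = 0)
    (h1 : mt r h = 1) (h2 : nu n h = 0) (h3 : nu e h = 0) (hw : ‖w‖ ≤ 1) {C : ℕ}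
    (hC : (1 / 2) ^ C < ‖wp (c h) w‖) (k : ℕ) :
    32 ^ (k + 1) ≤ 2 ^ C * (Ap r n e T (k + 1)).ncard := by
  obtain ⟨q, P, φ, o, hq, fb, hφ, le⟩ := B.frob (k + 2) (O := {g | (1 / 2) ^ C < ‖wp (c g) w‖})
    (isOpen_lt continuous_const (wp_cont (continuousOn_univ.1 hc.1.1) continuous_const).norm)
    hC h1 h2 h3
  obtain ⟨s, hs⟩ := En.ex_out B.he
  obtain ⟨χ, c1, c2, c3⟩ := kum k o.1.ne_zero
  have D : Dp r T n e (k + 1) q P φ s χ := ⟨B, o, hq, fb, le, hs, fun g j a => c1 g j fun y b =>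
    (cyc_ep r T B.hr g (k + 1) 1 y b (by simpa using tr_ep B.hr a)).trans (pow_one y), c2, c3⟩
  have := loc k
  obtain ⟨g, j, Q, u, v, hp, gj⟩ := Pr.pres2 (by simp) ((B.ins o.1).gd (k + 1)) (D.lo' (w := w) h0)
    fun i a => B.hr.ne_two hq (GW.Pl.ov_uniq (D.ov i) a)
  obtain ⟨fin, cd⟩ := hp.card_le (ZMod (2 ^ (k + 1)))
  set Z := Pr.Zn (ZMod (2 ^ (k + 1))) (kn e) (insert q T) (am r n (k + 1)) (pc s P)
    (bb r (k + 1) q χ w) (0 : Matrix Empty Mu _)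
  let f : Z →+ ZMod (2 ^ (k + 1)) := AddMonoidHom.mk' (fun x => x.1.2 none) fun _ _ => rfl
  have a1 := card_le f (Set.toFinite {y | 2 ^ C • y = 0}) fun x => by
    have := D.ort x.2.1 hc ci cT hw
    rw [wp_smul_right, norm_mul] at this
    have b : ‖((2 ^ C * (x.1.2 none).val : ℕ) : ℚ_[2]) - 0‖ ≤ (1 / 2) ^ (k + 1) := by
      rw [sub_zero, Nat.cast_mul, Nat.cast_pow, Nat.cast_two, norm_mul, norm_two_pow, mul_comm]
      exact (mul_le_mul_of_nonneg_left hφ.le (norm_nonneg _)).trans this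
    rw [← rn_eq_iff _ (nn _) (by simp), rn_nat, rn_zero, Nat.cast_mul, ZMod.natCast_zmod_val] at b
    exact (nsmul_eq_mul _ _).trans b
  have a2 : {y : ZMod (2 ^ (k + 1)) | 2 ^ C • y = 0}.ncard ≤ 2 ^ C := by
    rw [Set.ncard_eq_toFinset_card', Set.toFinset_setOf]
    exact IsAddCyclic.card_nsmul_eq_zero_le (by positivity)
  have := B.fin k
  have a3 : Nat.card f.ker ≤ (Ap r n e T (k + 1)).ncard :=
    Nat.card_le_card_of_injective (fun x => ⟨x.1.1.1, D.ap x.1.2.1 x.2⟩) fun x y a => by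
      have b : x.1.1.1 = y.1.1.1 := congrArg Subtype.val a
      refine Subtype.ext (Subtype.ext (Prod.ext b (funext ?_)))
      rintro (_ | ⟨i, j⟩)
      · exact (show x.1.1.2 none = 0 from x.2).trans (show y.1.1.2 none = 0 from y.2).symm
      · rw [D.par x.1.2.1 x.2, D.par y.1.2.1 y.2, b]
  obtain rfl : g = 5 + j := by simp at gj; omega
  rw [Nat.card_zmod, pow_add, Fintype.card_empty, add_zero, ← pow_mul, mul_comm (k + 1), pow_mul]
    at cd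
  exact (Nat.le_of_mul_le_mul_right cd (by positivity)).trans
    (a1.trans ((Nat.mul_le_mul a3 a2).trans_eq (mul_comm _ _)))

end Ck

open NumberField Ck
open Vale.Agent.P022 (Qb GQ)
open Vale.Agent.P022D.W (dec)
open Vale.Agent.P022E.GW (Ov)
open Vale.Agent.P004S

/-- **CNTK** -/
theorem cntk : CNTK := by
  intro r S n e c P h hr hn he hc hP hb h1 h2 h3 h4
  have B : Bg r (S.filter Nat.Prime ∪ (n * e).natAbs.primeFactors) n e := by
    have a : ∀ l : ℕ, l.Prime → l ∈ S → l ∈ S.filter Nat.Prime ∪ (n * e).natAbs.primeFactors :=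
      fun l a b => Finset.mem_union_left _ (Finset.mem_filter.2 ⟨b, a⟩)
    exact ⟨⟨hr.cont, hr.int, a 2 Nat.prime_two hr.two, fun l p m => hr.unr l p fun j => m (a l p j),
      fun l p m => hr.frob l p fun j => m (a l p j), hr.irr⟩, fun l m => (Finset.mem_union.1 m).elim
        (fun j => (Finset.mem_filter.1 j).2) Nat.prime_of_mem_primeFactors, hn, he, fun l p m =>
      Finset.mem_union_right _ (Nat.mem_primeFactors.2 ⟨p, Int.natCast_dvd.1 m,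
        Int.natAbs_ne_zero.2 (mul_ne_zero hn he.ne)⟩)⟩
  obtain ⟨q, Q, -, o, hq, -, -, le⟩ := B.frob 1 isOpen_univ trivial h1 h2 h3
  generalize S.filter Nat.Prime ∪ (n * e).natAbs.primeFactors = T at B hq
  obtain ⟨pl⟩ := pl_ex
  have : ∀ l : ℕ, ∃ (P : Ideal (𝓞 Qb)) (m : V), l.Prime → Ov l P ∧
      ∀ g ∈ dec P, c g = ac r n g m - m := fun l => by
    by_cases p : l.Prime
    · by_cases l2 : l = 2
      · obtain ⟨m, hm⟩ := hb
        exact ⟨P, m, fun _ => ⟨l2 ▸ hP, hm⟩⟩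
      · obtain ⟨m, hm⟩ := hc.2 l _ (pl.ov l p) l2
        exact ⟨_, m, fun _ => ⟨pl.ov l p, hm⟩⟩
    · exact ⟨P, 0, fun a => absurd a p⟩
  choose Pl m hm using this
  have := P022K.G2.cpt
  obtain ⟨A, hA⟩ := isCompact_univ.exists_bound_of_continuousOn hc.1.1
  obtain ⟨A', hA'⟩ := ((insert q T).finite_toSet.image fun l => ‖m l‖).bddAbove
  have A0 : 0 ≤ A := (norm_nonneg _).trans (hA 1 trivial)
  have A1 : 0 ≤ A' := (norm_nonneg _).trans (hA' ⟨q, T.mem_insert_self q, rfl⟩)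
  obtain ⟨a, a0, a1⟩ := NormedField.exists_norm_lt ℚ_[2] (r := 1 / (2 * (A + A' + 1))) (by positivity)
  rw [lt_div_iff₀ (by positivity)] at a1
  obtain ⟨w, hw, w0⟩ : ∃ w : V, ‖w‖ ≤ 1 ∧ wp (c h) w ≠ 0 := by
    by_contra! k
    have k0 := k (Pi.single 0 1) (by simp [Pi.norm_single])
    have k1 := k (Pi.single 1 1) (by simp [Pi.norm_single])
    refine h4 (funext fun i => ?_)
    fin_cases i <;> simp_all [wp]
  obtain ⟨C, hC⟩ := exists_pow_lt_of_lt_one (y := (1 / 2 : ℝ)) (x := ‖wp ((a • c) h) w‖) (by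
    rw [Pi.smul_apply, wp_smul_left, norm_mul]; exact mul_pos a0 (norm_pos_iff.2 w0)) (by norm_num)
  refine ⟨insert q T, 2 ^ C, fun k hk => ?_⟩
  obtain ⟨k, rfl⟩ := Nat.exists_eq_add_of_le' hk
  refine core (B.ins o.1) (by simpa using rel_comb hc hc a 0) (fun g => ?_) (fun l j p =>
    ⟨_, (hm l p).1, a • m l, ?_, fun g i => ?_⟩) ⟨q, T.mem_insert_self q, B.hr.ne_two hq, Q, o,
      fun g i => ⟨(le g i).1, (le g i).2.2⟩⟩ h1 h2 h3 hw hC k
  · rw [Pi.smul_apply, norm_smul]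
    nlinarith [hA g trivial]
  · rw [norm_smul]
    nlinarith [hA' ⟨l, j, rfl⟩]
  · rw [Pi.smul_apply, (hm l p).2 g i, ac_smul, smul_sub]

end Vale.Agent.P004T.Gw
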