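import Vale.Agent.P004T.St
import Vale.Agent.P004S.Rec
import Vale.Agent.P004S.Gal1
import Vale.Agent.P004S.Lt
import Vale.Agent.P022K.G2.Dim
import Vale.Agent.P022E.GW.HnH56

/-!
# P004, the spine: the row ISO (helper10)
-/

set_option linter.all false

noncomputable section

namespace Vale.Agent.P004T

open NumberField Filter Topology
open Vale.Agent.P022 (Qb GQ)
open Vale.Agent.P022K
open Vale.Agent.P027M.S (Inert)
open Vale.Agent.P022D.W (dec inP_le_dec)
open Vale.Agent.P022E.GW (Ov)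
open Vale.Agent.P004S
open Vale.Agent.P004S.Aq
open Vale.Agent.P004S.Ga (K O Cn d2 d3)

namespace Is

variable (c : Cn)

/-- a global class of order two which is trivial outside `2` is trivial at `2` -/
theorem one {w : GQ → GQ → ZMod 2} (hw : w ∈ G2.Z2 ∅ ⊤ (G2.tr GQ (ZMod 2)))
    (h : ∀ v, Ga.Pl v → v ≠ 2 → w ∈ G2.B2 ∅ (c.D v) (G2.tr GQ (ZMod 2))) :
    w ∈ G2.B2 ∅ (c.D 2) (G2.tr GQ (ZMod 2)) := by
  by_contra hn
  have p5 : Nat.Prime 5 := by norm_num
  have := Fact.mk p5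
  have ch : ∀ (d : ℤ) (D : Subgroup GQ), IsClosed (D : Set GQ) → G2.Ch D (nu d) := fun d D hD =>
    (G2.ch_iff hD).1 (nu_ch d D)
  have hs := G2.cup_z2 (ch 2 ⊤ isClosed_univ) (ch 5 ⊤ isClosed_univ)
  have o2 := c.ov 2 Nat.prime_two
  have nl := G2.nil P022E.GW.H56.nil
  obtain ⟨u, u1, u2, σ, u3, u4⟩ := G2.uch 2 ⊤ 2 _ isOpen_univ o2
  have dm := fun z hz => G2.dim1 nl G2.gys ⊤ 2 _ u z isOpen_univ (G2.le_gz_two _) o2 u1 u2
    ⟨σ, u3, u4 ▸ one_ne_zero⟩ (G2.Z2.mono hz subset_rfl le_top)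
  obtain ⟨β, b1, b2⟩ := dm w hw
  obtain ⟨γ, g1, g2⟩ := dm _ hs
  rw [D_prime c Nat.prime_two, ← top_inf_eq (dec _)] at hn
  obtain ⟨a, ha⟩ := nl ⊤ 2 _ u β γ isOpen_univ (G2.le_gz_two _) o2 u1 b1 g1 fun k =>
    hn (by simpa using add_mem b2 k)
  have z1 := sub_mem hs (Submodule.smul_mem _ a hw)
  have z2 : G2.cup (nu 2) (nu 5) - a • w ∈ G2.B2 ∅ (c.D 2) (G2.tr GQ (ZMod 2)) := by
    rw [D_prime c Nat.prime_two, ← top_inf_eq (dec _)]
    convert sub_mem (add_mem g2 ha) (Submodule.smul_mem _ a b2) using 1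
    rw [smul_sub]
    abel
  have o5 := c.ov 5 p5
  have key := G2.one P022E.GW.oneC (G2.uch 2) (G2.tam 2) (ZMod 2) ⊤
    (G2.cup (nu 2) (nu 5) - a • w) Unit (fun _ => 5) (fun _ => c.P 5) (fun _ => c.φ 5)
    (fun _ => nu 2) (fun _ => nu 5) (fun _ => 1) isOpen_univ (by rwa [G2.ch_om_two])
    (fun _ => ⟨o5, by decide, c.fb 5 p5, le_inf le_top (G2.le_gz_two _)⟩) (fun _ _ _ _ _ => rfl)
    (fun _ => ?_) fun x hx n => ?_
  · simp only [Finset.univ_unique, Finset.sum_singleton, mul_one] at key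
    have e := sg_frob o5 (by decide) (d := 2) (by decide) (c.fb 5 p5)
    rw [sg_of_zero key, show legendreSym 5 2 = -1 by norm_num] at e
    norm_num at e
  · have cl := G2.dec_closed (c.P 5)
    refine ⟨ch _ _ cl, ch _ _ cl, fun g hg => ⟨nu_inert o5 (by decide) (by decide) hg, ?_⟩, ?_⟩
    · rw [ZMod.castHom_self, RingHom.id_apply, Rc.ka_nu p5, mul_one]; rfl
    · rw [sub_sub_cancel_left, ← D_prime c p5]
      exact neg_mem (Submodule.smul_mem _ a (h 5 (.inr p5) (by decide)))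
  · obtain ⟨v, hv, m⟩ := ab_pl hx
    rw [G2.ch_om_two]
    refine loc_all c z1 hv ?_ m
    by_cases v2 : v = 2
    · rwa [v2]
    refine sub_mem ?_ (Submodule.smul_mem _ a (h v hv v2))
    rcases hv with rfl | hv
    · obtain ⟨φ, hφ⟩ : ∃ φ, c.w = .mk φ := ⟨_, (InfinitePlace.mk_embedding _).symm⟩
      obtain ⟨j, hj⟩ := G2.ex_conj φ
      refine G2.b2_of_zero fun g hg i _ => ?_
      rw [D_zero, hφ, ← SetLike.mem_coe, G2.st_conj hj] at hg
      rcases hg with rfl | rfl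
      · rw [G2.cup, nu_one, zero_mul]
      · rw [G2.cup, show nu 2 g = 0 from nu_nat_conj 2 ⟨φ, hj⟩, zero_mul]
    have ov := c.ov v hv
    have v5 : v ≠ 5 := fun k => by
      subst k
      obtain ⟨g, e⟩ := G2.Plc.ab_trans (G2.mem_ab_fp.2 ⟨5, rfl, o5⟩) m
      exact n () g trivial e
    have nd : ∀ q : ℕ, q.Prime → v ≠ q → ¬ (v : ℤ) ∣ q := fun q hq ne k =>
      ne ((Nat.prime_dvd_prime_iff_eq hv hq).1 (Int.natCast_dvd_natCast.1 k))
    rw [D_prime c hv, ← top_inf_eq (dec _)]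
    refine G2.unr 2 (ZMod 2) ⊤ v _ _ isOpen_univ ov (G2.Z2.mono hs subset_rfl le_top)
      fun g _ j _ i _ m => ?_
    simp only [G2.cup, nu_mul, show nu 2 i = 0 from nu_inert ov v2 (nd 2 Nat.prime_two v2) m,
      show nu 5 i = 0 from nu_inert ov v2 (nd 5 p5 v5) m, add_zero, and_self]

theorem has {z : GQ → GQ → K} (hz : Ga.Z2 cy ⊤ z)
    (h : ∀ v, Ga.Pl v → v ≠ 2 → Ga.B2 cy (c.D v) z) :
    ∃ η : GQ → K, Continuous η ∧ ∀ g h, z g h - d2 cy η g h ∈ O := by
  have b : ∀ i ∈ (⊥ : Subgroup GQ), i = 1 := fun _ => Subgroup.mem_bot.1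
  obtain ⟨η, h1, -, h2⟩ := ind (N := ⊥) isClosed_univ (fun g _ i m => by simp [b i m])
    (fun i m => by rw [b i m, map_one]) (fun z => ∀ v, Ga.Pl v → v ≠ 2 → Ga.B2 cy (c.D v) z)
    (fun z h v hv n => b2_two (h v hv n))
    (fun z θ h hθ v hv n => b2_sub (h v hv n) (hθ.mono (Set.subset_univ _)))
    (fun z hz hf _ h => by
      have h1 := toZ isClosed_univ hz hf
      have h2 := fun v hv n => toB (D_closed c hv) (h v hv n) fun g _ j _ => hf g trivial j trivial
      obtain ⟨a, ha, e⟩ := G2.hasse P022E.GW.hasseCC ⊤ _ isOpen_univ (G2.le_gz_two _) h1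
        fun x hx => by
          obtain ⟨v, hv, m⟩ := ab_pl hx
          refine loc_all c h1 hv ?_ m
          by_cases n : v = 2
          · exact n ▸ one c h1 h2
          · exact h2 v hv n
      obtain ⟨k1, k2⟩ := ofB hf ha e
      exact ⟨_, k1, fun g _ i m => by simp [b i m], k2⟩)
    hz (fun g _ j _ i m => by simp [b i m]) h
  exact ⟨η, continuousOn_univ.1 h1, fun g j => h2 g trivial j trivial⟩

/-- from all levels to an exact coboundary -/
theorem lim {z : GQ → GQ → K} (h : ∀ k : ℕ, ∃ η : GQ → K, Continuous η ∧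
    ∀ g j, (2 ^ k)⁻¹ * z g j - d2 cy η g j ∈ O) :
    ∃ β : GQ → K, Continuous β ∧ ∀ g j, z g j = d2 cy β g j := by
  have t0 : ∀ k : ℕ, (2 : K) ^ k ≠ 0 := fun k => pow_ne_zero _ two_ne_zero
  let Gd : ℕ → (GQ → K) → Prop := fun k β =>
    Continuous β ∧ ∀ g j, (2 ^ k)⁻¹ * (z g j - d2 cy β g j) ∈ O
  have st : ∀ k β, Gd k β → ∃ β', Gd (k + 1) β' ∧ ∀ g, (2 ^ k)⁻¹ * (β' g - β g) ∈ O := by
    rintro k β ⟨b1, b2⟩
    obtain ⟨η, e1, e2⟩ := h (k + 1)
    obtain ⟨θ, k1, k2, k3⟩ := div ⊤ (fun g => 2 * η g - (2 ^ k)⁻¹ * β g) isClosed_univ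
      ((continuous_const.mul e1).sub (continuous_const.mul b1)).continuousOn fun g _ j _ =>
        O_of (sub_mem (b2 g j) (O_mul O_two (e2 g j))) (by
          simp only [d2, cyc_eq, pow_succ, mul_inv]
          field_simp
          ring)
    rw [cyc_eq] at k2
    refine ⟨fun g => 2 ^ (k + 1) * (η g - θ g), ⟨continuous_const.mul
      (e1.sub (continuousOn_univ.1 k1)), fun g j => O_of (add_mem (e2 g j) (k2 g trivial j trivial))
        ?_⟩, fun g => O_of (neg_mem (k3 g trivial)) ?_⟩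
    · have := t0 (k + 1)
      simp only [d2]
      field_simp
      ring
    · have := t0 k
      field_simp
      ring
  choose f hf using st
  obtain ⟨η, e1, e2⟩ := h 0
  let s : ∀ k, {β // Gd k β} := fun k => Nat.rec ⟨η, e1, by simpa using e2⟩
    (fun k b => ⟨f k b.1 b.2, (hf k b.1 b.2).1⟩) k
  have hs : ∀ k g, ‖(s (k + 1)).1 g - (s k).1 g‖ ≤ (1 / 2) ^ k := fun k g =>
    (Rc.nm_iff k _).2 ((hf k _ (s k).2).2 g)
  have su : Summable fun k : ℕ => (1 / 2 : ℝ) ^ k := summable_geometric_two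
  have td : ∀ g, Tendsto (fun k => (s k).1 g) atTop
      (𝓝 (η g + ∑' k, ((s (k + 1)).1 g - (s k).1 g))) := fun g => by
    have := (Summable.of_norm_bounded su fun k => hs k g).hasSum.tendsto_sum_nat.const_add (η g)
    simp only [Finset.sum_range_sub fun k => (s k).1 g] at this
    exact this.congr fun k => add_sub_cancel _ _
  refine ⟨fun g => η g + ∑' k, ((s (k + 1)).1 g - (s k).1 g), e1.add (continuous_tsum
    (fun k => (s (k + 1)).2.1.sub (s k).2.1) su hs), fun g j => sub_eq_zero.1 ?_⟩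
  refine tendsto_nhds_unique (((((td j).const_mul (cy g)).sub (td (g * j))).add (td g)).const_sub
    (z g j)) (squeeze_zero_norm (fun k => (Rc.nm_iff k _).2 ((s k).2.2 g j)) ?_)
  exact su.tendsto_atTop_zero

end Is

theorem iso : ISO := by
  intro r S P d a b hr hP ha hb
  have ec : ep r = cy := funext (Rc.ep_cy hr (cyc_ep r S hr))
  obtain ⟨c⟩ := ex_cn
  have loc : ∀ D : Subgroup GQ, B1 r d D a → ∀ t : K, Ga.B2 cy D fun g j => t * cp r d a b g j := by
    rintro D ⟨n, hn⟩ t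
    refine ⟨fun g => t * wp n (b g), (continuous_const.mul (wp_cont continuous_const
      (continuousOn_univ.1 hb.1.1))).continuousOn, fun g hg j _ => O_of (zero_mem _) ?_⟩
    simp only [cp, d2, hn g hg, hb.1.2 g trivial j trivial, wp_sub_left, wp_add_right, wp_ac, ec]
    ring
  obtain ⟨β, b1, b2⟩ := Is.lim (z := cp r d a b) fun k => Is.has c ⟨(continuous_const.mul (wp_cont
    ((continuousOn_univ.1 ha.1.1).comp continuous_fst) (hr.ac_cont d continuous_fst
      ((continuousOn_univ.1 hb.1.1).comp continuous_snd)))).continuousOn,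
      fun g _ j _ i _ => O_of (zero_mem _) (by
        simp only [d3, cp, ha.1.2 g trivial j trivial, hb.1.2 j trivial i trivial, ac_mul, ac_add,
          wp_add_left, wp_add_right, wp_ac, ec]
        ring)⟩ fun v hv n => loc _ (by
      rcases hv with rfl | hv
      · obtain ⟨φ, hφ⟩ : ∃ φ, c.w = .mk φ := ⟨_, (InfinitePlace.mk_embedding _).symm⟩
        obtain ⟨j, hj⟩ := G2.ex_conj φ
        have a1 : a 1 = 0 := by simpa [ac_one] using ha.1.2 1 trivial 1 trivial
        have jj : j * j = 1 := AlgEquiv.ext fun x => φ.injective (by simp [hj])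
        have a2 := ha.1.2 j trivial j trivial
        rw [jj, a1] at a2
        rw [D_zero, hφ, G2.st_conj hj]
        refine ⟨(-2⁻¹ : K) • a j, ?_⟩
        rintro g (rfl | rfl)
        · rw [a1, ac_one, sub_self]
        · rw [ac_smul, eq_neg_of_add_eq_zero_right a2.symm]
          module
      · rw [D_prime c hv]
        exact ha.2 v _ (c.ov v hv) n) _
  exact ⟨β, b1.continuousOn, fun g _ j _ => by rw [b2, d2, ec]; ring⟩

end Vale.Agent.P004T
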