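import Vale.Agent.P004T.Loc2C
import Vale.Agent.P022K.G2.Tr

/-!
# P004, the spine: row LOC2
-/

set_option linter.all false

noncomputable section

namespace Vale.Agent.P004T

open NumberField Matrix
open Vale.Agent.P022 (Qb GQ)
open Vale.Agent.P022D.W (dec)
open Vale.Agent.P022E.GW (Ov)
open Vale.Agent.P022K
open Vale.Agent.P004S

namespace L2

variable {r : Rp} {S : Finset ℕ} {P : Ideal (𝓞 Qb)} {D : Subgroup GQ}

abbrev M2 : Type := Matrix (Fin 2) (Fin 2) (ZMod 2)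

theorem m1 : ∀ X Y : M2, X * Y = 1 → Y = X ^ 5 ∧ X ^ 6 = 1 ∧ (X * X ≠ 1 → X * X + X + 1 = 0) := by
  decide +kernel

theorem m2 : ∀ A : M2, A * A + A + 1 = 0 → ∑ X ∈ ({1, A, A * A} : Finset M2), X * 1 * X ^ 5 = 1 ∧
    ∑ X with X ^ 6 = 1, X * A * X ^ 5 = 1 := by
  decide +kernel

theorem m3 : ∀ A : M2, A * A + A + 1 = 0 → ∀ T : M2, T ^ 6 = 1 → T ∉ ({1, A, A * A} : Finset M2) →
    Finset.univ.filter (· ^ 6 = 1) ⊆ {1, A, A * A, T, A * T, A * (A * T)} := by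
  decide +kernel

open scoped Classical

/-- the residual representation -/
def rl (r : Rp) (g : GQ) : Module.End (ZMod 2) W := toLinAlgEquiv' (rb r g)

theorem rb_inv (h : Rep r S) (g : GQ) : rb r g * rb r g⁻¹ = 1 := by
  rw [← h.rb_mul, mul_inv_cancel, rb_one]

theorem prj (h : Rep r S) {σ : GQ} (m : σ ∈ D) (e : rb r σ * rb r σ + rb r σ + 1 = 0) :
    G2.Prj D (h.Kn 1) (rl r) := by
  obtain ⟨H, hH⟩ : ∃ H : Finset M2, ∀ X, X ∈ H ↔ ∃ g ∈ D, rb r g = X :=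
    ⟨Finset.univ.filter fun X => ∃ g ∈ D, rb r g = X, fun X => by simp⟩
  choose! f f1 f2 using fun X => (hH X).1
  have k : ∀ x y, x⁻¹ * y ∈ h.Kn 1 ↔ rb r x = rb r y := fun x y => by
    rw [h.mem_Kn, h.tr_one_iff, h.rb_mul]
    exact ⟨fun e => by rw [← one_mul (rb r y), ← rb_inv h x, mul_assoc, e, mul_one],
      fun e => by simpa [← e] using rb_inv h x⁻¹⟩
  have i : ∀ g ∈ D, rb r g ∈ H := fun g m => (hH _).2 ⟨g, m, rfl⟩
  have mu : ∀ X ∈ H, ∀ Y ∈ H, X * Y ∈ H := fun X a Y b => by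
    rw [← f2 X a, ← f2 Y b, ← h.rb_mul]
    exact i _ (mul_mem (f1 X a) (f1 Y b))
  have s6 : ∀ X ∈ H, X ^ 6 = 1 := fun X a => f2 X a ▸ (m1 _ _ (rb_inv h _)).2.1
  have h1 := rb_one r ▸ i 1 D.one_mem
  have hA := i σ m
  obtain ⟨φ, hφ⟩ : ∃ φ, ∑ X ∈ H, X * φ * X ^ 5 = 1 := by
    by_cases c : H ⊆ {1, rb r σ, rb r σ * rb r σ}
    · exact ⟨1, c.antisymm (by simp [Finset.insert_subset_iff, h1, hA, mu _ hA _ hA]) ▸ (m2 _ e).1⟩
    · obtain ⟨T, a, b⟩ := Finset.not_subset.1 c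
      refine ⟨_, (Finset.sum_congr (Finset.Subset.antisymm (fun X x => by simp [s6 X x])
        ((m3 _ e T (s6 T a) b).trans ?_)) fun _ _ => rfl).trans (m2 _ e).2⟩
      simp [Finset.insert_subset_iff, h1, hA, mu _ hA _ hA, a, mu _ hA _ a,
        mu _ hA _ (mu _ hA _ a)]
  refine G2.prj_of H f f1 (fun g m => ⟨_, i g m, (k _ _).2 (f2 _ (i g m))⟩)
    (fun X a Y b e => by rw [← f2 X a, (k _ _).1 e, f2 Y b]) (toLinAlgEquiv' φ)
    (fun u _ m => by rw [rl, h.tr_one_iff.1 m, map_one, mul_one, one_mul]) ?_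
  rw [← map_one toLinAlgEquiv', ← hφ, map_sum]
  exact Finset.sum_congr rfl fun X a => by
    rw [rl, rl, (m1 _ _ (rb_inv h _)).1, f2 X a, map_mul, map_mul]

theorem rk4 (h : Rep r S) (o : Ov 2 P) {σ : GQ} (m : σ ∈ dec P)
    (e : rb r σ * rb r σ + rb r σ + 1 = 0) : G2.rk (G2.Z1 ∅ (dec P) (rl r)) = 4 := by
  have t : ∀ u ∈ h.Kn 1, rl r u = 1 := fun u m => by rw [rl, h.tr_one_iff.1 m, map_one]
  have := G2.lpc 2 (ZMod 2) W ⊤ (h.Kn 1) 2 P (rl r) isOpen_univ (h.Kn_open 1) (G2.le_gz_two _) o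
    ⟨inferInstance, ⟨by rw [rl, rb_one, map_one], fun g _ k _ => by rw [rl, h.rb_mul, map_mul]; rfl,
      (G2.ex_lv (h.Kn_open 1) (one_mem _)).imp fun _ a => ⟨a.1, fun w _ m => t w (a.2 m)⟩⟩,
      prj h ⟨trivial, m⟩ e, fun g _ u m => (h.Kn_normal 1).conj_mem u m g,
      G2.le_of_open (h.Kn_open 1) _, fun u _ => t u,
      ⟨G2.om_two _ _, fun _ _ _ _ => by simp [G2.om_two]⟩, fun _ _ _ => G2.om_two _ _⟩
  rw [top_inf_eq, show G2.Hm (dec P) (rl r) (G2.om 2 (ZMod 2)) = ⊥ from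
    eq_bot_iff.2 fun f a => LinearMap.ext fun n => ?_] at this
  · rw [this]
    simp
    norm_num
  · have b : ∀ n, f (rb r σ *ᵥ n) = f n := fun n => (a σ m n).trans (by simp [G2.om_two])
    have := congrArg (fun X => f (X *ᵥ n)) e
    simpa only [add_mulVec, ← mulVec_mulVec, map_add, b, one_mulVec, zero_mulVec, map_zero,
      CharTwo.add_self_eq_zero, zero_add, LinearMap.zero_apply] using this

theorem rv_sum {ι : Type} (T : Finset ι) {x : ι → V} (hx : ∀ i, ‖x i‖ ≤ 1) (a : ι → ZMod 2) :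
    ‖∑ i ∈ T, ((a i).val : ℚ_[2]) • x i‖ ≤ 1 ∧
      rv (∑ i ∈ T, ((a i).val : ℚ_[2]) • x i) = ∑ i ∈ T, a i • rv (x i) := by
  induction T using Finset.induction_on with
  | empty => simp [rv_zero]
  | insert i T n ih =>
    have b : ‖((a i).val : ℚ_[2]) • x i‖ ≤ 1 :=
      (norm_smul_le _ _).trans (mul_le_one₀ (norm_val_le _) (norm_nonneg _) (hx i))
    rw [Finset.sum_insert n, Finset.sum_insert n, rv_add b ih.1, ih.2, rv_smul (norm_val_le _) (hx i),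
      rd_val]
    exact ⟨norm_add_le' b ih.1, rfl⟩

section
variable {E X : Type} [NormedAddCommGroup E] [NormedSpace ℚ_[2] E] (ev : E →ₗ[ℚ_[2]] X → V)
  (hle : ∀ x g, ‖ev x g‖ ≤ ‖x‖) (hge : ∀ x, (∀ g, ‖ev x g‖ ≤ 1 / 2) → ‖x‖ ≤ 1 / 2)
include hle hge

theorem step {n : ℕ} {x : Fin n → E} (x1 : ∀ i g, ‖ev (x i) g‖ ≤ 1)
    (hx : ∃ y, y ∉ Submodule.span ℚ_[2] (Set.range x)) : ∃ y : E, (∀ g, ‖ev y g‖ ≤ 1) ∧
      (fun g => rv (ev y g)) ∉ Submodule.span (ZMod 2) (Set.range fun i g => rv (ev (x i) g)) := by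
  haveI := FiniteDimensional.span_of_finite ℚ_[2] (Set.finite_range x)
  obtain ⟨y, y0, hy⟩ := riesz_lemma (F := Submodule.span ℚ_[2] (Set.range x))
    (Submodule.closed_of_finiteDimensional _) hx (show (3 / 4 : ℝ) < 1 by norm_num)
  obtain ⟨t, t0, t1, t2, -⟩ := rescale_to_shell (c := (1 / 2 : ℚ_[2]))
    (by rw [norm_half]; norm_num) two_pos (x := y) fun z => y0 (z ▸ zero_mem _)
  have b : ∀ g, ‖ev (t • y) g‖ ≤ 1 := fun g => (pi_norm_le_iff_of_nonneg zero_le_one).2 fun i => by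
    have := ((norm_le_pi_norm _ i).trans (hle _ g)).trans_lt t1
    have := lt_one_iff (x := 2 * ev (t • y) g i)
    rw [norm_mul, norm_two] at this
    linarith [this.1 (by linarith)]
  refine ⟨t • y, b, fun f => ?_⟩
  obtain ⟨u, f⟩ := (Submodule.mem_span_range_iff_exists_fun _).1 f
  have f1 := hy (t⁻¹ • ∑ i, ((u i).val : ℚ_[2]) • x i) (Submodule.smul_mem _ _
    (Submodule.sum_mem _ fun i _ => Submodule.smul_mem _ _ (Submodule.subset_span ⟨i, rfl⟩)))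
  have f2 := hge (t • y - ∑ i, ((u i).val : ℚ_[2]) • x i) fun g => by
    have := rv_sum Finset.univ (fun i => x1 i g) u
    simpa using (rv_eq_iff (b g) this.1).1 (this.2 ▸ by simpa using (congrFun f g).symm)
  have f3 := mul_le_mul_of_nonneg_left f1 (norm_nonneg t)
  rw [← norm_smul, smul_sub, smul_inv_smul₀ t0, mul_left_comm, ← norm_smul] at f3
  rw [norm_half] at t2
  linarith

theorem ind {c : Fin 5 → E} (li : LinearIndependent ℚ_[2] c) (n : ℕ) : n ≤ 5 →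
    ∃ x : Fin n → E, (∀ i g, ‖ev (x i) g‖ ≤ 1) ∧
      LinearIndependent (ZMod 2) fun i g => rv (ev (x i) g) := by
  induction n with
  | zero => exact fun _ => ⟨Fin.elim0, fun i => i.elim0, linearIndependent_empty_type⟩
  | succ n ih =>
    intro hn
    obtain ⟨x, x1, x2⟩ := ih (by omega)
    obtain ⟨y, b, f⟩ := step ev hle hge x1 (by
      by_contra! f
      have := (linearIndependent_le_span' _ li (Set.range x) fun z _ => f z).trans
        (Nat.cast_le.2 (Fintype.card_range_le x))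
      simp at this
      omega)
    refine ⟨Fin.cons y x, Fin.cases b x1, ?_⟩
    rw [show (fun i g => rv (ev ((Fin.cons y x : Fin (n + 1) → E) i) g)) = Fin.cons
      (fun g => rv (ev y g)) fun i g => rv (ev (x i) g) from funext (Fin.cases rfl fun _ => rfl)]
    exact x2.fin_cons f

theorem sub (Z : Submodule ℚ_[2] E) {c : Fin 5 → E} (m : ∀ i, c i ∈ Z)
    (li : LinearIndependent ℚ_[2] c) : ∃ x : Fin 5 → E, (∀ i, x i ∈ Z ∧ ∀ g, ‖ev (x i) g‖ ≤ 1) ∧
      LinearIndependent (ZMod 2) fun i g => rv (ev (x i) g) := by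
  obtain ⟨x, x1, x2⟩ := ind (ev ∘ₗ Z.subtype) (fun x => hle x) (fun x => hge x)
    (c := fun i => ⟨c i, m i⟩) (.of_comp Z.subtype li) 5 le_rfl
  exact ⟨fun i => x i, fun i => ⟨(x i).2, x1 i⟩, x2⟩

end

theorem five {X : Type} [TopologicalSpace X] [CompactSpace X] {Z : Submodule ℚ_[2] C(X, V)}
    {c : Fin 5 → C(X, V)} (m : ∀ i, c i ∈ Z)
    (n : ∀ x : Fin 5 → ℚ_[2], x ≠ 0 → ∃ g, ∑ i, x i • c i g ≠ 0) : ∃ x : Fin 5 → C(X, V),
      (∀ i, x i ∈ Z ∧ ∀ g, ‖x i g‖ ≤ 1) ∧ LinearIndependent (ZMod 2) fun i g => rv (x i g) := by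
  have li : LinearIndependent ℚ_[2] c := Fintype.linearIndependent_iff.2 fun x e => by
    by_contra! x0
    obtain ⟨y, k⟩ := n x fun z => x0.elim fun i k => k (congrFun z i)
    exact k (by simpa using congrArg (· y) e)
  have k := sub (ContinuousMap.coeFnLinearMap ℚ_[2]) (fun x g => x.norm_coe_le_norm g)
    (fun x => (x.norm_le (by norm_num)).2) Z m li
  exact k

/-- the cocycles -/
def ZC (r : Rp) (d : ℤ) (D : Subgroup GQ) : Submodule ℚ_[2] C(D, V) where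
  carrier := {x | ∀ g k, x (g * k) = x g + ac r d g (x k)}
  add_mem' a b g k := by simp only [ContinuousMap.add_apply, a g k, b g k, ac_add]; abel
  zero_mem' g k := by simp [ac_zero]
  smul_mem' t _ a g k := by simp only [ContinuousMap.smul_apply, a g k, ac_smul, smul_add]

variable {d : ℤ}

/-- their reductions -/
def red (x : C(D, V)) (g : GQ) : W := if m : g ∈ D then rv (x ⟨g, m⟩) else 0

theorem re (x : C(D, V)) (g : D) : red x g = rv (x g) := dif_pos g.2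

theorem red_mem (h : Rep r S) {x : C(D, V)} (m : x ∈ ZC r d D) (x1 : ∀ g, ‖x g‖ ≤ 1) :
    red x ∈ G2.Z1 ∅ D (rl r) := by
  refine ⟨fun g a k b => ?_, fun g m => dif_neg m, ?_⟩
  · exact (re _ (⟨g, a⟩ * ⟨k, b⟩)).trans (by
      rw [m, rv_add (x1 _) ((h.norm_ac _ _ _).trans (x1 _)), h.rv_ac _ _ (x1 _), ← re, ← re])
  · obtain ⟨O, hO, eO⟩ := isOpen_induced_iff.1 ((rv_lc x.continuous).isOpen_fiber 0)
    have k : ∀ g : D, (g : GQ) ∈ O ↔ rv (x g) = 0 := fun g => Set.ext_iff.1 eO g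
    obtain ⟨W, hW, l⟩ := G2.ex_lv hO ((k 1).2 (by
      rw [show x 1 = 0 by simpa [ac_one] using m 1 1, rv_zero]))
    exact ⟨W, hW, fun w a b => (re _ ⟨w, a⟩).trans ((k ⟨w, a⟩).1 (l b))⟩

theorem no5 (h : Rep r S) (e : G2.rk (G2.Z1 ∅ D (rl r)) = 4) {x : Fin 5 → C(D, V)}
    (x1 : ∀ i, x i ∈ ZC r d D ∧ ∀ g, ‖x i g‖ ≤ 1) :
    ¬ LinearIndependent (ZMod 2) fun i g => rv (x i g) := fun x2 => by
  have l : LinearIndependent (ZMod 2) fun i => red (x i) :=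
    .of_comp (LinearMap.funLeft (ZMod 2) W ((↑) : D → GQ)) (by
      show LinearIndependent (ZMod 2) fun i (g : D) => red (x i) g
      simpa only [re] using x2)
  have m := fun i => red_mem h (x1 i).1 (x1 i).2
  generalize G2.Z1 ∅ D (rl r) = Z at e m
  have l' : LinearIndependent (ZMod 2) fun i => (⟨_, m i⟩ : Z) := .of_comp Z.subtype l
  have := l'.cardinal_le_rank.trans_eq e
  rw [Cardinal.mk_fin] at this
  exact absurd (Nat.cast_le.1 (this.trans_eq Nat.cast_ofNat.symm)) (by norm_num)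

theorem dep2 [CompactSpace D] (h : Rep r S) (e : G2.rk (G2.Z1 ∅ D (rl r)) = 4) : Dep r d D :=
  fun c a => by
  by_contra! n
  obtain ⟨z, hz⟩ : ∃ z : Fin 5 → C(D, V), ∀ i (g : D), z i g = c i g :=
    ⟨fun i => ⟨fun g => c i g, (a i).1.restrict⟩, fun _ _ => rfl⟩
  obtain ⟨x, x1, x2⟩ := five (Z := ZC r d D) (c := z)
    (fun i g k => by rw [hz, hz, hz]; exact (a i).2 g g.2 k k.2)
    fun x x0 => (n x x0).elim fun g k => ⟨⟨g, k.1⟩, by simpa only [hz] using k.2⟩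
  exact no5 h e x1 x2

end L2

/-- **row LOC2** -/
theorem loc2 : LOC2 := L2.loc2_of fun r S P d h o hn => by
  by_cases c : ∀ x ∈ dec P, Tr r 1 (x * x)
  · exact L2.dep1 d h o hn c
  · push Not at c
    obtain ⟨σ, m, c⟩ := c
    haveI := G2.cpt
    haveI : CompactSpace (dec P) := isCompact_iff_compactSpace.1 (G2.dec_closed P).isCompact
    exact L2.dep2 h (L2.rk4 h o m ((L2.m1 _ _ (L2.rb_inv h σ)).2.2 fun e =>
      c (h.tr_one_iff.2 ((h.rb_mul σ σ).trans e))))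

end Vale.Agent.P004T
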