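import Vale.Agent.P004T.Top
import Vale.Agent.P004Z.EF.Lat

/-!
# P004, the spine: multiplicity one at the level of a newform
-/

set_option linter.all false

noncomputable section

namespace Vale.Agent.P004T

open UpperHalfPlane
open P004N P004N.H65 P004N.H461 P004N.H503

section
variable {M : ℕ} {lam e : ℕ → ℝ} {g : ℍ → ℂ} {bc : ℕ → ℂ}

/-- a normalised simultaneous eigenform at a minimal level is a newform -/
theorem v1_nf (hM : Min M lam M) (hg : V1 M lam e M g bc) (hb1 : bc 1 = 1)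
    (he1 : ∀ p, p.Prime → p ∣ M → ¬ p ^ 2 ∣ M → e p ^ 2 = 1)
    (he2 : ∀ p, p.Prime → p ^ 2 ∣ M → e p = 0) :
    ∃ (b : ℕ → ℝ) (ε : ℝ), NF M g b ε ∧ (∀ q : ℕ, q.Prime → ¬ q ∣ M → b q = lam q) ∧
      ∀ p : ℕ, p.Prime → p ∣ M → b p = e p := by
  have hMpos := hM.pos
  have huniq := fun (G : ℍ → ℂ) (d : ℕ → ℂ) (hG : V1 M lam e M G d) =>
    v1_unique hMpos pfQEx pfQEu pfSupp hMpos hg hb1 hG
  have hbb : ∀ n, ((bc n).re : ℂ) = bc n := by
    obtain ⟨G, hG, hGq⟩ := pfConj M g bc hMpos hg.v.s2 hg.v.qe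
    have hGV : V1 M lam e M G (fun n => (starRingEnd ℂ) (bc n)) := by
      refine ⟨⟨hG, hGq, fun q hq hqS n => ?_⟩, fun p hp hpM n => ?_⟩
      · have h := congrArg (starRingEnd ℂ) (hg.v.hr q hq hqS n)
        split_ifs at h ⊢ <;> simpa using h
      · simpa using congrArg (starRingEnd ℂ) (hg.u p hp hpM n)
    intro n
    have h := (huniq G _ hGV).1 n
    simp only [hb1, map_one, one_mul] at h
    exact Complex.conj_eq_iff_re.1 h
  obtain ⟨b, rfl⟩ : ∃ b : ℕ → ℝ, bc = fun n => (b n : ℂ) := ⟨_, funext fun n => (hbb n).symm⟩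
  have hb1' : b 1 = 1 := Complex.ofReal_eq_one.1 hb1
  have heb : ∀ p, p.Prime → p ∣ M → b p = e p := fun p hp hpM => by
    have h := hg.u p hp hpM 1
    simp only [hb1', mul_one, Complex.ofReal_one] at h
    exact_mod_cast h
  have hlb : ∀ q, q.Prime → ¬ q ∣ M → b q = lam q := fun q hq hqS => by
    have h := hg.v.hr q hq hqS 1
    simp only [if_neg fun h' => hq.one_lt.ne' (Nat.dvd_one.1 h'), hb1', mul_one, add_zero,
      Complex.ofReal_one] at h
    exact_mod_cast h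
  have c1 := Nat.coprime_one_right M
  obtain ⟨G, c', hG, hGq, hgG, hGg, hcomm⟩ := pfWQ M M 1 hMpos (mul_one M) c1 g _ hg.v.s2 hg.v.qe
  have hGVV : VV M lam M G c' := ⟨hG, hGq, fun q hq hqS =>
    hcomm q (lam q) hq hqS (hg.v.hr q hq hqS)⟩
  have sm : ∀ (x : ℂ) {F : ℍ → ℂ} {c : ℕ → ℂ}, QE F c → QE (fun z => x * F z) fun n => x * c n :=
    fun x F c h => by simpa using qe_comb x 0 h h
  have hGV : V1 M lam e M G c' := by
    refine ⟨hGVV, fun p hp hpM n => ?_⟩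
    by_cases hp2 : p ^ 2 ∣ M
    · rw [hM.sq pfUp hp hp2 hGVV n, he2 p hp hp2]
      simp
    · obtain ⟨G1, d1, hG1, hgG1, -, -, hd1⟩ := hM.exact pfWQ pfTr hp hpM hp2 hg.v
      obtain ⟨K, k, hK, hGK, -, -, hk⟩ := hM.exact pfWQ pfTr hp hpM hp2 hGVV
      obtain ⟨L, hL⟩ := id hpM
      have hcop : p.Coprime L := hp.coprime_iff_not_dvd.2 fun h =>
        hp2 (by rw [hL, pow_two]; exact mul_dvd_mul_left p h)
      have h4 : G1 = fun z => -(e p : ℂ) * g z := funext (qe_eq_fun hG1.qe (sm _ hg.v.qe) fun n => by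
        rw [hd1 n, hg.u p hp hpM n]; ring)
      have hKz : K = fun z => -(e p : ℂ) * G z := pfWu M M 1 hMpos (mul_one M) c1 G1 K _
        (pfWcm M p L hMpos hL.symm hcop g G1 G K hg.v.s2 hgG1 hgG hGK) (h4 ▸ als_smul _ hgG)
      have h6 := hk n
      rw [pfQEu K k _ hK.qe (hKz ▸ sm _ hGq)] at h6
      linear_combination h6
  obtain ⟨hcκ, hGκ⟩ := huniq G c' hGV
  have hκ : c' 1 * c' 1 = 1 := by
    have h3 := als_smul (c' 1) hgG
    rw [show (fun z => c' 1 * g z) = G from funext fun z => (hGκ z).symm] at h3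
    have h5 : g = fun z => c' 1 * G z := pfWu M M 1 hMpos (mul_one M) c1 G g _ hGg h3
    have h8 := congrFun (pfQEu g _ _ hg.v.qe (h5 ▸ sm (c' 1) hGq :)) 1
    exact h8.symm.trans hb1
  obtain ⟨ε, hε, hεκ⟩ : ∃ ε : ℝ, (ε = 1 ∨ ε = -1) ∧ (ε : ℂ) = c' 1 := by
    rcases mul_self_eq_one_iff.1 hκ with h | h
    · exact ⟨1, Or.inl rfl, by simp [h]⟩
    · exact ⟨-1, Or.inr rfl, by simp [h]⟩
  refine ⟨b, ε, ⟨hMpos, hg.v.s2, hg.v.qe, ?_, hb1', fun p hp hpM n => ?_, fun p hp hpM n => ?_,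
    fun p hp hpM hp2 => ?_, fun p hp hp2 => ?_, hε, ?_⟩, hlb, heb⟩
  · exact_mod_cast coeff0 pfQEx pfQEu hMpos hg.v.s2 hg.v.qe
  · have h := hg.v.hr p hp hpM n
    rw [← hlb p hp hpM] at h
    split_ifs at h ⊢ <;> exact_mod_cast h
  · have h := hg.u p hp hpM n
    rw [← heb p hp hpM] at h
    exact_mod_cast h
  · rw [heb p hp hpM, he1 p hp hpM hp2]
  · rw [heb p hp ((dvd_pow_self p two_ne_zero).trans hp2), he2 p hp hp2]
  · intro x y z w hdet τ τ' hτ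
    rw [hgG x y z w hdet τ τ' hτ, hGκ τ, hεκ]
    ring

variable {b : ℕ → ℝ} {ε : ℝ}

theorem nf_min (h : NF M g b ε) : Min M b M := ⟨h.pos, fun _ _ k => k, fun M' F c h0 h1 h2 hF => by
  by_contra! k
  obtain ⟨M'', g', b', ε', h3, h4, h5⟩ := core pfQEx pfQEu pfConj pfUp pfTp pfWQ pfWu pfWcm pfTr
    pfSupp M h.pos b M' h0 (fun p _ e => e.trans h1) F c hF k
  have := (smo h3 h h.pos.ne' h5).1
  have := Nat.le_of_dvd h0 h4
  omega⟩

theorem vv_up {F : ℍ → ℂ} {c : ℕ → ℂ} (hM : 0 < M) (hF : VV M lam M F c) {p : ℕ} (hp : p.Prime)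
    (hpM : p ∣ M) : ∃ G, VV M lam M G fun n => c (p * n) := by
  obtain ⟨G, h1, h2⟩ := pfUp M M p F c hM hp hpM (dvd_mul_left _ _) hM hF.s2 hF.qe
  exact ⟨G, h1, h2, fun q hq k => hr_U hq hp (by rintro rfl; exact k hpM) (hF.hr q hq k)⟩

/-- `U_p` acts by `b p` on the whole eigenspace -/
theorem nf_up (h : NF M g b ε) {F : ℍ → ℂ} {c : ℕ → ℂ} (hF : VV M b M F c) {p : ℕ} (hp : p.Prime)
    (hpM : p ∣ M) (n : ℕ) : c (p * n) = b p * c n := by
  classical
  have hM := nf_min h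
  by_cases hp2 : p ^ 2 ∣ M
  · rw [hM.sq pfUp hp hp2 hF, h.bad2 p hp hp2]; simp
  have inv : ∀ {q F c}, q.Prime → q ∣ M → ¬ q ^ 2 ∣ M → VV M b M F c → ∀ n,
      c (q * (q * n)) = c n := fun {q F c} hq k k2 hF n => by
    obtain ⟨-, c', -, -, -, h1, h2⟩ := hM.exact pfWQ pfTr hq k k2 hF
    rw [h1 n, h2, neg_neg]
  have key : ∀ T : Finset ℕ, (∀ q ∈ T, q.Prime ∧ q ∣ M ∧ ¬ q ^ 2 ∣ M) → ∀ F c, VV M b M F c →
      (∃ n, c n ≠ 0) → (∀ n, c (p * n) = -b p * c n) → ∃ (e : ℕ → ℝ) (F : ℍ → ℂ) (c : ℕ → ℂ),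
        VV M b M F c ∧ (∃ n, c n ≠ 0) ∧ (∀ n, c (p * n) = -b p * c n) ∧
        ∀ q ∈ T, e q ^ 2 = 1 ∧ ∀ n, c (q * n) = e q * c n := by
    intro T
    induction T using Finset.induction_on with
    | empty => exact fun _ F c h1 h2 h3 => ⟨fun _ => 0, F, c, h1, h2, h3, by simp⟩
    | insert q T hq ih =>
      intro hT F c h1 h2 h3
      obtain ⟨e, F, c, h1, h2, h3, h4⟩ := ih (fun x k => hT x (Finset.mem_insert_of_mem k)) F c h1
        h2 h3
      obtain ⟨k1, k2, k3⟩ := hT q (Finset.mem_insert_self _ _)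
      by_cases k : ∀ n, c (q * n) = (-1 : ℝ) * c n
      · refine ⟨Function.update e q (-1), F, c, h1, h2, h3, fun x hx => ?_⟩
        rcases Finset.mem_insert.1 hx with rfl | hy
        · rw [Function.update_self]; exact ⟨by norm_num, k⟩
        · rw [Function.update_of_ne (by rintro rfl; exact hq hy)]; exact h4 x hy
      · obtain ⟨G, hG⟩ := vv_up h.pos h1 k1 k2
        push Not at k
        obtain ⟨m, hm⟩ := k
        refine ⟨Function.update e q 1, _, _, h1.comb 1 1 hG, ⟨m, fun k => hm ?_⟩, fun n => ?_,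
          fun x hx => ?_⟩
        · push_cast; linear_combination k
        · rw [mul_left_comm q, h3, h3]; ring
        rcases Finset.mem_insert.1 hx with rfl | hy
        · rw [Function.update_self]
          exact ⟨by norm_num, fun n => by rw [inv k1 k2 k3 h1]; push_cast; ring⟩
        · rw [Function.update_of_ne (by rintro rfl; exact hq hy)]
          exact ⟨(h4 x hy).1, fun n => by rw [mul_left_comm q, (h4 x hy).2, (h4 x hy).2]; ring⟩
  by_contra k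
  have b2 : (b p : ℂ) ^ 2 = 1 := by exact_mod_cast h.bad1 p hp hpM hp2
  obtain ⟨G, hG⟩ := vv_up h.pos hF hp hpM
  obtain ⟨e, F, c, h1, ⟨m, h2⟩, h3, h4⟩ := key (M.primeFactors.filter fun q => ¬ q ^ 2 ∣ M)
    (fun q k => by simp only [Finset.mem_filter, Nat.mem_primeFactors] at k; tauto) _ _
    (hG.comb 1 (-b p) hF) ⟨n, fun e => k (by linear_combination e)⟩ fun n => by
      rw [inv hp hpM hp2 hF]; linear_combination (-c n) * b2
  have mem : ∀ q : ℕ, q.Prime → q ∣ M → ¬ q ^ 2 ∣ M →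
      q ∈ M.primeFactors.filter fun q => ¬ q ^ 2 ∣ M := fun q k1 k2 k3 =>
    Finset.mem_filter.2 ⟨Nat.mem_primeFactors.2 ⟨k1, k2, h.pos.ne'⟩, k3⟩
  have h5 : V1 M b (fun q => if q ^ 2 ∣ M then 0 else e q) M F c := ⟨h1, fun q k1 k2 n => by
    split_ifs with k3
    · rw [hM.sq pfUp k1 k3 h1]; simp
    · exact (h4 q (mem q k1 k2 k3)).2 n⟩
  have h6 : c 1 ≠ 0 := fun e => h2 (h5.key h.pos pfQEx pfQEu pfSupp h.pos e m)
  obtain ⟨b', ε', h7, h8, h9⟩ := v1_nf hM (h5.comb (c 1)⁻¹ 0 h5) (by field_simp; ring)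
    (fun q k1 k2 k3 => by rw [if_neg k3]; exact (h4 q (mem q k1 k2 k3)).1)
    fun q _ k => if_pos k
  have h10 := (smo h7 h h.pos.ne' h8).2.2.1 p
  rw [h9 p hp hpM, if_neg hp2] at h10
  have h11 := (h4 p (mem p hp hpM hp2)).2 1
  rw [h3, h10] at h11
  have h12 : (b p : ℂ) = 0 := mul_right_cancel₀ h6 (by linear_combination -h11 / 2)
  simp [h12] at b2

end

theorem rn_of_nf {M : ℕ} {g : ℍ → ℂ} {c : ℕ → ℤ} {ε : ℝ} (h : NF M g (fun n => (c n : ℝ)) ε) :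
    RN M g c := by
  have ec : (fun n => (((c n : ℝ)) : ℂ)) = fun n => (c n : ℂ) := funext fun n => by simp
  have te : TE M c fun n => (c n : ℂ) := fun p hp k n => by
    have := h.good p hp k n
    beta_reduce at this ⊢
    split_ifs at this ⊢ <;> exact_mod_cast this
  refine ⟨h.pos, h.s2, ec ▸ h.qe, by exact_mod_cast h.zero, by exact_mod_cast h.one, te,
    fun F d h1 h2 h3 => ⟨d 1, ?_⟩⟩
  have v : ∀ {F d}, S2 M F → QE F d → TE M c d →
      V1 M (fun n => (c n : ℝ)) (fun n => (c n : ℝ)) M F d := fun {F d} h1 h2 h3 =>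
    have k : VV M (fun n => (c n : ℝ)) M F d := ⟨h1, h2, fun q hq k n => by
      simpa using h3 q hq k n⟩
    ⟨k, fun p hp hpM n => nf_up h k hp hpM n⟩
  exact (v1_unique h.pos pfQEx pfQEu pfSupp h.pos (v h.s2 (ec ▸ h.qe) te) (by
    exact_mod_cast h.one) (v h1 h2 h3)).2

theorem nrn : NRN := fun M S g b ε h hS hb => by
  obtain ⟨c, rfl⟩ := P004Z.EF.nf_int h hS hb
  have ec : (fun n => (((c n : ℝ)) : ℂ)) = fun n => (c n : ℂ) := funext fun n => by simp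
  have hR := rn_of_nf h
  have hF := P004Z.EF.prim_Pr hR.qe (by simp [hR.zero])
  obtain ⟨L, hL⟩ := P004Z.EF.isLat h hS hb hF
  refine ⟨c, L, rfl, hR, fun γ hγ => ⟨_, hL ▸ P004Z.EF.per_mem h.s2 hF hγ I, fun z =>
    hF.period (h.s2.slash γ hγ) z I⟩, fun w hw => (P004Z.EF.mem_Lam h.s2 hF).1 (hL ▸ hw)⟩

end Vale.Agent.P004T
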