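import Vale.Agent.P004T.St
import Vale.Agent.P004M.TE.All

/-!
# P004, the stages: a curve with a rational point of order two is residually reducible
-/

set_option linter.all false

noncomputable section

namespace Vale.Agent.P004T

open Vale.Agent.P004M

/-- a separable cubic with a root has an odd number of roots -/
theorem ev_sum {k : Type} [Field k] [Fintype k] [DecidableEq k] (h2 : (2 : k) ≠ 0) {a b x : k}
    (hx : x ^ 3 + a * x + b = 0) (hD : 4 * a ^ 3 + 27 * b ^ 2 ≠ 0) :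
    (2 : ℤ) ∣ ∑ y, quadraticChar k (y ^ 3 + a * y + b) := by
  obtain rfl : b = -(x ^ 3 + a * x) := eq_neg_of_add_eq_zero_right hx
  rw [show 4 * a ^ 3 + 27 * (-(x ^ 3 + a * x)) ^ 2 = (4 * a + 3 * x ^ 2) * (a + 3 * x ^ 2) ^ 2 by
    ring] at hD
  have h3 := left_ne_zero_of_mul hD
  have h4 : a + 3 * x ^ 2 ≠ 0 := fun e => right_ne_zero_of_mul hD (by rw [e]; simp)
  refine (ZMod.intCast_zmod_eq_zero_iff_dvd _ 2).1 ?_
  let h : k → ZMod 2 := fun y => if y ^ 2 + x * y + (x ^ 2 + a) = 0 then 0 else 1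
  have e1 : ∀ y, ((quadraticChar k (y ^ 3 + a * y + -(x ^ 3 + a * x)) : ℤ) : ZMod 2) =
      h y - if y = x then 1 else 0 := fun y => by
    rw [show y ^ 3 + a * y + -(x ^ 3 + a * x) = (y - x) * (y ^ 2 + x * y + (x ^ 2 + a)) by ring]
    by_cases k1 : y = x
    · subst k1
      have : ¬ y ^ 2 + y * y + (y ^ 2 + a) = 0 := fun e => h4 (by linear_combination e)
      simp [h, this]
    · by_cases k2 : y ^ 2 + x * y + (x ^ 2 + a) = 0
      · simp [h, k1, k2]
      · simp only [h, if_neg k1, if_neg k2, sub_zero]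
        rcases quadraticChar_dichotomy (mul_ne_zero (sub_ne_zero.2 k1) k2) with e | e <;> rw [e] <;>
          decide
  have e2 : ∑ y ∈ Finset.univ.erase (-x / 2), h y = 0 := by
    refine Finset.sum_involution (fun y _ => -x - y) (fun y _ => ?_) (fun y hy _ e => ?_)
      (fun y hy => ?_) fun y _ => by ring
    · simp only [h]
      rw [show (-x - y) ^ 2 + x * (-x - y) + (x ^ 2 + a) = y ^ 2 + x * y + (x ^ 2 + a) by ring]
      split_ifs <;> decide
    · exact Finset.ne_of_mem_erase hy (by rw [eq_div_iff h2]; linear_combination -e)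
    · refine Finset.mem_erase.2 ⟨fun e => Finset.ne_of_mem_erase hy ?_, Finset.mem_univ _⟩
      rw [eq_div_iff h2] at e ⊢
      linear_combination -e
  have e3 : h (-x / 2) = 1 := if_neg fun e => h3 (by
    have : -x / 2 * 2 = -x := div_mul_cancel₀ _ h2
    linear_combination 4 * e - (-x / 2 * 2 + x) * this)
  rw [Int.cast_sum, Finset.sum_congr rfl fun y _ => e1 y, Finset.sum_sub_distrib,
    ← Finset.add_sum_erase _ _ (Finset.mem_univ (-x / 2)), e2, e3]
  simp

/-- the traces of Frobenius are even at the good primes -/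
theorem ev_al {A B x : ℤ} (hx : x ^ 3 + A * x + B = 0) {p : ℕ} (hp : p.Prime)
    (hg : ¬ (p : ℤ) ∣ 2 * (4 * A ^ 3 + 27 * B ^ 2)) : (2 : ℤ) ∣ TE.al A B p := by
  have : Fact p.Prime := ⟨hp⟩
  have h := @ev_sum (ZMod p) _ _ (Classical.decEq _) (fun e => hg
    (((ZMod.intCast_zmod_eq_zero_iff_dvd 2 p).1 (by exact_mod_cast e)).mul_right _)) A B x
    (by exact_mod_cast congrArg (Int.cast : ℤ → ZMod p) hx) fun e => hg
    (((ZMod.intCast_zmod_eq_zero_iff_dvd _ p).1 (by exact_mod_cast e)).mul_left _)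
  rw [TE.al_eq hg, dvd_neg]
  exact h

/-- **the reducible stage** -/
theorem red_cg {A B : ℤ} {c : ℕ → ℤ} (h : 4 * A ^ 3 + 27 * B ^ 2 ≠ 0) (x : ℚ)
    (hx : x ^ 3 + A * x + B = 0) (hc : {p : ℕ | p.Prime ∧ TE.al A B p ≠ c p}.Finite) :
    Cg (fun a => ¬ Irr a) c := by
  obtain ⟨z, rfl⟩ : ∃ z : ℤ, algebraMap ℤ ℚ z = x := by
    refine IsIntegrallyClosed.isIntegral_iff.1 ⟨Polynomial.X ^ 3 + (Polynomial.C A * Polynomial.X +
      Polynomial.C B), Polynomial.monic_X_pow_add
        (Polynomial.degree_linear_lt.trans (by norm_num)), ?_⟩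
    rw [Polynomial.eval₂_add, Polynomial.eval₂_add, Polynomial.eval₂_mul, Polynomial.eval₂_C,
      Polynomial.eval₂_C, Polynomial.eval₂_X_pow, Polynomial.eval₂_X, ← add_assoc]
    exact hx
  have hz : z ^ 3 + A * z + B = 0 := by
    rw [eq_intCast] at hx
    exact_mod_cast hx
  intro b hb hi
  refine hi (((hb.union hc).union
    (2 * (4 * A ^ 3 + 27 * B ^ 2)).natAbs.primeFactors.finite_toSet).subset ?_)
  rintro p ⟨hp, ho⟩
  by_contra hn
  simp only [Set.mem_union, Set.mem_setOf_eq, not_or, not_and, not_not, Finset.mem_coe,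
    Nat.mem_primeFactors] at hn
  have h1 := ev_al hz hp fun e => Int.natAbs_ne_zero.2 (mul_ne_zero two_ne_zero h)
    (hn.2 hp (Int.natCast_dvd.1 e))
  have h2 := hn.1.1 hp
  rw [hn.1.2 hp] at h1
  have := Int.odd_iff.1 ho
  omega

/-- the full stage -/
theorem cg_true (c : ℕ → ℤ) : Cg (fun _ => True) c := fun _ _ => trivial

end Vale.Agent.P004T
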