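import Vale.Agent.P004F.En.Sp
import Vale.Agent.P004T.Nrn
import Vale.Agent.P004T.Iso
import Vale.Agent.P004T.Loc2
import Vale.Agent.P004T.Gw3
import Vale.Agent.P004T.Gw4
import Vale.Agent.P004T.Stage
import Vale.Agent.P004S.All
import Vale.Agent.P004Z.All
import Vale.Agent.P004Z.W2.Lf
import Vale.Agent.P004N.H3.Lib2

/-!
# P004, the spine: everything except the converse theorem
-/

set_option linter.all false

namespace Vale.Agent.P004T

open UpperHalfPlane
open P004N (EF)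
open P004N.T8 (Cont Dens Equi)

/-- **the density statement from the converse theorem** -/
theorem dens_all {C : (ℕ → ℤ) → Prop} {N : ℕ}
    {f : ℍ → ℂ} {a : ℕ → ℤ} (hK : P004F.En.CONVK3 C) (hf : EF N f a) (hC : Cg C a) :
    ∃ r : ℤ → ℕ, Cont a r ∧ Dens r ∧ ∀ k, 1 ≤ k → Equi r k := by
  obtain ⟨r, k1, -, -, k4, k5, k6, -⟩ := P004N.T8.main_all hf
  exact ⟨r, k1, P004F.En.spine3 nrn P004Z.lf P004Z.gz P004S.smith iso loc2
    (Gw.gwk2_of Gw.cntk Gw.lim) hK hf k1 k4 k6 hC, k5⟩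

end Vale.Agent.P004T
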