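import Vale.Agent.P004T.Gw0
import Vale.Agent.P004T.Gw1
import Vale.Agent.P004F.En.Sh
import Vale.Agent.P004F.Pr.All

/-!
# P004, row GWK2: the two inner rows and the assembly
-/

set_option linter.all false

noncomputable section

namespace Vale.Agent.P004T.Gw

open NumberField Matrix
open scoped NumberTheorySymbols
open Vale.Agent.P022 (Qb GQ)
open Vale.Agent.P022K.G2 (In)
open Vale.Agent.P022D.W (dec)
open Vale.Agent.P022E.GW (Ov)
open Vale.Agent.P004S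
open Vale.Agent.P004F

/-- the action modulo `2 ^ k` -/
def am (r : Rp) (n : ℤ) (k : ℕ) (g : GQ) : Matrix (Fin 2) (Fin 2) (ZMod (2 ^ k)) :=
  fun i j => rn k (sg n g * mt r g i j)

/-- cocycles modulo `2 ^ k` of the group of `ℚ(√e)`, unramified outside `T` -/
def Ap (r : Rp) (n e : ℤ) (T : Finset ℕ) (k : ℕ) : Set (GQ → Fin 2 → ZMod (2 ^ k)) :=
  {w | (∀ g ∈ kn e, ∀ h ∈ kn e, w (g * h) = w g + Pr.ac (am r n k g) (w h)) ∧
    (∀ g ∉ kn e, w g = 0) ∧ (∃ W : Subgroup GQ, IsOpen (W : Set GQ) ∧ ∀ u ∈ W, w u = 0) ∧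
    ∀ g ∈ In T, w g = 0}

/-- a strict class forces many cocycles -/
def CNTK : Prop := ∀ (r : Rp) (S : Finset ℕ) (n e : ℤ) (c : GQ → V) (P : Ideal (𝓞 Qb)) (h : GQ),
  Rep r S → n ≠ 0 → e < 0 → Rel r n c → Ov 2 P → B1 r n (dec P) c → mt r h = 1 → nu n h = 0 →
  nu e h = 0 → c h ≠ 0 →
  ∃ (T : Finset ℕ) (C : ℕ), ∀ k, 1 ≤ k → 32 ^ k ≤ C * (Ap r n e T k).ncard

/-- passage to the limit -/
def LIM : Prop := ∀ (r : Rp) (S T : Finset ℕ) (n e : ℤ) (C : ℕ), Rep r S →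
  (∀ k, 1 ≤ k → 32 ^ k ≤ C * (Ap r n e T k).ncard) →
  ∃ z : Fin 5 → GQ → V, (∀ i, Z1 r n (kn e) (z i) ∧ ∀ g ∉ kn e, z i g = 0) ∧
    ∀ a : Fin 5 → ℚ_[2], ∑ i, a i • z i = 0 → a = 0

/-- the coboundaries -/
def Bs (r : Rp) (d : ℤ) : Submodule ℚ_[2] (GQ → V) where
  carrier := {c | B1 r d Set.univ c}
  add_mem' a b := by simpa using b1_comb a b 1 1
  zero_mem' := ⟨0, fun _ _ => by simp [ac_zero]⟩
  smul_mem' x _ a := by simpa using b1_comb a a x 0

/-- corestriction is linear -/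
def cl (r : Rp) (d e : ℤ) (s : GQ) : (GQ → V) →ₗ[ℚ_[2]] GQ → V where
  toFun := En.cor r d e s
  map_add' a b := funext fun g => by
    simp only [En.cor, Pi.add_apply, ac_add]
    split_ifs <;> abel
  map_smul' x a := funext fun g => by
    simp only [En.cor, Pi.smul_apply, ac_smul, RingHom.id_apply]
    split_ifs <;> rw [smul_add]

theorem gwk2_of (hC : CNTK) (hL : LIM) : GWK2 := by
  classical
  rintro r S P d e hr hP hn hd hs h1 h2 ⟨c, c', b, b', k, k', hi⟩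
  have he := hs.sq.ne_zero
  refine h1 ⟨c, b, k.1, k'.1, fun x y hb => hi x y hb (by_contra fun h0 => ?_)⟩
  have hc := rel_comb k.2.1 k'.2.1 x y
  have h3 : B1 r (d * e) (dec P) (x • c' + y • b') := by
    rw [En.b_tw hd he hs.two]
    convert b1_comb (En.b_res hb (Set.subset_univ _)) (b1_comb k.2.2 k'.2.2 x y) 1 (-1) using 1
    module
  obtain ⟨l, hl, le⟩ := Nat.exists_prime_and_dvd (n := e.natAbs) (by have := hs.neg; omega)
  have le' : (l : ℤ) ∣ e := Int.natCast_dvd.2 le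
  have l2 : l ≠ 2 := by rintro rfl; have := hs.m8; omega
  have no : ¬ (l ∈ S ∨ (l : ℤ) ∣ d) := fun m => by
    have : NeZero l := ⟨hl.ne_zero⟩
    have := jacobiSym.eq_zero_iff_not_coprime (a := e) (b := l)
    rw [hs.spl l hl l2 m, Int.gcd, Int.natAbs_natCast, Nat.gcd_comm, Nat.gcd_eq_left le] at this
    exact one_ne_zero (this.2 hl.ne_one)
  obtain ⟨pl⟩ := pl_ex
  have o := pl.ov l hl
  have t := pl.gn l hl l2
  obtain ⟨h, a1, a2, a3⟩ := sah hc.1 h0 (hr.mt_inert o (fun m => no (.inl m)) t.1) (by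
    rw [nu_mul_left hd he, nu_inert o l2 (fun m => no (.inr m)) t.1, nu_tau o l2 hs.sq le' t,
      zero_add])
  obtain ⟨T, C, hT⟩ := hC r S _ e _ P h hr (mul_ne_zero hd he) (by linarith [hs.neg]) hc hP h3 a1
    (a2 _) (a2 _) a3
  obtain ⟨z, z1, z2⟩ := hL r S T _ e C hr hT
  obtain ⟨s, hs'⟩ := En.ex_out (e := e) (by linarith [hs.neg])
  let g := Fintype.linearCombination ℚ_[2] z
  have g1 : ∀ a, Z1 r (d * e) (kn e) (g a) ∧ ∀ j ∉ kn e, g a j = 0 := fun a => by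
    simp only [g, Fintype.linearCombination_apply]
    refine Finset.sum_induction _ (fun w => Z1 r (d * e) (kn e) w ∧ ∀ j ∉ kn e, w j = 0)
      (fun u v a b => ⟨by simpa using En.z_comb a.1 b.1 1 1, fun j m => by simp [a.2 j m, b.2 j m]⟩)
      ⟨⟨continuousOn_const, fun _ _ _ _ => by simp [ac_zero]⟩, fun _ _ => rfl⟩ fun i _ =>
        ⟨by simpa using En.z_comb (z1 i).1 (z1 i).1 (a i) 0, fun j m => by simp [(z1 i).2 j m]⟩
  have key : ∀ m, ¬ TwoR r m → (∀ a, Z1 r m (kn e) (g a)) → ∀ a b, ∃ x y : ℚ_[2],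
      x • a + y • b ∈ (Bs r m).comap (cl r m e s ∘ₗ g) ∧ ¬ (x = 0 ∧ y = 0) := fun m k z a b => by
    by_contra! h
    refine k ⟨_, _, (En.rel_iff hr hn).2 (En.cor_z hr hs' (z a)),
      (En.rel_iff hr hn).2 (En.cor_z hr hs' (z b)), fun x y j => h x y ?_⟩
    rwa [Submodule.mem_comap, map_add, map_smul, map_smul]
  refine five _ _ (LinearMap.pi fun j => if j ∈ kn e then acL r d j - LinearMap.id else 0) g
    ((injective_iff_map_eq_zero g).2 z2) (key _ h2 fun a => (g1 a).1)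
    (key _ h1 fun a => (En.z_tw hd he).1 (g1 a).1) ?_
  rintro a ⟨m, hm⟩ ⟨m', hm'⟩
  refine ⟨(1 / 2 : ℚ_[2]) • (m + m'), funext fun j => ?_⟩
  by_cases hj : j ∈ kn e
  · have e1 := hm j trivial
    have e2 := hm' j trivial
    simp only [cl, LinearMap.comp_apply, LinearMap.coe_mk, AddHom.coe_mk, En.cor, hj, if_true,
      En.ac_in hd he hj, En.ac_out hd he hs'] at e1 e2
    simp only [LinearMap.pi_apply, hj, if_true, LinearMap.sub_apply, map_smul, map_add,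
      LinearMap.id_apply, acL, LinearMap.coe_mk, AddHom.coe_mk]
    linear_combination (norm := module) (-1 / 2 : ℚ_[2]) • (e1 + e2)
  · simp [hj, (g1 a).2 j hj]

end Vale.Agent.P004T.Gw
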