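import Vale.Agent.P004T.St

/-!
# P004, the spine: row LOC2, the linear algebra
-/

set_option linter.all false

noncomputable section

namespace Vale.Agent.P004T.L2

open NumberField
open Vale.Agent.P022 (Qb GQ)
open Vale.Agent.P022D.W (dec)
open Vale.Agent.P022E.GW (Ov)
open Vale.Agent.P004S

/-- a symmetric form on a space of dimension at most two -/
theorem la {K X Y : Type} [Field K] [CharZero K] [AddCommGroup X] [Module K X] [AddCommGroup Y]
    [Module K Y] (Z R : Submodule K X) (b : X →ₗ[K] X →ₗ[K] Y) (hR : R ≤ Z)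
    (sym : ∀ u ∈ Z, ∀ v ∈ Z, b u v = b v u) (rad : ∀ u ∈ R, ∀ v ∈ Z, b u v = 0)
    (dim : ∀ u ∈ Z, ∀ v ∈ Z, ∀ w ∈ Z, ∃ x y z : K, x • u + y • v + z • w ∈ R ∧
      (x ≠ 0 ∨ y ≠ 0 ∨ z ≠ 0)) :
    ∃ L : Fin 2 → Submodule K X, (∀ i, R ≤ L i ∧ L i ≤ Z ∧ ∀ u ∈ L i, ∀ v ∈ L i, b u v = 0) ∧
      ∀ u ∈ Z, ∀ v ∈ Z, b u u = 0 → b u v = 0 → b v v = 0 → ∃ i, u ∈ L i ∧ v ∈ L i := by
  by_cases H : ∀ u ∈ Z, ∀ v ∈ Z, b u v = 0
  · exact ⟨fun _ => Z, fun _ => ⟨hR, le_rfl, H⟩, fun u hu v hv _ _ _ => ⟨0, hu, hv⟩⟩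
  obtain ⟨l, hl⟩ : ∃ l : X → Submodule K X, ∀ u w, w ∈ l u ↔ ∃ x : K, w - x • u ∈ R :=
    ⟨fun u => R ⊔ K ∙ u, fun u w => Submodule.mem_sup.trans ⟨fun ⟨a, ha, c, hc, e⟩ => by
      obtain ⟨x, rfl⟩ := Submodule.mem_span_singleton.1 hc
      exact ⟨x, by rwa [← e, add_sub_cancel_right]⟩, fun ⟨x, e⟩ => ⟨_, e, _,
        Submodule.mem_span_singleton.2 ⟨x, rfl⟩, sub_add_cancel _ _⟩⟩⟩
  have l0 : ∀ u, R ≤ l u := fun u w hw => (hl u w).2 ⟨0, by simpa⟩
  have l1 : ∀ u, u ∈ l u := fun u => (hl u u).2 ⟨1, by simp⟩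
  have l2 : ∀ u (M : Submodule K X), R ≤ M → u ∈ M → l u ≤ M := fun u M a c w hw => by
    obtain ⟨x, e⟩ := (hl u w).1 hw
    simpa using add_mem (a e) (M.smul_mem x c)
  have sm : ∀ (M : Submodule K X) (x : K) w, x ≠ 0 → x • w ∈ M → w ∈ M := fun M x w a =>
    (M.smul_mem_iff a).1
  have two : ∀ u ∈ Z, ∀ v ∈ Z, ∀ (x y x' y' : K) a a', a - (x • u + y • v) ∈ R →
      a' - (x' • u + y' • v) ∈ R → b a a' = (x * x') • b u u + (x * y' + y * x') • b u v +
        (y * y') • b v v := fun u hu v hv x y x' y' a a' e e' => by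
    have m := add_mem (Z.smul_mem x hu) (Z.smul_mem y hv)
    have m' := add_mem (Z.smul_mem x' hu) (Z.smul_mem y' hv)
    have k := rad _ e a' (by simpa using add_mem (hR e') m')
    have k' := (sym _ m _ (hR e')).trans (rad _ e' _ m)
    rw [map_sub, LinearMap.sub_apply, sub_eq_zero] at k
    rw [map_sub, sub_eq_zero] at k'
    rw [k, k']
    simp only [map_add, map_smul, LinearMap.add_apply, LinearMap.smul_apply, sym v hv u hu]
    module
  have sp : ∀ u ∈ Z, ∀ v ∈ Z, u ∉ R → v ∉ l u → ∀ w ∈ Z, ∃ x y : K, w - (x • u + y • v) ∈ R :=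
    fun u hu v hv a c w hw => by
      obtain ⟨x, y, z, e, n⟩ := dim u hu v hv w hw
      have z0 : z ≠ 0 := by
        rintro rfl
        have y0 : y = 0 := by_contra fun y0 => c (sm _ y v y0 ((hl _ _).2 ⟨-x, by
          simpa [add_comm] using e⟩))
        subst y0
        exact a (sm _ x u (by simpa using n) (by simpa using e))
      refine ⟨-(x / z), -(y / z), sm _ z _ z0 ?_⟩
      convert e using 1
      match_scalars <;> field_simp
  have all : ∀ u ∈ Z, ∀ v ∈ Z, u ∉ R → b u u = 0 → b u v = 0 → b v v = 0 → v ∈ l u :=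
    fun u hu v hv a h1 h2 h3 => by_contra fun c => H fun w hw w' hw' => by
      obtain ⟨x, y, e⟩ := sp u hu v hv a c w hw
      obtain ⟨x', y', e'⟩ := sp u hu v hv a c w' hw'
      simp [two u hu v hv _ _ _ _ _ _ e e', h1, h2, h3]
  have iso : ∀ u ∈ Z, b u u = 0 → R ≤ l u ∧ l u ≤ Z ∧ ∀ a ∈ l u, ∀ a' ∈ l u, b a a' = 0 :=
    fun u hu h => ⟨l0 u, l2 u Z hR hu, fun a ha a' ha' => by
      obtain ⟨x, e⟩ := (hl _ _).1 ha
      obtain ⟨x', e'⟩ := (hl _ _).1 ha'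
      simp [two u hu u hu x 0 x' 0 a a' (by simpa) (by simpa), h]⟩
  obtain ⟨u, hu, u0, v, hv, v0, k⟩ : ∃ u ∈ Z, b u u = 0 ∧ ∃ v ∈ Z, b v v = 0 ∧
      ∀ w ∈ Z, b w w = 0 → w ∈ l u ∨ w ∈ l v := by
    by_contra! c
    obtain ⟨u, hu, u0, a, -⟩ := c 0 (zero_mem _) (by simp) 0 (zero_mem _) (by simp)
    obtain ⟨v, hv, v0, a', -⟩ := c u hu u0 u hu u0
    obtain ⟨w, hw, w0, a1, a2⟩ := c u hu u0 v hv v0
    obtain ⟨x, y, e⟩ := sp u hu v hv (fun e => a (l0 _ e)) a' w hw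
    have k := two u hu v hv _ _ _ _ _ _ e e
    have x0 : x ≠ 0 := fun x0 => a2 ((hl _ _).2 ⟨y, by simpa [x0] using e⟩)
    have y0 : y ≠ 0 := fun y0 => a1 ((hl _ _).2 ⟨x, by simpa [y0] using e⟩)
    rw [w0, u0, v0, smul_zero, smul_zero, zero_add, add_zero, eq_comm, smul_eq_zero,
      mul_comm y, ← two_mul] at k
    exact a' (all u hu v hv (fun e => a (l0 _ e)) u0 (k.resolve_left (by simp [x0, y0])) v0)
  have k' : ∀ w ∈ Z, b w w = 0 → ∃ i, w ∈ ![l u, l v] i := fun w hw w0 =>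
    (k w hw w0).elim (fun e => ⟨0, e⟩) fun e => ⟨1, e⟩
  have g : ∀ i, R ≤ ![l u, l v] i ∧ ![l u, l v] i ≤ Z ∧ ∀ a ∈ ![l u, l v] i,
      ∀ a' ∈ ![l u, l v] i, b a a' = 0 := Fin.forall_fin_two.2 ⟨iso u hu u0, iso v hv v0⟩
  refine ⟨![l u, l v], g, fun c hc c' hc' h1 h2 h3 => ?_⟩
  by_cases e : c ∈ R
  · exact (k' c' hc' h3).imp fun i a => ⟨(g i).1 e, a⟩
  · exact (k' c hc h1).imp fun i a => ⟨a, l2 c _ (g i).1 a (all c hc c' hc' e h1 h2 h3)⟩

variable {r : Rp} {S : Finset ℕ} {d : ℤ} {D : Subgroup GQ}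

/-- the cocycles -/
def ZZ (r : Rp) (d : ℤ) (D : Subgroup GQ) : Submodule ℚ_[2] (GQ → V) where
  carrier := {c | Z1 r d D c}
  add_mem' a b := ⟨a.1.add b.1, fun g hg h hh => by
    simp only [Pi.add_apply, a.2 g hg h hh, b.2 g hg h hh, ac_add]; abel⟩
  zero_mem' := ⟨continuousOn_const, fun g _ h _ => by simp [ac_zero]⟩
  smul_mem' x _ a := ⟨a.1.const_smul x, fun g hg h hh => by
    simp only [Pi.smul_apply, a.2 g hg h hh, ac_smul, smul_add]⟩

/-- the coboundaries -/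
def BB (r : Rp) (d : ℤ) (D : Subgroup GQ) : Submodule ℚ_[2] (GQ → V) where
  carrier := {c | B1 r d D c}
  add_mem' a b := by simpa using b1_comb a b 1 1
  zero_mem' := ⟨0, fun g _ => by simp [ac_zero]⟩
  smul_mem' x _ a := by simpa using b1_comb a a x 0

/-- the coboundaries of degree two -/
def B2s (r : Rp) (D : Subgroup GQ) : Submodule ℚ_[2] (GQ → GQ → ℚ_[2]) where
  carrier := {z | B2 r D z}
  add_mem' := fun ⟨a, a1, a2⟩ ⟨b, b1, b2⟩ => ⟨a + b, a1.add b1, fun g hg h hh => by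
    simp only [Pi.add_apply, a2 g hg h hh, b2 g hg h hh]; ring⟩
  zero_mem' := ⟨0, continuousOn_const, fun g _ h _ => by simp⟩
  smul_mem' x _ := fun ⟨a, a1, a2⟩ => ⟨x • a, a1.const_smul x, fun g hg h hh => by
    simp only [Pi.smul_apply, a2 g hg h hh, smul_eq_mul]; ring⟩

/-- the cup product -/
def cpL (r : Rp) (d : ℤ) : (GQ → V) →ₗ[ℚ_[2]] (GQ → V) →ₗ[ℚ_[2]] GQ → GQ → ℚ_[2] :=
  LinearMap.mk₂ ℚ_[2] (cp r d) (fun _ _ _ => by ext; simp [cp, wp_add_left])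
    (fun _ _ _ => by ext; simp [cp, wp_smul_left])
    (fun _ _ _ => by ext; simp [cp, wp_add_right, ac_add])
    (fun _ _ _ => by ext; simp [cp, wp_smul_right, ac_smul])

theorem cob (h : Rep r S) {c : GQ → V} (a : B1 r d D c) : Z1 r d D c := by
  obtain ⟨n, a⟩ := a
  exact ⟨((h.ac_cont d continuous_id continuous_const).sub continuous_const).continuousOn.congr a,
    fun g hg k hk => by rw [a g hg, a k hk, a _ (mul_mem hg hk), ac_mul, ac_sub]; abel⟩

theorem wp_on {a b : GQ → V} (ha : ContinuousOn a D) (hb : ContinuousOn b D) :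
    ContinuousOn (fun g => wp (a g) (b g)) D := by
  rw [continuousOn_iff_continuous_restrict] at *
  exact wp_cont ha hb

/-- five cocycles are dependent -/
def Dep (r : Rp) (d : ℤ) (D : Subgroup GQ) : Prop := ∀ c : Fin 5 → GQ → V,
  (∀ i, Z1 r d D (c i)) → ∃ x : Fin 5 → ℚ_[2], x ≠ 0 ∧ ∀ g ∈ D, ∑ i, x i • c i g = 0

/-- the covering property -/
def Cov (Z B : (GQ → V) → Prop) (I : (GQ → V) → (GQ → V) → Prop)
    (L : Fin 2 → Submodule ℚ_[2] (GQ → V)) : Prop :=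
  (∀ i, (∀ u, B u → u ∈ L i) ∧ (∀ u ∈ L i, Z u) ∧ ∀ u ∈ L i, ∀ v ∈ L i, I u v) ∧
    ∀ u, Z u → ∀ v, Z v → I u u → I u v → I v v → ∃ i, u ∈ L i ∧ v ∈ L i

theorem ex_cov (h : Rep r S) (hn : ∀ v, (∀ g ∈ D, ac r d g v = v) → v = 0) (hd : Dep r d D) :
    ∃ L, Cov (Z1 r d D) (B1 r d D) (fun u v => B2 r D (cp r d u v)) L := by
  have q : ∀ u v, (cpL r d).compr₂ (B2s r D).mkQ u v = 0 ↔ B2 r D (cp r d u v) := fun u v =>
    Submodule.Quotient.mk_eq_zero _
  have := la (ZZ r d D) (BB r d D) ((cpL r d).compr₂ (B2s r D).mkQ) (fun _ => cob h)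
    (fun u a v b => (Submodule.Quotient.eq _).2 ⟨fun g => -wp (u g) (v g), (wp_on a.1 b.1).neg,
      fun g hg k hk => ?_⟩) (fun u ⟨n, a⟩ v b => (q _ _).2 ⟨fun g => wp n (v g),
        wp_on continuousOn_const b.1, fun g hg k hk => ?_⟩) fun u a v b w c => ?_
  · simp only [q] at this
    exact this
  · have := wp_ac r d g (u k) (v k)
    simp only [Pi.sub_apply, cpL, LinearMap.mk₂_apply, cp, a.2 g hg k hk, b.2 g hg k hk, wp,
      Pi.add_apply] at this ⊢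
    linear_combination -this
  · have := wp_ac r d g n (v k)
    simp only [cp, a g hg, b.2 g hg k hk, wp, Pi.add_apply, Pi.sub_apply] at this ⊢
    linear_combination this
  · obtain ⟨x, x0, e⟩ := hd ![u, v, w, fun g => ac r d g (Pi.single 0 1) - Pi.single 0 1,
      fun g => ac r d g (Pi.single 1 1) - Pi.single 1 1] fun i => by
        fin_cases i
        exacts [a, b, c, cob h ⟨_, fun _ _ => rfl⟩, cob h ⟨_, fun _ _ => rfl⟩]
    have k : ∀ g ∈ D, (x 0 • u + x 1 • v + x 2 • w) g =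
        ac r d g (-(x 3 • Pi.single 0 1 + x 4 • Pi.single 1 1)) -
          -(x 3 • Pi.single 0 1 + x 4 • Pi.single 1 1) := fun g hg => by
      have := e g hg
      simp only [Fin.sum_univ_five, Matrix.cons_val, smul_sub] at this
      simp only [ac_neg, ac_add, ac_smul, Pi.add_apply, Pi.smul_apply]
      linear_combination (exp := 1) this
    refine ⟨x 0, x 1, x 2, ⟨_, k⟩, by_contra fun n => x0 ?_⟩
    push Not at n
    have := hn _ fun g hg => (sub_eq_zero.1 ((k g hg).symm.trans (by simp [n.1, n.2.1, n.2.2])))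
    have t0 := congrFun this 0
    have t1 := congrFun this 1
    ext i
    fin_cases i
    exacts [n.1, n.2.1, n.2.2, by simpa using t0, by simpa using t1]

theorem loc2_of (H : ∀ r S P d, Rep r S → Ov 2 P → NoI r → Dep r d (dec P)) : LOC2 :=
  fun r S P h o hn => by
  have k := fun d => Classical.epsilon_spec (ex_cov h (fun v => hn 2 P d v o) (H r S P d h o hn))
  refine ⟨2, fun i => ⟨P, o, fun d => Classical.epsilon (Cov (Z1 r d (dec P)) (B1 r d (dec P))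
    fun u v => B2 r (dec P) (cp r d u v)) i, fun d d' e => ?_, fun d => ((k d).1 i).2.1,
    fun d n => ((k d).1 i).1 _ ⟨n, fun _ _ => rfl⟩, fun d => ((k d).1 i).2.2⟩, fun _ => rfl,
    fun d c c' a a' h1 h2 _ h3 => ((k d).2 c a c' a' h1 h2 h3).imp fun i m =>
      ⟨⟨c, m.1, fun _ _ => rfl⟩, c', m.2, fun _ _ => rfl⟩⟩
  have e' : ∀ g ∈ (dec P : Set GQ), ∀ v, ac r d g v = ac r d' g v := fun g hg =>
    ac_congr r (e g hg)
  have e1 : Z1 r d (dec P) = Z1 r d' (dec P) := funext fun c => by simp +contextual only [Z1, e']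
  have e2 : B1 r d (dec P) = B1 r d' (dec P) := funext fun c => by simp +contextual only [B1, e']
  have e3 : (fun u v => B2 r (dec P) (cp r d u v)) = fun u v => B2 r (dec P) (cp r d' u v) :=
    funext₂ fun u v => by simp +contextual only [B2, cp, e']
  simp only [e1, e2, e3]

end Vale.Agent.P004T.L2
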