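import Vale.Agent.P004T.Loc2A
import Vale.Agent.P004S.Bas2
import Vale.Agent.P022D.L2.Rel

/-!
# P004, the spine: row LOC2, Fox calculus
-/

set_option linter.all false

noncomputable section

namespace Vale.Agent.P004T.L2

open Filter Topology Matrix
open Vale.Agent.P022 (Qb GQ)
open Vale.Agent.P022D.L2 (Wd ev fx mA mC hp Holds RelP.Ok RelP.ev_cons RelP.ev_nil RelP.ev_map)
open Vale.Agent.P004S

section alg

/-- the dual Fox operators -/
def Sx (B : Fin 3 → V →ₗ[ℚ_[2]] V) (j : Fin 3) : Wd → V →ₗ[ℚ_[2]] V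
  | [] => 0
  | i :: w => (if i = j then LinearMap.id else 0) + Sx B j w ∘ₗ B i

/-- integral Magnus coefficients -/
def cA (j : Fin 3) (w : Wd) : ℤ := fx (fun _ => 1) j w

def cC (i j : Fin 3) : Wd → ℤ
  | [] => 0
  | k :: w => cC i j w + if k = i then cA j w else 0

theorem cA_cast (j : Fin 3) (w : Wd) : (cA j w : ZMod 2) = mA j w := by
  induction w with
  | nil => rfl
  | cons i w ih =>
    simp only [cA, mA, fx] at ih ⊢
    push_cast
    rw [ih]

theorem cC_cast (i j : Fin 3) (w : Wd) : (cC i j w : ZMod 2) = mC i j w := by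
  induction w with
  | nil => rfl
  | cons k w ih =>
    simp only [cC, mC]
    push_cast
    rw [ih, cA_cast]

variable {B : Fin 3 → V →ₗ[ℚ_[2]] V} {s t : ℝ} {m n v : V} {e : Fin 3 → ℚ_[2]}

theorem Sx_cons (j i : Fin 3) (w : Wd) (m : V) :
    Sx B j (i :: w) m = (if i = j then (1 : ℚ_[2]) else 0) • m + Sx B j w (B i m) := by
  rw [Sx]
  split_ifs <;> simp

variable (B) in
/-- a filtration -/
def Bd (s : ℝ) (m : V) : Prop := ‖m‖ ≤ s ∧ ∀ i, ‖B i m - m‖ ≤ 3 / 4 * s

theorem Bd.add (a : Bd B s m) (b : Bd B s n) : Bd B s (m + n) :=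
  ⟨norm_add_le' a.1 b.1, fun i => by
    rw [map_add, add_sub_add_comm]
    exact norm_add_le' (a.2 i) (b.2 i)⟩

theorem Bd.smul (a : Bd B s m) {x : ℚ_[2]} (h : ‖x‖ * s ≤ t) : Bd B t (x • m) :=
  ⟨(norm_smul_le _ _).trans ((mul_le_mul_of_nonneg_left a.1 (norm_nonneg _)).trans h), fun i => by
    rw [map_smul, ← smul_sub, norm_smul]
    nlinarith [mul_le_mul_of_nonneg_left (a.2 i) (norm_nonneg x)]⟩

theorem Bd.nn (a : Bd B s m) : 0 ≤ s := (norm_nonneg _).trans a.1

theorem Bd.int (a : Bd B s m) (x : ℤ) : Bd B s ((x : ℚ_[2]) • m) :=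
  a.smul (mul_le_of_le_one_left a.nn (Padic.norm_int_le_one x))

theorem Bd.half (a : Bd B s m) {x : ℚ_[2]} (h : ‖x‖ ≤ 1 / 2) : Bd B (3 / 4 * s) (x • m) :=
  a.smul (mul_le_mul_of_nonneg_right (by linarith) a.nn)

theorem Bd.sum {f : Fin 3 → V} (a : ∀ i, Bd B s (f i)) : Bd B s (∑ i, f i) := by
  rw [Fin.sum_univ_three]
  exact ((a 0).add (a 1)).add (a 2)

variable (hu : ∀ i k v, ‖B i (B k v - v) - (B k v - v)‖ ≤ 1 / 2 * ‖v‖)
include hu

theorem Bd.th (a : Bd B s m) (k : Fin 3) : Bd B (3 / 4 * s) (B k m - m) :=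
  ⟨a.2 k, fun i => (hu i k m).trans (by linarith [a.1, a.nn])⟩

theorem fox1 (j : Fin 3) (w : Wd) :
    ∀ m, Bd B s m → Bd B (3 / 4 * s) (Sx B j w m - (cA j w : ℚ_[2]) • m) := by
  induction w with
  | nil => exact fun m a => by simpa [Sx, cA, fx] using a.half (x := 0) (by simp)
  | cons i w ih =>
    intro m a
    have b := a.th hu i
    convert (ih (B i m) (by simpa using a.add (b.smul (x := 1) (by
      simp only [norm_one]; linarith [a.nn])))).add (b.int (cA j w)) using 1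
    simp only [Sx_cons, cA, fx]
    push_cast
    module

theorem fox2 (he : ∀ i, ‖e i - 1‖ ≤ 1 / 2) (h : ∀ i, Bd B s (B i v - e i • v)) (j : Fin 3) (w : Wd) :
    Bd B (3 / 4 * s) (Sx B j w v - fx e j w • v - ∑ i, (cC i j w : ℚ_[2]) • (B i v - e i • v)) := by
  induction w with
  | nil => simpa [Sx, cC, fx] using (h 0).half (x := 0) (by simp)
  | cons k w ih =>
    have e1 : ‖e k‖ ≤ 1 := by
      simpa using norm_add_le' ((he k).trans (by norm_num)) (norm_one (α := ℚ_[2])).le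
    convert ((ih.smul (mul_le_of_le_one_left ih.nn e1)).add ((Bd.sum fun i =>
      (h i).int (cC i j w)).half (he k))).add (fox1 hu j w _ (h k)) using 1
    simp only [Sx_cons, fx, cC, map_sub, map_smul, Int.cast_add, add_smul, Finset.sum_add_distrib,
      Int.cast_ite, Int.cast_zero, ite_smul, zero_smul, Finset.sum_ite_eq, Finset.mem_univ, if_true]
    generalize ∑ i, (cC i j w : ℚ_[2]) • (B i v - e i • v) = y
    module

theorem dem (hB : ∀ i v, ‖B i v‖ ≤ ‖v‖) (he : ∀ i, ‖e i - 1‖ ≤ 1 / 2) {U : Filter Wd} [U.NeBot]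
    (mag : ∀ᶠ w in U, ∀ i j, mC i j w = if i = hp j then 1 else 0)
    (l1 : ∀ j, Tendsto (fun w => Sx B j w v) U (𝓝 0)) (l2 : ∀ j, Tendsto (fx e j) U (𝓝 0))
    (i : Fin 3) : B i v = e i • v := by
  have bd : ∀ s m, ‖m‖ ≤ 3 / 4 * s → Bd B s m := fun s m a =>
    ⟨by linarith [norm_nonneg m], fun i => norm_sub_le' ((hB i m).trans a) a⟩
  obtain ⟨s, s0, hs⟩ : ∃ s, 0 < s ∧ ∀ i, ‖B i v - e i • v‖ ≤ 3 / 4 * s :=
    ⟨2 * (‖fun i => B i v - e i • v‖ + 1), by positivity, fun i => by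
      have := norm_le_pi_norm (fun i => B i v - e i • v) i
      linarith [norm_nonneg (B i v - e i • v)]⟩
  have k : ∀ n : ℕ, ∀ i, Bd B ((3 / 4) ^ n * s) (B i v - e i • v) := fun n => by
    induction n with
    | zero => exact fun i => bd _ _ (by simpa using hs i)
    | succ n ih =>
      intro i
      have l := (l1 (hp i)).sub ((l2 (hp i)).smul_const v)
      rw [zero_smul, sub_zero] at l
      obtain ⟨w, a, b⟩ := (mag.and (l.norm.eventually_le_const (u := 3 / 4 * (3 / 4 *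
        ((3 / 4) ^ n * s))) (by rw [norm_zero]; positivity))).exists
      have c := Bd.sum fun k => (ih k).half (x := ((if k = i then 1 else 0) - cC k (hp i) w : ℤ)) (by
        rw [← lt_one_iff, Padic.norm_intCast_lt_one_iff, ← ZMod.intCast_zmod_eq_zero_iff_dvd]
        push_cast
        rw [cC_cast, a, (by decide : ∀ i, hp (hp i) = i), sub_self])
      rw [pow_succ', mul_assoc]
      convert (c.add (bd _ _ b)).add ((fox2 hu he ih (hp i) w).int (-1)) using 1
      simp only [Int.cast_sub, sub_smul, Finset.sum_sub_distrib, Int.cast_ite, Int.cast_one,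
        Int.cast_zero, ite_smul, zero_smul, one_smul, Finset.sum_ite_eq', Finset.mem_univ, if_true]
      generalize ∑ k, (cC k (hp i) w : ℚ_[2]) • (B k v - e k • v) = y
      module
  have l := (tendsto_pow_atTop_nhds_zero_of_lt_one (r := (3 / 4 : ℝ)) (by norm_num)
    (by norm_num)).mul_const s
  rw [zero_mul] at l
  exact sub_eq_zero.1 (norm_le_zero_iff.1 (ge_of_tendsto' l fun n => (k n i).1))

end alg

variable {G : Type} [Group G] [TopologicalSpace G] {g : Fin 3 → G} {U : Ultrafilter Wd}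
  {r : Rp} {S : Finset ℕ} {d : ℤ} {D : Subgroup GQ} {f : G →* GQ} {c : GQ → V}

theorem holds (h : Holds g U) {N : Subgroup G} (o : RelP.Ok N) :
    (∀ᶠ w in (U : Filter Wd), ev g w ∈ N) ∧ ∀ x, ∃ w, (ev g w)⁻¹ * x ∈ N := by
  haveI := o.nm
  have := h _ (QuotientGroup.mk' N) ⟨by simpa using o.op, fun x => (o.pw x).imp fun k a => by
    rwa [← map_pow, QuotientGroup.mk'_apply, QuotientGroup.eq_one_iff]⟩
  simp only [RelP.ev_map] at this
  exact ⟨this.1.mono fun w => (QuotientGroup.eq_one_iff _).1, fun x => (this.2 x).imp fun w e =>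
    QuotientGroup.eq.1 e.symm⟩

theorem z_one (a : Z1 r d D c) : c 1 = 0 := by
  simpa [ac_one] using a.2 1 D.one_mem 1 D.one_mem

theorem tr_sq {n : ℕ} {x : GQ} (a : Tr r (n + 1) x) : Tr r (n + 2) (x * x) := tr_iff.2 fun v => by
  have b := a.norm v
  have e := (a.mono (k := 1) (by omega)).norm (mt r x *ᵥ v - v)
  rw [mt_mul, ← mulVec_mulVec, show mt r x *ᵥ mt r x *ᵥ v - v = mt r x *ᵥ (mt r x *ᵥ v - v) -
    (mt r x *ᵥ v - v) + (2 : ℚ_[2]) • (mt r x *ᵥ v - v) by rw [mulVec_sub]; module, pow_succ]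
  exact norm_add_le' (by linarith) (by rw [norm_smul, norm_two]; linarith)

theorem small [CompactSpace G] (h : Rep r S) (cf : Continuous f) (fD : ∀ x, f x ∈ D)
    (un : ∀ x ∈ D, Tr r 1 (x * x)) (a : Z1 r d D c) : ∃ M : ℝ, ∀ n : ℕ, ∃ N, RelP.Ok N ∧
      ∀ x ∈ N, ‖c (f x)‖ ≤ (1 / 2) ^ n * M := by
  have cc : Continuous fun x => c (f x) := a.1.comp_continuous cf fD
  obtain ⟨M, M0, hM⟩ : ∃ M, 0 < M ∧ ∀ x, ‖c (f x)‖ ≤ M := by
    obtain ⟨M, e⟩ := isCompact_univ.exists_bound_of_continuousOn cc.continuousOn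
    exact ⟨|M| + 1, by positivity, fun x => by linarith [e x trivial, le_abs_self M]⟩
  have mu : ∀ x y, c (f (x * y)) = c (f x) + ac r d (f x) (c (f y)) := fun x y => by
    rw [map_mul, a.2 _ (fD x) _ (fD y)]
  have iv : ∀ x, c (f x⁻¹) = -ac r d (f x⁻¹) (c (f x)) := fun x => by
    have := mu x⁻¹ x
    rwa [inv_mul_cancel, map_one, z_one a, eq_comm, add_eq_zero_iff_eq_neg] at this
  have nr : ∀ n x, Tr r n x → nu d x = 0 → ∀ v, ‖ac r d x v - v‖ ≤ (1 / 2) ^ n * ‖v‖ :=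
    fun n x b e v => by simpa [ac, sg_of_zero e] using b.norm v
  have sq : ∀ x t, Tr r 1 (f x) → nu d (f x) = 0 → ‖c (f x)‖ ≤ t → ‖c (f (x * x))‖ ≤ 1 / 2 * t :=
    fun x t b e k => by
      have := nr 1 _ b e (c (f x))
      rw [mu, show ∀ u v : V, u + v = v - u + (2 : ℚ_[2]) • u from fun u v => by module]
      exact norm_add_le' (by linarith) (by rw [norm_smul, norm_two]; linarith)
  have n2 : ∀ x, nu d (x * x) = 0 := fun x => by rw [nu_mul, CharTwo.add_self_eq_zero]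
  refine ⟨M, fun n => ⟨⟨⟨⟨{x | (Tr r n (f x) ∧ nu d (f x) = 0) ∧ ‖c (f x)‖ ≤ (1 / 2) ^ n * M},
    fun {x y} p q => ⟨map_mul f x y ▸ ⟨h.tr_mul p.1.1 q.1.1, by rw [nu_mul, p.1.2, q.1.2, add_zero]⟩,
      mu x y ▸ norm_add_le' p.2 ((h.norm_ac _ _ _).trans q.2)⟩⟩, ⟨(map_one f).symm ▸ ⟨tr_of_eq (mt_one r),
      nu_one d⟩, by rw [map_one, z_one a, norm_zero]; positivity⟩⟩, fun {x} p => ⟨map_inv f x ▸
      ⟨h.tr_inv p.1.1, (nu_inv _ _).trans p.1.2⟩, by
        rw [iv, norm_neg]; exact (h.norm_ac _ _ _).trans p.2⟩⟩,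
    ⟨⟨fun x p y => ?_⟩, ?_, fun x => ?_⟩, fun x p => p.2⟩⟩
  · have q : Tr r n (f (y * x * y⁻¹)) ∧ nu d (f (y * x * y⁻¹)) = 0 := by
      rw [map_mul, map_mul, map_inv]
      exact ⟨h.tr_conj p.1.1 _, (nu_conj _ _ _).trans p.1.2⟩
    refine ⟨q, ?_⟩
    show ‖c (f (y * x * y⁻¹))‖ ≤ _
    rw [mu, mu, iv, ac_neg, ← ac_mul, ← map_mul, show ∀ u v w : V, u + v + -w = v - (w - u) from
      fun u v w => by abel]
    exact norm_sub_le' ((h.norm_ac _ _ _).trans p.2) ((nr n _ q.1 q.2 _).trans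
      (mul_le_mul_of_nonneg_left (hM y) (by positivity)))
  · exact (((h.Kn_open n).inter (kn_open d)).preimage cf).inter
      (by
        have := (IsUltrametricDist.isOpen_closedBall (0 : V) (r := (1 / 2) ^ n * M)
          (by positivity)).preimage cc
        simp only [Set.preimage, mem_closedBall_zero_iff] at this
        exact this)
  · have k : ∀ n : ℕ, (Tr r (n + 1) (f (x ^ 2 ^ (n + 1))) ∧ nu d (f (x ^ 2 ^ (n + 1))) = 0) ∧
        ‖c (f (x ^ 2 ^ (n + 1)))‖ ≤ (1 / 2) ^ n * M := fun n => by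
      induction n with
      | zero => simpa [sq, pow_two] using ⟨⟨un _ (fD x), n2 _⟩, map_mul f x x ▸ hM (x * x)⟩
      | succ n ih =>
        rw [pow_succ 2, pow_mul, pow_two, pow_succ' (1 / 2 : ℝ), mul_assoc]
        exact ⟨map_mul f _ _ ▸ ⟨tr_sq ih.1.1, n2 _⟩, sq _ _ (ih.1.1.mono (by omega)) ih.1.2 ih.2⟩
    exact ⟨n + 1, ⟨(k n).1.1.mono (by omega), (k n).1.2⟩, (k n).2⟩

theorem half_of (T : V →ₗ[ℚ_[2]] V) (h : ∀ v, ‖v‖ ≤ 1 → ‖T v‖ ≤ 1 / 2) (v : V) :
    ‖T v‖ ≤ 1 / 2 * ‖v‖ := by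
  obtain ⟨i, e⟩ : ∃ i, ‖v i‖ = ‖v‖ := by
    obtain ⟨i, e⟩ := Finite.exists_max fun i => ‖v i‖
    exact ⟨i, (norm_le_pi_norm v i).antisymm ((pi_norm_le_iff_of_nonneg (norm_nonneg _)).2 e)⟩
  by_cases z : v i = 0
  · rw [z, norm_zero, eq_comm, norm_eq_zero] at e
    simp [e]
  · have := h ((v i)⁻¹ • v) (by rw [norm_smul, norm_inv, e, inv_mul_cancel₀ (by simpa [← e])])
    rwa [map_smul, norm_smul, norm_inv, inv_mul_le_iff₀ (norm_pos_iff.2 z), e, mul_comm] at this

theorem uni2 : ∀ X Y : Matrix (Fin 2) (Fin 2) (ZMod 2), X * X = 1 → Y * Y = 1 →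
    X * Y * (X * Y) = 1 → X * (Y - 1) - (Y - 1) = 0 := by decide +kernel

theorem dep_un [CompactSpace G] (h : Rep r S) (cf : Continuous f) (fD : ∀ x, f x ∈ D)
    (sur : ∀ y ∈ D, ∃ x, f x = y) (un : ∀ x ∈ D, Tr r 1 (x * x)) (H : Holds g U)
    (mag : ∀ᶠ w in (U : Filter Wd), ∀ i j, mC i j w = if i = hp j then 1 else 0)
    (lf : ∀ j, Tendsto (fx (fun i => ep r (f (g i))) j) U (𝓝 0))
    (hn : ∀ v, (∀ g ∈ D, ac r d g v = v) → v = 0) : Dep r d D := by
  have lm : ∀ M : ℝ, Tendsto (fun n : ℕ => (1 / 2 : ℝ) ^ n * M) atTop (𝓝 0) := fun M => by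
    simpa using (tendsto_pow_atTop_nhds_zero_of_lt_one (r := (1 / 2 : ℝ)) (by norm_num)
      (by norm_num)).mul_const M
  have z1 : ∀ c, Z1 r d D c → Tendsto (fun w => c (f (ev g w))) U (𝓝 0) := fun c a => by
    obtain ⟨M, k⟩ := small h cf fD un a
    refine NormedAddGroup.tendsto_nhds_zero.2 fun ε e => ?_
    obtain ⟨n, b⟩ := ((lm M).eventually_lt_const e).exists
    obtain ⟨N, o, k⟩ := k n
    exact (holds H o).1.mono fun w m => (k _ m).trans_lt b
  have z2 : ∀ c, Z1 r d D c → (∀ j, c (f (g j)) = 0) → ∀ y ∈ D, c y = 0 := fun c a z y m => by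
    obtain ⟨x, rfl⟩ := sur y m
    obtain ⟨M, k⟩ := small h cf fD un a
    have e : ∀ w, c (f (ev g w)) = 0 := fun w => by
      induction w with
      | nil => rw [RelP.ev_nil, map_one, z_one a]
      | cons i w ih => rw [RelP.ev_cons, map_mul, a.2 _ (fD _) _ (fD _), z, ih, ac_zero, add_zero]
    refine norm_le_zero_iff.1 (ge_of_tendsto' (lm M) fun n => ?_)
    obtain ⟨N, o, k⟩ := k n
    obtain ⟨w, m⟩ := (holds H o).2 x
    rw [← mul_inv_cancel_left (ev g w) x, map_mul, a.2 _ (fD _) _ (fD _), e, zero_add]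
    exact (h.norm_ac _ _ _).trans (k _ m)
  obtain ⟨B, hB⟩ : ∃ B : Fin 3 → V →ₗ[ℚ_[2]] V, ∀ i v,
      B i v = ep r (f (g i)) • ac r d (f (g i))⁻¹ v :=
    ⟨fun i => ep r (f (g i)) • sg d (f (g i))⁻¹ • (mt r (f (g i))⁻¹).mulVecLin, fun _ _ => rfl⟩
  have nB : ∀ i v, ‖B i v‖ ≤ ‖v‖ := fun i v => by
    rw [hB, norm_smul, h.norm_ep, one_mul]
    exact h.norm_ac _ _ _
  have re : ∀ x, rd (ep r x) = 1 := fun x => if_neg (by simp [h.norm_ep])
  have rB : ∀ i v, ‖v‖ ≤ 1 → rv (B i v) = rb r (f (g i))⁻¹ *ᵥ rv v := fun i v a => by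
    rw [hB, rv_smul (h.norm_ep _).le ((h.norm_ac _ _ _).trans a), re, one_smul, h.rv_ac _ _ a]
  have nS : ∀ j w v, ‖Sx B j w v‖ ≤ ‖v‖ := fun j w => by
    induction w with
    | nil => simp [Sx]
    | cons i w ih =>
      intro v
      rw [Sx_cons]
      exact norm_add_le' (by split_ifs <;> simp) ((ih _).trans (nB i v))
  have id : ∀ c, Z1 r d D c → ∀ w v, wp v (c (f (ev g w))) =
      ∑ j, wp (Sx B j w v) (c (f (g j))) := fun c a w => by
    induction w with
    | nil => simp [RelP.ev_nil, z_one a, Sx, wp]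
    | cons i w ih =>
      intro v
      have := wp_ac r d (f (g i)) (ac r d (f (g i))⁻¹ v) (c (f (ev g w)))
      rw [← ac_mul, mul_inv_cancel, ac_one, ← wp_smul_left, ← hB, ih] at this
      simp [RelP.ev_cons, a.2 _ (fD _) _ (fD _), wp_add_right, this, Sx_cons, wp_add_left,
        Finset.sum_add_distrib, wp_smul_left, -ite_smul]
  choose y _ hy using fun (j : Fin 3) (v : V) => (isCompact_closedBall (0 : V) ‖v‖).ultrafilter_le_nhds
    (U.map fun w => Sx B j w v) (le_principal_iff.2 (mem_map.2 (Eventually.of_forall fun w =>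
      mem_closedBall_zero_iff.2 (nS j w v))))
  have hy : ∀ j v, Tendsto (fun w => Sx B j w v) U (𝓝 (y j v)) := hy
  let Φ : (Fin 3 → V) →ₗ[ℚ_[2]] V →ₗ[ℚ_[2]] ℚ_[2] := LinearMap.mk₂ ℚ_[2]
    (fun m v => ∑ j, wp (y j v) (m j))
    (fun _ _ _ => by simp [wp_add_right, Finset.sum_add_distrib])
    (fun _ _ _ => by simp [wp_smul_right, Finset.mul_sum])
    (fun _ u v => by simp [fun j => tendsto_nhds_unique (hy j (u + v)) (by
      simpa using (hy j u).add (hy j v)), wp_add_left, Finset.sum_add_distrib])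
    (fun t _ v => by simp [fun j => tendsto_nhds_unique (hy j (t • v)) (by
      simpa using (hy j v).const_smul t), wp_smul_left, Finset.mul_sum])
  have sj : Function.Surjective Φ := LinearMap.flip_injective_iff₁.1
    ((injective_iff_map_eq_zero _).2 fun v e => hn v fun x m => sub_eq_zero.1 (z2 _
      (cob h ⟨v, fun _ _ => rfl⟩) (fun i => ?_) x m))
  · intro c a
    by_contra! n
    have li : LinearIndependent ℚ_[2] fun i : Fin 5 => (⟨fun j => c i (f (g j)),
        LinearMap.ext fun v => tendsto_nhds_unique (tendsto_finset_sum _ fun j _ =>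
          ((wp_cont continuous_id continuous_const).tendsto _).comp (hy j v)) (by
            simpa [wp_zero_right, id _ (a i), Function.comp_def] using ((wp_cont
              (continuous_const (y := v)) continuous_id).tendsto _).comp (z1 _ (a i)))⟩ :
        LinearMap.ker Φ) := Fintype.linearIndependent_iff.2 fun x e => by
      by_contra! x0
      obtain ⟨y, m, k⟩ := n x fun z => x0.elim fun i k => k (congrFun z i)
      have := z2 (∑ i, x i • c i) ((ZZ r d D).sum_mem fun i _ => (ZZ r d D).smul_mem (x i) (a i))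
        (fun j => by simpa using congrFun (congrArg Subtype.val e) j) y m
      exact k (by simpa using this)
    have e1 := li.fintype_card_le_finrank
    have e2 := Φ.finrank_range_add_finrank_ker
    rw [LinearMap.range_eq_top.2 sj] at e2
    simp [Module.finrank_pi_fintype] at e1 e2
    omega
  · have y0 : ∀ j, y j v = 0 := fun j => by
      have k := fun m => LinearMap.congr_fun e (Pi.single j m)
      have k0 := k (Pi.single 0 1)
      have k1 := k (Pi.single 1 1)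
      simp [Φ, Pi.single_apply, apply_ite (wp _), wp_zero_right] at k0 k1
      ext t
      fin_cases t
      exacts [by simpa [wp] using k1, by simpa [wp] using k0]
    have hu : ∀ i k v, ‖v‖ ≤ 1 → ‖B i (B k v - v) - (B k v - v)‖ ≤ 1 / 2 := fun i k v a => by
      have b := norm_sub_le' ((nB k v).trans a) a
      have u := fun x m => (h.rb_mul x x).symm.trans (h.tr_one_iff.1 (un x m))
      have := uni2 _ _ (u _ (inv_mem (fD (g i)))) (u _ (inv_mem (fD (g k))))
        (h.rb_mul _ _ ▸ u _ (mul_mem (inv_mem (fD _)) (inv_mem (fD _))))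
      rw [← rv_eq_zero, rv_sub ((nB _ _).trans b) b, rB _ _ b, rv_sub ((nB k v).trans a) a,
        rB _ _ a]
      simpa only [sub_mulVec, ← mulVec_mulVec, one_mulVec, zero_mulVec]
        using congrArg (· *ᵥ rv v) this
    have := dem (B := B) (e := fun i => ep r (f (g i))) (fun i k =>
      half_of (B i ∘ₗ (B k - .id) - (B k - .id) :) (hu i k)) nB (fun i => (rd_eq_iff (h.norm_ep _).le norm_one.le).1
        ((re _).trans rd_one.symm)) mag (fun j => y0 j ▸ hy j v) lf i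
    rw [hB] at this
    have := congrArg (ac r d (f (g i))) (smul_right_injective _ (norm_ne_zero_iff.1
      (by simp [h.norm_ep])) this)
    rw [← ac_mul, mul_inv_cancel, ac_one] at this
    rw [← this, sub_self]

end Vale.Agent.P004T.L2
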