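import Vale.Agent.P004T.Loc2B
import Vale.Agent.P004S.Gal1
import Vale.Agent.P022K.RT.Tr

/-!
# P004, the spine: row LOC2, the residually unipotent case
-/

set_option linter.all false

noncomputable section

namespace Vale.Agent.P004T.L2

open NumberField Filter Topology
open Vale.Agent.P022 (Qb GQ)
open Vale.Agent.P022D.W (dec)
open Vale.Agent.P022E.GW (Ov)
open Vale.Agent.P022D.L2 (Wd ev fx Holds Loc2 RelP.Ok RelP.ev_cons RelP.ev_nil Ar.kum Ar.sg_inj
  Ar.sg_sq Ar.lc)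
open Vale.Agent.P004S

theorem norm_dvd {n : ℕ} {a : ℤ} (h : (2 : ℤ) ^ n ∣ a) : ‖(a : ℚ_[2])‖ ≤ (1 / 2) ^ n := by
  obtain ⟨b, rfl⟩ := h
  push_cast
  rw [norm_mul, norm_two_pow]
  exact mul_le_of_le_one_right (by positivity) (Padic.norm_int_le_one b)

theorem ex_nat (n : ℕ) {x : ℚ_[2]} (h : ‖x‖ ≤ 1) : ∃ a : ℕ, ‖x - a‖ ≤ (1 / 2) ^ n := by
  obtain ⟨b, e⟩ := Ideal.mem_span_singleton'.1 (PadicInt.appr_spec n (⟨x, h⟩ : ℤ_[2]))
  refine ⟨PadicInt.appr (⟨x, h⟩ : ℤ_[2]) n, ?_⟩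
  have : (b : ℚ_[2]) * 2 ^ n = x - PadicInt.appr (⟨x, h⟩ : ℤ_[2]) n := by
    have := congrArg (fun y : ℤ_[2] => (y : ℚ_[2])) e
    simp only [PadicInt.coe_mul, PadicInt.coe_pow, PadicInt.coe_natCast, PadicInt.coe_sub] at this
    exact this
  rw [← this, norm_mul, norm_two_pow]
  exact mul_le_of_le_one_left (by positivity) b.2

theorem fx_lim {k L : Type} [Field k] [Field L] [Algebra k L] [CharZero L] [IsGalois k L]
    [IsAlgClosed L] {g : Fin 3 → Gal(L / k)} {a : Fin 3 → Gal(L / k) → ZMod 2} (A : Loc2 g a)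
    {U : Ultrafilter Wd} (H : Holds g U) {ε : Gal(L / k) →* ℚ_[2]} (c : Continuous ε)
    (e1 : ∀ x, ‖ε x - 1‖ ≤ 1 / 2) (hz : ∀ n : ℕ, ∃ z : L, IsPrimitiveRoot z (2 ^ n) ∧
      ∀ x (a : ℕ), ‖ε x - a‖ ≤ (1 / 2) ^ n → x z = z ^ a) (j : Fin 3) :
    Tendsto (fx (fun i => ε (g i)) j) U (𝓝 0) := by
  have e0 : ∀ x, ‖ε x‖ ≤ 1 := fun x => by
    simpa using norm_add_le' ((e1 x).trans (by norm_num)) (norm_one (α := ℚ_[2])).le
  refine NormedAddGroup.tendsto_nhds_zero.2 fun δ d0 => ?_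
  obtain ⟨n, hn⟩ := exists_pow_lt_of_lt_one d0 (show (1 / 2 : ℝ) < 1 by norm_num)
  obtain ⟨z, hz, cz⟩ := hz (n + 1)
  choose s s0 hs using fun i => Ar.kum (k := k) (L := L) ⊤ isClosed_univ (A.hom i).1
    fun x _ y _ => by rw [(A.hom i).2, one_mul]
  choose β hβ using fun i => IsAlgClosed.exists_pow_nat_eq (s i) (pow_pos two_pos n)
  have β0 : ∀ i, β i ≠ 0 := fun i e => s0 i (by rw [← hβ, e, zero_pow (by positivity)])
  choose u hu using fun i (x : Gal(L / k)) => show ∃ m : ℕ, x (β i) = z ^ m * β i by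
    obtain ⟨m, -, e⟩ := hz.eq_pow_of_pow_eq_one (ξ := x (β i) / β i) (by
      rw [pow_succ, pow_mul, div_pow, ← map_pow, hβ, hs i x trivial, mul_div_cancel_right₀ _ (s0 i),
        sq, Ar.sg_sq])
    exact ⟨m, by rw [e, div_mul_cancel₀ _ (β0 i)]⟩
  have pw : ∀ a b : ℕ, z ^ a = z ^ b → ‖(a : ℚ_[2]) - b‖ ≤ (1 / 2) ^ (n + 1) := fun a b e => by
    rw [pow_eq_pow_mod a hz.pow_eq_one, pow_eq_pow_mod b hz.pow_eq_one] at e
    exact_mod_cast norm_dvd (by exact_mod_cast Nat.ModEq.dvd (hz.pow_inj (Nat.mod_lt _ (by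
      positivity)) (Nat.mod_lt _ (by positivity)) e).symm : (2 : ℤ) ^ (n + 1) ∣ a - b)
  have nn : ∀ m : ℕ, ‖(m : ℚ_[2])‖ ≤ 1 := fun m => by simpa using Padic.norm_int_le_one (p := 2) m
  have co : ∀ i x y, ‖(u i (x * y) : ℚ_[2]) - (u i x + ε x * u i y)‖ ≤ (1 / 2) ^ (n + 1) :=
    fun i x y => by
      obtain ⟨b, e⟩ := ex_nat (n + 1) (e0 x)
      have := pw (u i (x * y)) (u i x + b * u i y) (mul_right_cancel₀ (β0 i) (by
        rw [← hu, AlgEquiv.mul_apply, hu i y, map_mul, map_pow, cz x b e, hu]; ring))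
      refine le_of_eq_of_le (congrArg _ ?_) (norm_sub_le' this ((norm_mul_le (ε x - b) (u i y)).trans
        ((mul_le_of_le_one_right (norm_nonneg _) (nn _)).trans e)))
      push_cast
      ring
  have u0 : ∀ i x, x (β i) = β i → ‖(u i x : ℚ_[2])‖ ≤ (1 / 2) ^ (n + 1) := fun i x e => by
    simpa using pw (u i x) 0 (mul_right_cancel₀ (β0 i) (by rw [← hu, e, pow_zero, one_mul]))
  have wd : ∀ i w, ‖(u i (ev g w) : ℚ_[2]) - ∑ j, u i (g j) * fx (fun i => ε (g i)) j w‖ ≤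
      (1 / 2) ^ (n + 1) := fun i w => by
    induction w with
    | nil => simpa [fx] using u0 i _ rfl
    | cons l w ih =>
      refine le_of_eq_of_le (congrArg _ ?_) (norm_add_le' (co i (g l) (ev g w)) ((norm_mul_le
        (ε (g l)) _).trans ((mul_le_of_le_one_left (norm_nonneg _) (e0 _)).trans ih)))
      simp only [RelP.ev_cons, fx, mul_add, Finset.sum_add_distrib, mul_ite, mul_one, mul_zero,
        Finset.sum_ite_eq, Finset.mem_univ, if_true, mul_left_comm _ (ε _), ← Finset.mul_sum]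
      ring
  have pa : ∀ i j, ‖(u i (g j) : ℚ_[2]) - if i = j then 1 else 0‖ ≤ 1 / 2 := fun i j => by
    have e := hs i (g j) trivial
    rw [← hβ, map_pow, hu, mul_pow, hβ, ← pow_mul, mul_comm (u _ _), pow_mul,
      (hz.pow (by positivity) (pow_succ 2 n)).eq_neg_one_of_two_right, neg_one_pow_eq_pow_mod_two,
      ← ZMod.val_natCast] at e
    have := (Ar.sg_inj (s0 i) e).trans (A.dual i j)
    simpa using norm_dvd (n := 1) (a := u i (g j) - if i = j then 1 else 0) (by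
      rw [pow_one, ← Nat.cast_two, ← ZMod.intCast_zmod_eq_zero_iff_dvd]
      push_cast
      rw [this, sub_self])
  have fz : ∀ x, ‖ε x - 1‖ ≤ (1 / 2) ^ (n + 1) → x z = z := fun x e => by
    simpa using cz x 1 (by simpa using e)
  have o : RelP.Ok ⟨⟨⟨{x | ‖ε x - 1‖ ≤ (1 / 2) ^ (n + 1) ∧ ∀ i, x (β i) = β i}, fun {x y} p q =>
      ⟨by
        rw [map_mul, show ε x * ε y - 1 = ε x * (ε y - 1) + (ε x - 1) by ring]
        exact norm_add_le' ((norm_mul_le _ _).trans ((mul_le_of_le_one_left (norm_nonneg _)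
          (e0 _)).trans q.1)) p.1, fun i => by rw [AlgEquiv.mul_apply, q.2, p.2]⟩⟩,
      by simp, fun _ => rfl⟩, fun {x} p => ⟨by
        rw [show ε x⁻¹ - 1 = -(ε x⁻¹ * (ε x - 1)) by
          rw [mul_sub, ← map_mul, inv_mul_cancel, map_one]; ring, norm_neg]
        exact (norm_mul_le _ _).trans ((mul_le_of_le_one_left (norm_nonneg _) (e0 _)).trans p.1),
      fun i => by rw [← congrArg (x⁻¹ :) (p.2 i), ← AlgEquiv.mul_apply, inv_mul_cancel]; rfl⟩⟩ := by
    refine ⟨⟨fun x p y => ⟨?_, fun i => ?_⟩⟩, ?_, fun x => ⟨n + (n + 1), ?_⟩⟩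
    · rw [map_mul, map_mul, mul_right_comm, ← map_mul, mul_inv_cancel, map_one, one_mul]
      exact p.1
    · rw [AlgEquiv.mul_apply, AlgEquiv.mul_apply, hu i y⁻¹, map_mul x, map_pow, fz x p.1, p.2,
        ← hu, ← AlgEquiv.mul_apply, mul_inv_cancel]
      rfl
    · have := (IsUltrametricDist.isOpen_closedBall (1 : ℚ_[2]) (r := (1 / 2) ^ (n + 1))
        (by positivity)).preimage c
      simp only [Set.preimage, mem_closedBall_iff_norm] at this
      have t := isOpen_iInter_of_finite fun i => (Ar.lc (k := k) (β i)).isOpen_fiber (β i)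
      rw [← Set.setOf_forall] at t
      exact this.inter t
    · have p : ∀ m : ℕ, ‖ε (x ^ 2 ^ m) - 1‖ ≤ (1 / 2) ^ (m + 1) := fun m => by
        induction m with
        | zero => simpa using e1 x
        | succ m ih =>
          rw [pow_succ 2, pow_mul, map_pow, show ∀ t : ℚ_[2], t ^ 2 - 1 = (t - 1) * (t - 1 + 2) from
            fun t => by ring, norm_mul, pow_succ _ (m + 1)]
          exact mul_le_mul ih (norm_add_le' (e1 _) norm_two.le) (norm_nonneg _) (by positivity)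
      refine ⟨(p _).trans (half_anti (by omega)), fun i => ?_⟩
      have q : ∀ m : ℕ, ((x ^ 2 ^ n) ^ m) (β i) = z ^ (m * u i (x ^ 2 ^ n)) * β i := fun m => by
        induction m with
        | zero => simp
        | succ m ih =>
          rw [pow_succ', AlgEquiv.mul_apply, ih, map_mul, map_pow, fz _ (p n), hu]
          ring
      rw [pow_add, pow_mul, q, pow_mul, hz.pow_eq_one, one_pow, one_mul]
  refine (holds H o).1.mono fun w m => lt_of_le_of_lt ?_ hn
  obtain ⟨i, e⟩ := Finite.exists_max fun j => ‖fx (fun i => ε (g i)) j w‖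
  have b : ∀ l, ‖((u i (g l) : ℚ_[2]) - if i = l then 1 else 0) * fx (fun i => ε (g i)) l w‖ ≤
      1 / 2 * ‖fx (fun i => ε (g i)) i w‖ := fun l => (norm_mul_le _ _).trans
    (mul_le_mul (pa i l) (e l) (norm_nonneg _) (by norm_num))
  have b1 := norm_add_le' (norm_add_le' (b 0) (b 1)) (b 2)
  have b2 := norm_sub_le' (u0 i _ (m.2 i)) (wd i w)
  have b3 := norm_sub_le (_ : ℚ_[2]) _ |>.trans (add_le_add b2 b1)
  rw [← Fin.sum_univ_three fun l => ((u i (g l) : ℚ_[2]) - if i = l then 1 else 0) *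
    fx (fun i => ε (g i)) l w] at b3
  simp only [sub_mul, Finset.sum_sub_distrib, sub_sub_cancel, ite_mul, one_mul, zero_mul,
    Finset.sum_ite_eq, Finset.mem_univ, if_true, pow_succ] at b3
  linarith [e j]

theorem dep1 {r : Rp} {S : Finset ℕ} {P : Ideal (𝓞 Qb)} (d : ℤ) (h : Rep r S) (o : Ov 2 P)
    (hn : NoI r) (un : ∀ x ∈ dec P, Tr r 1 (x * x)) : Dep r d (dec P) := by
  obtain ⟨j, jc, js, ⟨ι, key, -⟩, -⟩ := P022K.RT.Tr.exists_j 2 o
  obtain ⟨g, a, A⟩ := P022D.L2.ar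
  obtain ⟨U, R, H⟩ := P022D.L2.relS _ g a A
  have cf : Continuous ((dec P).subtype.comp j) := continuous_subtype_val.comp jc
  refine dep_un (f := (dec P).subtype.comp j) h cf (fun x => (j x).2) (fun y m => (js ⟨y, m⟩).imp
    fun x e => congrArg Subtype.val e) un H (R.mag.mono fun w e => e.2) (fx_lim A H
      (ε := (⟨⟨ep r, ep_one r⟩, ep_mul r⟩ : GQ →* ℚ_[2]).comp ((dec P).subtype.comp j))
      (h.ep_cont.comp cf) (fun x => (rd_eq_iff (h.norm_ep _).le norm_one.le).1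
        ((if_neg (by simp [h.norm_ep])).trans rd_one.symm)) fun n => ?_) fun v => hn 2 P d v o
  obtain ⟨z, hz⟩ := HasEnoughRootsOfUnity.exists_primitiveRoot Qb (2 ^ n)
  exact ⟨ι z, hz.map_of_injective ι.injective, fun x b e => by
    rw [← key, cyc_ep r S h (j x) n b z hz.pow_eq_one e, map_pow]⟩

end Vale.Agent.P004T.L2
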